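import Mathlib

/-!
P125: for all `w`, `L`, `δ` there is a finite law on increasing sequences of naturals all of whose
length `w` subsequences among the first `L` terms have the same law up to `δ`.
-/

namespace Vale.Agent.P125

open Finset

/-- Uniform average over a finite type. -/
noncomputable def avg {α : Type*} [Fintype α] (f : α → ℝ) : ℝ :=
  (∑ a, f a) / (Fintype.card α : ℝ)

theorem avg_nonneg {α : Type*} [Fintype α] {f : α → ℝ} (h : ∀ a, 0 ≤ f a) : 0 ≤ avg f :=
  div_nonneg (Finset.sum_nonneg fun a _ => h a) (Nat.cast_nonneg _)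

theorem avg_le {α : Type*} [Fintype α] [Nonempty α] {f : α → ℝ} {c : ℝ} (h : ∀ a, f a ≤ c) :
    avg f ≤ c := by
  rw [avg, div_le_iff₀ (by exact_mod_cast Fintype.card_pos)]
  calc ∑ a, f a ≤ ∑ _a : α, c := Finset.sum_le_sum fun a _ => h a
    _ = c * (Fintype.card α : ℝ) := by simp [mul_comm]

theorem avg_mem {α : Type*} [Fintype α] [Nonempty α] {f : α → ℝ}
    (h : ∀ a, f a ∈ Set.Icc (0 : ℝ) 1) : avg f ∈ Set.Icc (0 : ℝ) 1 :=
  ⟨avg_nonneg fun a => (h a).1, avg_le fun a => (h a).2⟩

theorem avg_sub {α : Type*} [Fintype α] (f g : α → ℝ) :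
    avg f - avg g = avg (fun a => f a - g a) := by
  simp [avg, Finset.sum_sub_distrib, sub_div]

theorem abs_avg_le {α : Type*} [Fintype α] [Nonempty α] {f : α → ℝ} {c : ℝ} (h : ∀ a, |f a| ≤ c) :
    |avg f| ≤ c := by
  rw [avg, abs_div, Nat.abs_cast, div_le_iff₀ (by exact_mod_cast Fintype.card_pos)]
  calc |∑ a, f a| ≤ ∑ a, |f a| := Finset.abs_sum_le_sum_abs _ _
    _ ≤ ∑ _a : α, c := Finset.sum_le_sum fun a _ => h a
    _ = c * (Fintype.card α : ℝ) := by simp [mul_comm]

theorem avg_prod {α β : Type*} [Fintype α] [Fintype β] (f : α × β → ℝ) :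
    avg f = avg (fun a => avg (fun b => f (a, b))) := by
  simp only [avg, Fintype.sum_prod_type, Fintype.card_prod, Nat.cast_mul]
  rw [← Finset.sum_div, div_div, mul_comm]

theorem avg_comm {α β : Type*} [Fintype α] [Fintype β] (f : α → β → ℝ) :
    avg (fun a => avg (fun b => f a b)) = avg (fun b => avg (fun a => f a b)) := by
  simp only [avg, ← Finset.sum_div, div_div]
  rw [Finset.sum_comm, mul_comm]

theorem avg_const {α : Type*} [Fintype α] [Nonempty α] (c : ℝ) : avg (fun _ : α => c) = c := by
  have : (Fintype.card α : ℝ) ≠ 0 := by exact_mod_cast Fintype.card_ne_zero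
  simp [avg, this]

/-- Resampling one coordinate does not change the average. -/
theorem avg_update {ι α : Type*} [Fintype ι] [DecidableEq ι] [Fintype α] [Nonempty α] (i : ι)
    (F : (ι → α) → ℝ) :
    avg F = avg (fun η => avg (fun v => F (Function.update η i v))) := by
  have h : avg (fun q : (ι → α) × α => F (Function.update q.1 i q.2))
      = avg (fun q : (ι → α) × α => F q.1) := by
    unfold avg
    congr 1
    refine Fintype.sum_equiv
      { toFun := fun q => (Function.update q.1 i q.2, q.1 i)
        invFun := fun q => (Function.update q.1 i q.2, q.1 i)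
        left_inv := fun q => by simp
        right_inv := fun q => by simp } _ _ (fun q => ?_)
    rfl
  rw [avg_prod, avg_prod] at h
  rw [h]
  simp [avg_const]

/-- Restricting to an injective family of coordinates does not change the average. -/
theorem avg_comp_injective {ι κ α : Type*} [Fintype ι] [Fintype κ] [Fintype α] [Nonempty α]
    [DecidableEq ι] [DecidableEq κ] (e : κ → ι) (he : Function.Injective e) (F : (κ → α) → ℝ) :
    avg (fun η : ι → α => F (η ∘ e)) = avg F := by
  classical
  let f : ((κ → α) × ({j : ι // j ∉ Set.range e} → α)) ≃ (ι → α) :=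
    { toFun := fun q j =>
        if h : j ∈ Set.range e then q.1 h.choose else q.2 ⟨j, h⟩
      invFun := fun η => (η ∘ e, fun j => η j.1)
      left_inv := fun q => by
        ext x
        · simp only [Function.comp_apply]
          rw [dif_pos (Set.mem_range_self x)]
          exact congrArg q.1 (he (Set.mem_range_self (f := e) x).choose_spec)
        · simp [x.2]
      right_inv := fun η => by
        ext j
        by_cases h : j ∈ Set.range e
        · simp only [dif_pos h, Function.comp_apply]
          rw [h.choose_spec]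
        · simp only [dif_neg h] }
  calc avg (fun η : ι → α => F (η ∘ e))
      = avg (fun q : (κ → α) × ({j : ι // j ∉ Set.range e} → α) => F q.1) := by
        unfold avg
        rw [Fintype.card_congr f]
        congr 1
        refine (Fintype.sum_equiv f _ _ fun q => ?_).symm
        exact congrArg F (congrArg Prod.fst (f.left_inv q)).symm
    _ = avg F := by rw [avg_prod]; simp [avg_const]

theorem abs_sum_shift_le (f : ℕ → ℝ) (hf : ∀ x, f x ∈ Set.Icc (0 : ℝ) 1) (q D : ℕ) :
    |∑ r ∈ range q, f (r + D) - ∑ r ∈ range q, f r| ≤ D := by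
  induction D with
  | zero => simp
  | succ D ih =>
    have e : ∑ r ∈ range q, f (r + (D + 1)) - ∑ r ∈ range q, f (r + D) = f (q + D) - f D := by
      have h1 := Finset.sum_range_succ' (fun r => f (r + D)) q
      rw [Finset.sum_range_succ] at h1
      simp only [Nat.zero_add] at h1
      have : ∀ r, r + (D + 1) = r + 1 + D := fun r => by omega
      simp only [this]
      linarith
    have hb : |f (q + D) - f D| ≤ 1 := by
      have a := hf (q + D); have b := hf D
      simp only [Set.mem_Icc] at a b
      rw [abs_le]; constructor <;> linarith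
    push_cast
    rw [abs_le] at ih hb ⊢
    constructor <;> linarith

theorem sum_range_mod (f : ℕ → ℝ) (q m : ℕ) :
    ∑ v ∈ range (q * m), f (v % q) = (m : ℝ) * ∑ r ∈ range q, f r := by
  induction m with
  | zero => simp
  | succ m ih =>
    rw [Nat.mul_succ, Finset.sum_range_add, ih]
    have : ∀ x ∈ range q, f ((q * m + x) % q) = f x := fun x hx => by
      rw [Nat.mul_add_mod, Nat.mod_eq_of_lt (Finset.mem_range.1 hx)]
    rw [Finset.sum_congr rfl this]
    push_cast; ring

theorem abs_avg_mod_shift (f : ℕ → ℝ) (hf : ∀ x, f x ∈ Set.Icc (0 : ℝ) 1) {P q : ℕ} (hq : 0 < q)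
    (hP : 0 < P) (hdvd : q ∣ P) (D : ℕ) :
    |avg (fun v : Fin P => f (v.val % q + D)) - avg (fun v : Fin P => f (v.val % q))|
      ≤ (D : ℝ) / q := by
  obtain ⟨m, rfl⟩ := hdvd
  simp only [avg, Fintype.card_fin]
  rw [Fin.sum_univ_eq_sum_range (fun v => f (v % q + D)),
    Fin.sum_univ_eq_sum_range (fun v => f (v % q)), sum_range_mod (fun r => f (r + D)),
    sum_range_mod f]
  have hm : (0 : ℝ) < m := by
    have : 0 < m := Nat.pos_of_mul_pos_left hP
    exact_mod_cast this
  have hq' : (0 : ℝ) < q := by exact_mod_cast hq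
  push_cast
  rw [← sub_div, ← mul_sub, abs_div, abs_mul, abs_of_pos hm, abs_of_pos (mul_pos hq' hm)]
  rw [div_le_div_iff₀ (mul_pos hq' hm) hq']
  calc (m : ℝ) * |∑ r ∈ range q, f (r + D) - ∑ r ∈ range q, f r| * q ≤ m * D * q := by
        gcongr; exact abs_sum_shift_le f hf q D
    _ = D * (q * m) := by ring

/-- The canonical law of a subsequence in the recursive construction. -/
noncomputable def canonLaw (B N P : ℕ) {w : ℕ} (g : (Fin (w + 1) → ℕ) → ℝ) (e : Fin w → ℕ) : ℝ :=
  avg (fun U : Fin N => avg (fun ξ : Fin w → Fin P =>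
    g (Fin.cons U.val (fun j => U.val + B ^ e j + (ξ j).val % B ^ e j))))

/-- One layer of the recursive construction. -/
def layer (B L : ℕ) {P : ℕ} (E : ℕ → ℕ) (U : ℕ) (η : Fin L → Fin P) (i : ℕ) : ℕ :=
  if i = 0 then U else U + B ^ E i + (if h : i < L then (η ⟨i, h⟩).val % B ^ E i else 0)

theorem layer_strictMono {B L P : ℕ} (hB : 2 ≤ B) {E : ℕ → ℕ} (hE : StrictMono E) (U : ℕ)
    (η : Fin L → Fin P) : StrictMono (layer B L E U η) := by
  refine strictMono_nat_of_lt_succ fun i => ?_
  have hpos : ∀ k, 0 < B ^ k := fun k => pow_pos (by omega) k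
  have hr : ∀ i, (if h : i < L then (η ⟨i, h⟩).val % B ^ E i else 0) < B ^ E i := fun i => by
    split
    · exact Nat.mod_lt _ (hpos _)
    · exact hpos _
  by_cases hi : i = 0
  · subst hi
    simp only [layer, if_true]
    have := hpos (E (0 + 1))
    simp only [Nat.succ_ne_zero, if_false]
    omega
  · simp only [layer, hi, if_false, Nat.succ_ne_zero]
    have h2 : 2 * B ^ E i ≤ B ^ E (i + 1) := by
      calc 2 * B ^ E i ≤ B * B ^ E i := Nat.mul_le_mul_right _ hB
        _ = B ^ (E i + 1) := by rw [pow_succ, mul_comm]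
        _ ≤ B ^ E (i + 1) := Nat.pow_le_pow_right (by omega) (hE (Nat.lt_succ_self i))
    have := hr i
    omega

theorem layer_law {w L B N m P : ℕ} (hB : 2 ≤ B) (hN : 0 < N) (hP : P = B ^ m)
    (E : ℕ → ℕ) (hE : StrictMono E) (hm : ∀ i < L, E i ≤ m)
    (I : Fin (w + 1) → ℕ) (hI : StrictMono I) (hIL : ∀ i, I i < L)
    (g : (Fin (w + 1) → ℕ) → ℝ) (hg : ∀ z, g z ∈ Set.Icc (0 : ℝ) 1) :
    |avg (fun U : Fin N => avg (fun η : Fin L → Fin P => g (layer B L E U.val η ∘ I)))
        - canonLaw B N P g (fun j => E (I j.succ))| ≤ 2 * (P : ℝ) / N + w * (2 / B) := by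
  classical
  subst hP
  have hpos : ∀ k, 0 < B ^ k := fun k => pow_pos (by omega) k
  have : Nonempty (Fin N) := ⟨⟨0, hN⟩⟩
  have : Nonempty (Fin (B ^ m)) := ⟨⟨0, hpos m⟩⟩
  let ι : Fin w → Fin L := fun j => ⟨I j.succ, hIL _⟩
  have hι : Function.Injective ι := fun a b h => Fin.succ_injective _ (hI.injective (congrArg Fin.val h))
  let i0 : Fin L := ⟨I 0, hIL 0⟩
  have hlt : ∀ j : Fin w, I 0 < I j.succ := fun j => hI (Fin.succ_pos j)
  let e : Fin w → ℕ := fun j => E (I j.succ)
  let D : (Fin L → Fin (B ^ m)) → ℕ := fun η =>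
    if I 0 = 0 then 0 else B ^ E (I 0) + (η i0).val % B ^ E (I 0)
  have hD2 : ∀ η, D η < 2 * B ^ E (I 0) := fun η => by
    have := Nat.mod_lt (η i0).val (hpos (E (I 0)))
    have := hpos (E (I 0))
    simp only [D]; split <;> omega
  have hD : ∀ η j, D η ≤ B ^ e j := fun η j => by
    have := hD2 η
    have h2 : 2 * B ^ E (I 0) ≤ B ^ e j := by
      calc 2 * B ^ E (I 0) ≤ B * B ^ E (I 0) := Nat.mul_le_mul_right _ hB
        _ = B ^ (E (I 0) + 1) := by rw [pow_succ, mul_comm]
        _ ≤ B ^ e j := Nat.pow_le_pow_right (by omega) (hE (hlt j))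
    omega
  let k : (Fin L → Fin (B ^ m)) → ℕ → ℕ → ℝ := fun η c U =>
    g (Fin.cons U (fun j : Fin w => U + (if j.val < c then B ^ e j else B ^ e j - D η)
      + (η (ι j)).val % B ^ e j))
  -- the original average is a shift of `k η 0`
  have h0 : ∀ η (U : ℕ), g (layer B L E U η ∘ I) = k η 0 (U + D η) := fun η U => by
    simp only [k]
    congr 1
    funext x
    refine Fin.cases ?_ (fun j => ?_) x
    · simp only [Function.comp_apply, Fin.cons_zero, layer, D]
      by_cases h : I 0 = 0
      · simp [h]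
      · simp [h, hIL 0, i0, add_assoc]
    · have hne : I j.succ ≠ 0 := by have := hlt j; omega
      simp only [Function.comp_apply, Fin.cons_succ, layer, if_neg hne, dif_pos (hIL j.succ),
        Nat.not_lt_zero, if_false]
      have := hD η j
      simp only [e] at this
      simp only [e, ι]
      omega
  have hU : |avg (fun U : Fin N => avg (fun η : Fin L → Fin (B ^ m) => g (layer B L E U.val η ∘ I)))
      - avg (fun η => avg (fun U : Fin N => k η 0 U.val))| ≤ 2 * ((B ^ m : ℕ) : ℝ) / N := by
    rw [avg_comm, avg_sub]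
    refine abs_avg_le fun η => ?_
    simp only [h0, avg, Fintype.card_fin]
    rw [Fin.sum_univ_eq_sum_range (fun U => k η 0 (U + D η)),
      Fin.sum_univ_eq_sum_range (fun U => k η 0 U), ← sub_div, abs_div, Nat.abs_cast]
    apply div_le_div_of_nonneg_right _ (Nat.cast_nonneg _)
    refine (abs_sum_shift_le (k η 0) (fun x => hg _) N (D η)).trans ?_
    have h1 := hD2 η
    have h2 : B ^ E (I 0) ≤ B ^ m := Nat.pow_le_pow_right (by omega) (hm _ (hIL 0))
    have h3 : D η ≤ 2 * B ^ m := by omega
    exact_mod_cast h3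
  have hstep : ∀ c (hc : c < w), |avg (fun η => avg (fun U : Fin N => k η c U.val))
      - avg (fun η => avg (fun U : Fin N => k η (c + 1) U.val))| ≤ 2 / (B : ℝ) := by
    intro c hc
    let jc : Fin w := ⟨c, hc⟩
    rw [avg_update (ι jc) (fun η => avg (fun U : Fin N => k η c U.val)),
      avg_update (ι jc) (fun η => avg (fun U : Fin N => k η (c + 1) U.val)), avg_sub]
    refine abs_avg_le fun η => ?_
    rw [avg_comm, avg_comm (f := fun v (U : Fin N) => k (Function.update η (ι jc) v) (c + 1) U.val),
      avg_sub]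
    refine abs_avg_le fun U => ?_
    have hne : i0 ≠ ι jc := fun h => by
      have := congrArg Fin.val h
      have := hlt jc
      simp only [i0, ι] at *
      omega
    have hDu : ∀ v, D (Function.update η (ι jc) v) = D η := fun v => by
      simp [D, Function.update_of_ne hne]
    let f : ℕ → ℝ := fun z => g (Fin.cons U.val (fun j : Fin w =>
      if j = jc then U.val + (B ^ e jc - D η) + z
      else U.val + (if j.val < c then B ^ e j else B ^ e j - D η) + (η (ι j)).val % B ^ e j))
    have ha : ∀ v, k (Function.update η (ι jc) v) c U.val = f (v.val % B ^ e jc) := fun v => by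
      simp only [k, f, hDu]
      congr 2
      funext j
      by_cases hj : j = jc
      · subst hj; simp [jc]
      · rw [if_neg hj, Function.update_of_ne (fun h => hj (hι h))]
    have hb : ∀ v, k (Function.update η (ι jc) v) (c + 1) U.val = f (v.val % B ^ e jc + D η) :=
      fun v => by
      simp only [k, f, hDu]
      congr 2
      funext j
      by_cases hj : j = jc
      · subst hj
        simp only [Function.update_self, if_true]
        have := hD η jc
        simp only [jc] at *
        rw [if_pos (Nat.lt_succ_self c)]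
        omega
      · rw [if_neg hj, Function.update_of_ne (fun h => hj (hι h))]
        have hjc : j.val ≠ c := fun h => hj (Fin.ext h)
        by_cases hlt' : j.val < c
        · rw [if_pos hlt', if_pos (show j.val < c + 1 by omega)]
        · rw [if_neg hlt', if_neg (show ¬ j.val < c + 1 by omega)]
    simp only [ha, hb]
    rw [abs_sub_comm]
    refine (abs_avg_mod_shift f (fun x => hg _) (hpos _) (hpos m)
      (pow_dvd_pow B (hm _ (hIL jc.succ))) (D η)).trans ?_
    rw [div_le_div_iff₀ (by exact_mod_cast hpos (e jc)) (by exact_mod_cast (show 0 < B by omega))]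
    have h2 : B * B ^ E (I 0) ≤ B ^ e jc := by
      calc B * B ^ E (I 0) = B ^ (E (I 0) + 1) := by rw [pow_succ, mul_comm]
        _ ≤ B ^ e jc := Nat.pow_le_pow_right (by omega) (hE (hlt jc))
    have h3 : D η * B ≤ 2 * B ^ e jc := by
      calc D η * B ≤ 2 * B ^ E (I 0) * B := Nat.mul_le_mul_right _ (hD2 η).le
        _ = 2 * (B * B ^ E (I 0)) := by ring
        _ ≤ 2 * B ^ e jc := Nat.mul_le_mul_left _ h2
    exact_mod_cast h3
  have hchain : ∀ c, c ≤ w → |avg (fun η => avg (fun U : Fin N => k η 0 U.val))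
      - avg (fun η => avg (fun U : Fin N => k η c U.val))| ≤ c * (2 / (B : ℝ)) := by
    intro c hc
    induction c with
    | zero => simp
    | succ c ih =>
      refine (abs_sub_le _ (avg (fun η => avg (fun U : Fin N => k η c U.val))) _).trans ?_
      push_cast
      nlinarith [ih (by omega), hstep c (by omega)]
  have hlast : avg (fun η => avg (fun U : Fin N => k η w U.val))
      = canonLaw B N (B ^ m) g e := by
    rw [avg_comm]
    unfold canonLaw
    congr 1
    funext U
    rw [← avg_comp_injective ι hι]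
    simp [k]
  have h4 := hchain w le_rfl
  rw [hlast] at h4
  exact (abs_sub_le _ _ _).trans (add_le_add hU h4)

/-- Finite laws on increasing sequences which are contractable up to `δ`. -/
theorem exists_contractable (w : ℕ) : ∀ (L : ℕ) (δ : ℝ), 0 < δ →
    ∃ (Ω : Type) (_ : Fintype Ω) (_ : Nonempty Ω) (X : Ω → ℕ → ℕ), (∀ ω, StrictMono (X ω)) ∧
      ∀ I J : Fin w → ℕ, StrictMono I → StrictMono J → (∀ i, I i < L) → (∀ i, J i < L) →
        ∀ g : (Fin w → ℕ) → ℝ, (∀ z, g z ∈ Set.Icc (0 : ℝ) 1) →
          |avg (fun ω => g (X ω ∘ I)) - avg (fun ω => g (X ω ∘ J))| ≤ δ := by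
  induction w with
  | zero =>
    intro L δ hδ
    refine ⟨Unit, inferInstance, inferInstance, fun _ => id, fun _ => strictMono_id, ?_⟩
    intro I J _ _ _ _ g _
    have h : I = J := funext fun i => i.elim0
    subst h
    simp [hδ.le]
  | succ w ih =>
    intro L δ hδ
    obtain ⟨Ω, iF, iN, E, hE, hlaw⟩ := ih L (δ / 2) (half_pos hδ)
    classical
    let m : ℕ := (Finset.univ ×ˢ range L).sup (fun q : Ω × ℕ => E q.1 q.2)
    have hm : ∀ ω, ∀ i < L, E ω i ≤ m := fun ω i hi =>
      Finset.le_sup (f := fun q : Ω × ℕ => E q.1 q.2) (b := (ω, i)) (by simp [hi])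
    obtain ⟨B, hB1⟩ := exists_nat_gt (16 * ((w : ℝ) + 1) / δ + 2)
    have hBr : (2 : ℝ) < B := by
      have : (0 : ℝ) ≤ 16 * ((w : ℝ) + 1) / δ := by positivity
      linarith
    have hB : 2 ≤ B := by exact_mod_cast hBr.le
    obtain ⟨N, hN1⟩ := exists_nat_gt (16 * ((B ^ m : ℕ) : ℝ) / δ)
    have hNr : (0 : ℝ) < N := lt_of_le_of_lt (by positivity) hN1
    have hN : 0 < N := by exact_mod_cast hNr
    have : Nonempty (Fin N) := ⟨⟨0, hN⟩⟩
    have : Nonempty (Fin (B ^ m)) := ⟨⟨0, pow_pos (by omega) m⟩⟩
    refine ⟨Ω × Fin N × (Fin L → Fin (B ^ m)), inferInstance, inferInstance,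
      fun ω => layer B L (E ω.1) ω.2.1.val ω.2.2, fun ω => layer_strictMono hB (hE _) _ _, ?_⟩
    intro I J hI hJ hIL hJL g hg
    have herr : 2 * ((B ^ m : ℕ) : ℝ) / N + (w : ℝ) * (2 / B) ≤ δ / 4 := by
      have a : 2 * ((B ^ m : ℕ) : ℝ) / N ≤ δ / 8 := by
        rw [div_le_iff₀ hNr]
        rw [div_lt_iff₀ hδ] at hN1
        nlinarith
      have b : (w : ℝ) * (2 / B) ≤ δ / 8 := by
        rw [mul_div_assoc', div_le_iff₀ (by linarith)]
        have := mul_lt_mul_of_pos_right hB1 hδ
        rw [add_mul, div_mul_cancel₀ _ hδ.ne'] at this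
        nlinarith
      linarith
    have key : ∀ I : Fin (w + 1) → ℕ, StrictMono I → (∀ i, I i < L) →
        |avg (fun ω : Ω × Fin N × (Fin L → Fin (B ^ m)) =>
              g (layer B L (E ω.1) ω.2.1.val ω.2.2 ∘ I))
          - avg (fun ω => canonLaw B N (B ^ m) g (E ω ∘ fun j => I j.succ))| ≤ δ / 4 := by
      intro I hI hIL
      rw [avg_prod, avg_sub]
      refine abs_avg_le fun ω => ?_
      simp only [avg_prod (α := Fin N) (β := Fin L → Fin (B ^ m))]
      exact (layer_law hB hN rfl (E ω) (hE ω) (hm ω) I hI hIL g hg).trans herr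
    have h1 := key I hI hIL
    have h2 := key J hJ hJL
    have h3 := hlaw (fun j => I j.succ) (fun j => J j.succ) (hI.comp Fin.strictMono_succ)
      (hJ.comp Fin.strictMono_succ) (fun _ => hIL _) (fun _ => hJL _) (canonLaw B N (B ^ m) g)
      (fun e => avg_mem fun U => avg_mem fun ξ => hg _)
    rw [abs_le] at h1 h2 h3 ⊢
    constructor <;> linarith

end Vale.Agent.P125
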