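import Mathlib

/-!
P125: shared definitions for the proof that nontrivial Markov type implies superreflexivity.

Modules: `Core` (no Markov type for a spreading seminorm with a tail functional),
`Ultra` (either the reflexive models exist, or such a spreading seminorm exists),
`Renorm` (a reflexive model gives a uniformly convex norm, and duality gives a uniformly smooth one).
-/

namespace Vale.Agent.P125

open Filter Topology

universe u

/-- A fixed free ultrafilter on the natural numbers. -/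
noncomputable def U0 : Ultrafilter ℕ := Filter.hyperfilter ℕ

/-- The limit of a real sequence along `U0` (it exists for bounded sequences). -/
noncomputable def ulim (f : ℕ → ℝ) : ℝ := limUnder (U0 : Filter ℕ) f

/-- A bounded sequence in a normed group. -/
def IsBddSeq {E : Type*} [NormedAddCommGroup E] (x : ℕ → E) : Prop := ∃ C : ℝ, ∀ n, ‖x n‖ ≤ C

/-- A finite stationary reversible Markov chain with initial distribution `π`. -/
structure IsStatRev {n : ℕ} (π : Fin n → ℝ) (P : Matrix (Fin n) (Fin n) ℝ) : Prop where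
  pi_nonneg : ∀ i, 0 ≤ π i
  pi_sum : ∑ i, π i = 1
  nonneg : ∀ i j, 0 ≤ P i j
  row_sum : ∀ i, ∑ j, P i j = 1
  rev : ∀ i j, π i * P i j = π j * P j i

/-- Markov type `p` with constant `K`, for a real function `N` in the place of the norm. -/
def HasMarkovTypeWith {E : Type*} [AddCommGroup E] (N : E → ℝ) (p K : ℝ) : Prop :=
  ∀ (n : ℕ) (π : Fin n → ℝ) (P : Matrix (Fin n) (Fin n) ℝ), IsStatRev π P →
    ∀ f : Fin n → E, ∀ t : ℕ, 1 ≤ t →
      ∑ i, ∑ j, π i * (P ^ t) i j * N (f j - f i) ^ p ≤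
        K ^ p * (t : ℝ) * ∑ i, ∑ j, π i * P i j * N (f j - f i) ^ p

/-- `X` has Markov type `p`. -/
def HasMarkovType (X : Type*) [NormedAddCommGroup X] (p : ℝ) : Prop :=
  ∃ K : ℝ, 0 ≤ K ∧ HasMarkovTypeWith (fun x : X => ‖x‖) p K

/-- An equivalent norm. -/
def IsEquivNorm {E : Type*} [NormedAddCommGroup E] [NormedSpace ℝ E] (n : Seminorm ℝ E) : Prop :=
  ∃ a b : ℝ, 0 < a ∧ 0 < b ∧ ∀ x, a * ‖x‖ ≤ n x ∧ n x ≤ b * ‖x‖

/-- Uniform convexity of a norm. -/
def IsUCNorm {E : Type*} [AddCommGroup E] [Module ℝ E] (n : Seminorm ℝ E) : Prop :=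
  ∀ ε : ℝ, 0 < ε → ε ≤ 2 → ∃ δ : ℝ, 0 < δ ∧
    ∀ x y, n x ≤ 1 → n y ≤ 1 → ε ≤ n (x - y) → n ((1 / 2 : ℝ) • (x + y)) ≤ 1 - δ

/-- Uniform smoothness of a norm. -/
def IsUSNorm {E : Type*} [AddCommGroup E] [Module ℝ E] (n : Seminorm ℝ E) : Prop :=
  ∀ η : ℝ, 0 < η → ∃ τ₀ : ℝ, 0 < τ₀ ∧
    ∀ τ : ℝ, 0 < τ → τ ≤ τ₀ → ∀ x y, n x = 1 → n y = 1 →
      (1 / 2) * (n (x + τ • y) + n (x - τ • y)) - 1 ≤ η * τ

/-- A spreading seminorm on finitely supported sequences whose tail sums are bounded functionals. -/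
structure SpreadNorm where
  N : (ℕ →₀ ℝ) → ℝ
  θ : ℝ
  θ_pos : 0 < θ
  nonneg : ∀ a, 0 ≤ N a
  add_le : ∀ a b, N (a + b) ≤ N a + N b
  smul : ∀ (r : ℝ) a, N (r • a) = |r| * N a
  single_le : ∀ i, N (Finsupp.single i 1) ≤ 1
  reindex : ∀ κ : ℕ → ℕ, StrictMono κ → ∀ a, N (a.mapDomain κ) = N a
  tail : ∀ (a : ℕ →₀ ℝ) (c : ℕ), θ * |a.sum fun i r => if c ≤ i then r else 0| ≤ N a

/-- A reflexive space receiving the bounded sequences of `E`, with the ultrafilter limit of the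
norms as norm, and on which every functional is nearly coordinatewise. -/
structure ReflModel (E : Type u) [NormedAddCommGroup E] [NormedSpace ℝ E] where
  Z : Type u
  [grp : NormedAddCommGroup Z]
  [space : NormedSpace ℝ Z]
  refl : Function.Surjective (NormedSpace.inclusionInDoubleDual ℝ Z)
  ι : (ℕ → E) → Z
  ι_add : ∀ x y, IsBddSeq x → IsBddSeq y → ι (x + y) = ι x + ι y
  ι_smul : ∀ (r : ℝ) x, IsBddSeq x → ι (r • x) = r • ι x
  norm_ι : ∀ x, IsBddSeq x → Tendsto (fun n => ‖x n‖) (U0 : Filter ℕ) (𝓝 ‖ι x‖)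
  coord : ∀ (Φ : Z →L[ℝ] ℝ) (η : ℝ), 0 < η → ∃ φ : ℕ → E →L[ℝ] ℝ,
    (∃ C : ℝ, ∀ n, ‖φ n‖ ≤ C) ∧
      ∀ x, IsBddSeq x → |Φ (ι x) - ulim (fun n => φ n (x n))| ≤ η * ‖ι x‖

attribute [instance] ReflModel.grp ReflModel.space

theorem tendsto_ulim {f : ℕ → ℝ} {a b : ℝ} (h : ∀ n, f n ∈ Set.Icc a b) :
    Tendsto f (U0 : Filter ℕ) (𝓝 (ulim f)) := by
  have hmem : Set.Icc a b ∈ (U0.map f : Filter ℝ) := by
    rw [Ultrafilter.coe_map]
    exact Filter.mem_map.2 (Filter.univ_mem' h)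
  obtain ⟨x, -, hx⟩ := (isCompact_Icc (a := a) (b := b)).ultrafilter_le_nhds (U0.map f)
    (le_principal_iff.2 hmem)
  exact tendsto_nhds_limUnder ⟨x, hx⟩

theorem ulim_eq {f : ℕ → ℝ} {x : ℝ} (h : Tendsto f (U0 : Filter ℕ) (𝓝 x)) : ulim f = x :=
  h.limUnder_eq

end Vale.Agent.P125
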