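import Mathlib
import Vale.Agent.P125.Defs
import Vale.Agent.P125.Contractable

/-!
P125: from labelled edges to a finite stationary reversible chain with a vector valued map.

The map comes from counting, in a large box, how often each undirected label was crossed.
-/

namespace Vale.Agent.P125

open Finset

theorem submatrix_pow_equiv {S S' : Type*} [Fintype S] [DecidableEq S] [Fintype S'] [DecidableEq S']
    (P : Matrix S S ℝ) (e : S' ≃ S) (t : ℕ) :
    (P.submatrix e e) ^ t = (P ^ t).submatrix e e := by
  induction t with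
  | zero => simp
  | succ t ih => rw [pow_succ, pow_succ, ih, Matrix.submatrix_mul_equiv]

/-- Markov type applies to chains on any finite type. -/
theorem markovType_fintype {E : Type*} [AddCommGroup E] {N : E → ℝ} {p K : ℝ}
    (h : HasMarkovTypeWith N p K) {S : Type*} [Fintype S] [DecidableEq S] (π : S → ℝ)
    (P : Matrix S S ℝ) (hπ : ∀ i, 0 ≤ π i) (hπ1 : ∑ i, π i = 1) (hP : ∀ i j, 0 ≤ P i j)
    (hP1 : ∀ i, ∑ j, P i j = 1) (hrev : ∀ i j, π i * P i j = π j * P j i)
    (f : S → E) (t : ℕ) (ht : 1 ≤ t) :
    ∑ i, ∑ j, π i * (P ^ t) i j * N (f j - f i) ^ p ≤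
      K ^ p * (t : ℝ) * ∑ i, ∑ j, π i * P i j * N (f j - f i) ^ p := by
  let e := (Fintype.equivFin S).symm
  have hS : IsStatRev (π ∘ e) (P.submatrix e e) :=
    ⟨fun i => hπ _, by simpa [Equiv.sum_comp e π] using hπ1, fun i j => hP _ _,
      fun i => by simpa [Equiv.sum_comp e (fun j => P (e i) j)] using hP1 (e i), fun i j => hrev _ _⟩
  have := h _ _ _ hS (f ∘ e) t ht
  rw [submatrix_pow_equiv] at this
  have conv : ∀ F : S → S → ℝ, ∑ i, ∑ j, F (e i) (e j) = ∑ i, ∑ j, F i j := fun F => by
    rw [← Equiv.sum_comp e (fun i => ∑ j, F i j)]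
    exact Finset.sum_congr rfl fun i _ => Equiv.sum_comp e (F (e i))
  simp only [Matrix.submatrix_apply, Function.comp_apply] at this
  rw [conv (fun i j => π i * (P ^ t) i j * N (f j - f i) ^ p),
    conv (fun i j => π i * P i j * N (f j - f i) ^ p)] at this
  exact this

/-- A finite family of undirected labelled edges with phases at both ends. -/
structure EdgeSystem (E : Type*) (d : ℕ) where
  Key : Type
  [keyFintype : Fintype Key]
  [keyNonempty : Nonempty Key]
  [keyDecEq : DecidableEq Key]
  Vert : Type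
  [vertDecEq : DecidableEq Vert]
  src : Key → Vert
  dst : Key → Vert
  srcPhase : Key → Fin d
  dstPhase : Key → Fin d
  vec : Key → E

attribute [instance] EdgeSystem.keyFintype EdgeSystem.keyNonempty EdgeSystem.keyDecEq EdgeSystem.vertDecEq

namespace EdgeSystem

variable {E : Type*} {d : ℕ} (S : EdgeSystem E d)

/-- Directed edges. -/
abbrev Lab : Type := S.Key × Bool

/-- Tail of a directed edge. -/
def tl (e : S.Lab) : S.Vert := if e.2 then S.src e.1 else S.dst e.1

/-- Head of a directed edge. -/
def hd (e : S.Lab) : S.Vert := if e.2 then S.dst e.1 else S.src e.1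

/-- The phase at the tail. -/
def oph (e : S.Lab) : Fin d := if e.2 then S.srcPhase e.1 else S.dstPhase e.1

/-- The phase at the head. -/
def iph (e : S.Lab) : Fin d := if e.2 then S.dstPhase e.1 else S.srcPhase e.1

/-- The vector of a directed edge. -/
def dvec [AddCommGroup E] (e : S.Lab) : E := if e.2 then S.vec e.1 else -S.vec e.1

/-- Number of directed edges leaving a vertex. -/
def deg (x : S.Vert) : ℕ := (univ.filter fun e : S.Lab => S.tl e = x).card

/-- Number of directed edges leaving a vertex with a given phase. -/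
def degPhase (x : S.Vert) (a : Fin d) : ℕ :=
  (univ.filter fun e : S.Lab => S.tl e = x ∧ S.oph e = a).card

open Classical in
/-- Probability to backtrack within `n` further steps after the edge `e`. -/
noncomputable def back : ℕ → S.Lab → ℝ
  | 0, _ => 0
  | n + 1, e => (∑ e' ∈ univ.filter (fun e' : S.Lab => S.tl e' = S.hd e),
      if S.oph e' = S.iph e then 1 else back n e') / (S.deg (S.hd e) : ℝ)

theorem hd_eq_tl (e : S.Lab) : S.hd e = S.tl (e.1, !e.2) := by
  rcases e with ⟨k, b⟩; cases b <;> rfl

theorem deg_pos (e : S.Lab) : 0 < S.deg (S.hd e) :=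
  Finset.card_pos.2 ⟨(e.1, !e.2), by simp [hd_eq_tl]⟩

theorem deg_pos' (e : S.Lab) : 0 < S.deg (S.tl e) := Finset.card_pos.2 ⟨e, by simp⟩

theorem back_mem (n : ℕ) : ∀ e, S.back n e ∈ Set.Icc (0 : ℝ) 1 := by
  classical
  induction n with
  | zero => intro e; simp [back]
  | succ n ih =>
    intro e
    have hd0 : (0 : ℝ) < S.deg (S.hd e) := by exact_mod_cast S.deg_pos e
    rw [back, Set.mem_Icc, le_div_iff₀ hd0, div_le_iff₀ hd0, zero_mul, one_mul]
    constructor
    · exact Finset.sum_nonneg fun e' _ => by split; norm_num; exact (ih e').1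
    · refine (Finset.sum_le_sum (g := fun _ => (1 : ℝ)) fun e' _ => ?_).trans_eq (by simp [deg])
      split; exact le_rfl; exact (ih e').2

theorem sum_transfer (φ : S.Lab → ℝ) :
    ∑ e, (∑ e' ∈ univ.filter (fun e' : S.Lab => S.tl e' = S.hd e), φ e') / (S.deg (S.hd e) : ℝ)
      = ∑ e, φ e := by
  classical
  simp only [Finset.sum_filter, Finset.sum_div]
  rw [Finset.sum_comm]
  refine Finset.sum_congr rfl fun e' _ => ?_
  have : ∀ e : S.Lab, (if S.tl e' = S.hd e then φ e' else 0) / (S.deg (S.hd e) : ℝ)
      = if S.tl e' = S.hd e then φ e' / (S.deg (S.tl e') : ℝ) else 0 := fun e => by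
    split <;> simp [*]
  simp only [this, ← Finset.sum_filter, Finset.sum_const, nsmul_eq_mul]
  have hc : (univ.filter fun e : S.Lab => S.tl e' = S.hd e).card = S.deg (S.tl e') := by
    refine Finset.card_bij' (fun e _ => (e.1, !e.2)) (fun e _ => (e.1, !e.2)) ?_ ?_ ?_ ?_
    · intro e he
      simp only [Finset.mem_filter, Finset.mem_univ, true_and] at he ⊢
      rw [he, hd_eq_tl]
    · intro e he
      simp only [Finset.mem_filter, Finset.mem_univ, true_and] at he ⊢
      rw [hd_eq_tl]; simpa using he.symm
    · intro e _; simp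
    · intro e _; simp
  rw [hc]
  have : (0 : ℝ) < S.deg (S.tl e') := by exact_mod_cast S.deg_pos' e'
  field_simp

theorem sum_back_le {β : ℝ}
    (hβ : ∑ e, (S.degPhase (S.hd e) (S.iph e) : ℝ) / (S.deg (S.hd e) : ℝ)
      ≤ β * Fintype.card S.Lab) (n : ℕ) :
    ∑ e, S.back n e ≤ n * β * Fintype.card S.Lab := by
  classical
  induction n with
  | zero => simp [back]
  | succ n ih =>
    have h : ∀ e, S.back (n + 1) e ≤ (S.degPhase (S.hd e) (S.iph e) : ℝ) / (S.deg (S.hd e) : ℝ)
        + (∑ e' ∈ univ.filter (fun e' : S.Lab => S.tl e' = S.hd e), S.back n e')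
          / (S.deg (S.hd e) : ℝ) := by
      intro e
      rw [back, ← add_div]
      apply div_le_div_of_nonneg_right _ (Nat.cast_nonneg _)
      rw [degPhase, Finset.natCast_card_filter, ← Finset.sum_filter, ← Finset.filter_filter,
        Finset.sum_filter (fun e' : S.Lab => S.oph e' = S.iph e), ← Finset.sum_add_distrib]
      refine Finset.sum_le_sum fun e' _ => ?_
      split
      · linarith [(S.back_mem n e').1]
      · simp
    refine (Finset.sum_le_sum fun e _ => h e).trans ?_
    rw [Finset.sum_add_distrib, sum_transfer]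
    push_cast
    linarith

section Box

variable (L : ℕ)

/-- Whether the move along `e` stays in the box. -/
def inBox (e : S.Lab) (v : S.Key → Fin L) : Prop :=
  if e.2 then (v e.1).val + 1 < L else 1 ≤ (v e.1).val

instance (e : S.Lab) (v : S.Key → Fin L) : Decidable (S.inBox L e v) := by
  unfold inBox; infer_instance

open Classical in
/-- The counters after crossing `e`. -/
noncomputable def bump (e : S.Lab) (v : S.Key → Fin L) : S.Key → Fin L :=
  if h : S.inBox L e v then
    Function.update v e.1 ⟨if e.2 then (v e.1).val + 1 else (v e.1).val - 1, by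
      rcases e with ⟨k, b⟩
      cases b
      · simp only [inBox, Bool.false_eq_true, if_false] at h ⊢; omega
      · simpa [inBox] using h⟩
  else v

theorem bump_back {e : S.Lab} {v : S.Key → Fin L} (h : S.inBox L e v) :
    S.inBox L (e.1, !e.2) (S.bump L e v) ∧ S.bump L (e.1, !e.2) (S.bump L e v) = v := by
  classical
  rcases e with ⟨k, b⟩
  have h1 : S.inBox L (k, !b) (S.bump L (k, b) v) := by
    rw [bump, dif_pos h]
    simp only [inBox, Function.update_self]
    cases b
    · simp only [inBox, Bool.false_eq_true, if_false] at h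
      simp only [Bool.not_false, if_true, Bool.false_eq_true, if_false]
      omega
    · simp
  refine ⟨h1, ?_⟩
  rw [bump, dif_pos h1]
  simp only [bump, dif_pos h]
  funext j
  rcases eq_or_ne j k with rfl | hj
  · rw [Function.update_self]
    ext
    simp only [Function.update_self]
    cases b
    · simp only [inBox, Bool.false_eq_true, if_false] at h
      simp only [Bool.not_false, if_true, Bool.false_eq_true, if_false]
      omega
    · simp
  · rw [Function.update_of_ne hj, Function.update_of_ne hj]

variable [AddCommGroup E] [Module ℝ E]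

/-- The value of the map at given counters. -/
noncomputable def val (v : S.Key → Fin L) : E := ∑ k, ((v k).val : ℝ) • S.vec k

theorem val_bump {e : S.Lab} {v : S.Key → Fin L} (h : S.inBox L e v) :
    S.val L (S.bump L e v) - S.val L v = S.dvec e := by
  classical
  rw [val, val, ← Finset.sum_sub_distrib, Finset.sum_eq_single e.1]
  · simp only [bump, dif_pos h, Function.update_self]
    rcases e with ⟨k, b⟩
    rw [← sub_smul]
    cases b
    · simp only [inBox, Bool.false_eq_true, if_false] at h
      simp only [dvec, Bool.false_eq_true, if_false]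
      rw [Nat.cast_sub h, Nat.cast_one]
      simp
    · simp [dvec]
  · intro j _ hj
    simp [bump, dif_pos h, Function.update_of_ne hj]
  · intro h; exact absurd (Finset.mem_univ _) h

omit [AddCommGroup E] [Module ℝ E] in
theorem bump_margin {e : S.Lab} {v : S.Key → Fin L} {n : ℕ}
    (h : ∀ k, n + 1 ≤ (v k).val ∧ (v k).val + (n + 1) < L) :
    S.inBox L e v ∧ ∀ k, n ≤ (S.bump L e v k).val ∧ (S.bump L e v k).val + n < L := by
  classical
  have hin : S.inBox L e v := by
    have := h e.1
    unfold inBox
    split <;> omega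
  refine ⟨hin, fun k => ?_⟩
  have := h k
  rcases eq_or_ne k e.1 with rfl | hk
  · simp only [bump, dif_pos hin, Function.update_self]
    split <;> omega
  · simp only [bump, dif_pos hin, Function.update_of_ne hk]
    omega

end Box

section Bound

variable [AddCommGroup E] [Module ℝ E]

/-- The vertices that occur. -/
abbrev Used : Type := {x : S.Vert // x ∈ univ.image S.tl}

/-- A tail as a used vertex. -/
def useTl (e : S.Lab) : S.Used := ⟨S.tl e, Finset.mem_image_of_mem _ (Finset.mem_univ e)⟩

/-- A head as a used vertex. -/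
def useHd (e : S.Lab) : S.Used :=
  ⟨S.hd e, by rw [S.hd_eq_tl]; exact Finset.mem_image_of_mem _ (Finset.mem_univ _)⟩

open Classical in
/-- Transition along an edge. -/
noncomputable def target (L : ℕ) (e : S.Lab) (v : S.Key → Fin L) : S.Used × (S.Key → Fin L) :=
  if S.inBox L e v then (S.useHd e, S.bump L e v) else (S.useTl e, v)

open Classical in
/-- The transition matrix. -/
noncomputable def trans (L : ℕ) :
    Matrix (S.Used × (S.Key → Fin L)) (S.Used × (S.Key → Fin L)) ℝ := fun a c =>
  ((univ.filter fun e : S.Lab => S.tl e = a.1.val ∧ S.target L e a.2 = c).card : ℝ)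
    / (S.deg a.1.val : ℝ)

/-- The stationary law. -/
noncomputable def law (L : ℕ) (a : S.Used × (S.Key → Fin L)) : ℝ :=
  (S.deg a.1.val : ℝ) / ((Fintype.card S.Lab : ℝ) * (Fintype.card (S.Key → Fin L) : ℝ))

omit [AddCommGroup E] [Module ℝ E] in
theorem deg_used (x : S.Used) : 0 < S.deg x.val := by
  obtain ⟨e, -, he⟩ := Finset.mem_image.1 x.2
  exact he ▸ S.deg_pos' e

omit [AddCommGroup E] [Module ℝ E] in
theorem trans_apply (L : ℕ) (a : S.Used × (S.Key → Fin L))
    (G : S.Used × (S.Key → Fin L) → ℝ) :
    ∑ c, S.trans L a c * G c = (∑ e ∈ univ.filter (fun e : S.Lab => S.tl e = a.1.val),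
      G (S.target L e a.2)) / (S.deg a.1.val : ℝ) := by
  classical
  simp only [trans, div_mul_eq_mul_div, ← Finset.sum_div]
  congr 1
  simp only [← Finset.filter_filter, Finset.natCast_card_filter, Finset.sum_mul]
  rw [Finset.sum_comm]
  refine Finset.sum_congr rfl fun e _ => ?_
  simp

theorem chain_rev (L : ℕ) (a c : S.Used × (S.Key → Fin L)) :
    S.law L a * S.trans L a c = S.law L c * S.trans L c a := by
  classical
  rcases eq_or_ne a c with rfl | hne
  · rfl
  have key : ∀ a c : S.Used × (S.Key → Fin L), S.law L a * S.trans L a c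
      = ((univ.filter fun e : S.Lab => S.tl e = a.1.val ∧ S.target L e a.2 = c).card : ℝ)
        / ((Fintype.card S.Lab : ℝ) * (Fintype.card (S.Key → Fin L) : ℝ)) := fun a c => by
    have : (0 : ℝ) < S.deg a.1.val := by exact_mod_cast S.deg_used a.1
    rw [law, trans]
    field_simp
  rw [key, key]
  congr 2
  have hflip : ∀ a c : S.Used × (S.Key → Fin L), a ≠ c → ∀ e : S.Lab,
      S.tl e = a.1.val ∧ S.target L e a.2 = c →
      S.tl (e.1, !e.2) = c.1.val ∧ S.target L (e.1, !e.2) c.2 = a := by
    rintro ⟨x, v⟩ c hac e ⟨hx, ht⟩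
    dsimp only at hx ht
    have hin : S.inBox L e v := by
      by_contra hin
      rw [target, if_neg hin] at ht
      exact hac (ht ▸ Prod.ext (Subtype.ext hx.symm) rfl)
    rw [target, if_pos hin] at ht
    subst ht
    obtain ⟨h1, h2⟩ := S.bump_back L hin
    refine ⟨(S.hd_eq_tl e).symm, ?_⟩
    rw [target, if_pos h1, h2]
    refine Prod.ext (Subtype.ext ?_) rfl
    simp only [useHd, S.hd_eq_tl, Bool.not_not, Prod.mk.eta]
    exact hx
  refine Finset.card_bij' (fun e _ => (e.1, !e.2)) (fun e _ => (e.1, !e.2)) ?_ ?_ ?_ ?_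
  · intro e he
    simp only [Finset.mem_filter, Finset.mem_univ, true_and] at he ⊢
    exact hflip a c hne e he
  · intro e he
    simp only [Finset.mem_filter, Finset.mem_univ, true_and] at he ⊢
    exact hflip c a hne.symm e he
  · intro e _; simp
  · intro e _; simp

/-- Chained directed edges without backtracking. -/
def NoBack (s : ℕ) (w : ℕ → S.Lab) : Prop :=
  ∀ i, i + 1 < s → S.tl (w (i + 1)) = S.hd (w i) ∧ S.oph (w (i + 1)) ≠ S.iph (w i)

theorem walk_lower (L T : ℕ) (N : E → ℝ) (hN : ∀ x, 0 ≤ N x) {p low : ℝ} (hp : 0 ≤ p)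
    (hlow : 0 ≤ low)
    (hgood : ∀ w : ℕ → S.Lab, S.NoBack T w → low ≤ N (∑ i ∈ range T, S.dvec (w i)))
    (v0 : S.Key → Fin L) :
    ∀ n s, 1 ≤ s → s + n = T → ∀ (w : ℕ → S.Lab) (v : S.Key → Fin L), S.NoBack s w →
      (∀ k, n ≤ (v k).val ∧ (v k).val + n < L) →
      S.val L v - S.val L v0 = ∑ i ∈ range s, S.dvec (w i) →
      low ^ p * (1 - S.back n (w (s - 1))) ≤
        ∑ c, (S.trans L ^ n) (S.useHd (w (s - 1)), v) c * N (S.val L c.2 - S.val L v0) ^ p := by
  classical
  intro n
  induction n with
  | zero =>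
    intro s _ hs w v hw _ hv
    obtain rfl : s = T := by omega
    simp only [pow_zero, Matrix.one_apply, ite_mul, one_mul, zero_mul, Finset.sum_ite_eq,
      Finset.mem_univ, if_true, back, sub_zero, mul_one, hv]
    exact Real.rpow_le_rpow hlow (hgood w hw) hp
  | succ n ih =>
    intro s hs1 hs w v hw hm hv
    have e1 : ∑ c, (S.trans L ^ (n + 1)) (S.useHd (w (s - 1)), v) c
          * N (S.val L c.2 - S.val L v0) ^ p
        = ∑ b, S.trans L (S.useHd (w (s - 1)), v) b
          * ∑ c, (S.trans L ^ n) b c * N (S.val L c.2 - S.val L v0) ^ p := by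
      simp only [pow_succ' (S.trans L), Matrix.mul_apply, Finset.sum_mul, Finset.mul_sum, mul_assoc]
      rw [Finset.sum_comm]
    rw [e1, trans_apply, back]
    have hd0 : (0 : ℝ) < S.deg (S.hd (w (s - 1))) := by exact_mod_cast S.deg_pos _
    rw [le_div_iff₀ (show (0 : ℝ) < S.deg (S.useHd (w (s - 1))).val from hd0)]
    have hpull : ∀ X : ℝ, low ^ p * (1 - X / (S.deg (S.hd (w (s - 1))) : ℝ))
        * (S.deg (S.useHd (w (s - 1))).val : ℝ)
        = low ^ p * ((S.deg (S.hd (w (s - 1))) : ℝ) - X) := fun X => by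
      simp only [useHd]; field_simp
    rw [hpull, deg, Finset.cast_card, ← Finset.sum_sub_distrib, Finset.mul_sum]
    refine Finset.sum_le_sum fun e he => ?_
    simp only [Finset.mem_filter, Finset.mem_univ, true_and] at he
    split
    next h =>
      simp only [sub_self, mul_zero]
      refine Finset.sum_nonneg fun c _ => mul_nonneg ?_ (Real.rpow_nonneg (hN _) _)
      have hpow : ∀ k a c, 0 ≤ (S.trans L ^ k) a c := by
        intro k
        induction k with
        | zero => intro a c; simp only [pow_zero, Matrix.one_apply]; split <;> norm_num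
        | succ k ihk =>
          intro a c
          rw [pow_succ, Matrix.mul_apply]
          exact Finset.sum_nonneg fun b _ => mul_nonneg (ihk a b)
            (div_nonneg (Nat.cast_nonneg _) (Nat.cast_nonneg _))
      exact hpow _ _ _
    next h =>
      obtain ⟨hin, hm'⟩ := S.bump_margin L (e := e) hm
      simp only [target, if_pos hin]
      have hlast : Function.update w s e (s + 1 - 1) = e := by simp
      have := ih (s + 1) (by omega) (by omega) (Function.update w s e) (S.bump L e v) ?_ hm' ?_
      · rwa [hlast] at this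
      · intro i hi
        rw [Function.update_of_ne (show i ≠ s by omega)]
        rcases Nat.lt_or_ge (i + 1) s with h' | h'
        · rw [Function.update_of_ne (show i + 1 ≠ s by omega)]
          exact hw i h'
        · obtain rfl : s = i + 1 := by omega
          simp only [Function.update_self, Nat.add_sub_cancel] at he h ⊢
          exact ⟨he, h⟩
      · rw [Finset.sum_range_succ, Function.update_self, Finset.sum_congr rfl fun i hi => by
          rw [Function.update_of_ne (Finset.mem_range.1 hi).ne], ← hv, ← S.val_bump L hin]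
        abel

omit [AddCommGroup E] [Module ℝ E] in
theorem avg_safe (T L : ℕ) (hL : 8 * T * Fintype.card S.Key + 2 * T < L) :
    3 / 4 ≤ avg (fun v : S.Key → Fin L =>
      if ∀ k, T ≤ (v k).val ∧ (v k).val + T < L then (1 : ℝ) else 0) := by
  classical
  have : NeZero L := ⟨by omega⟩
  let bad : Fin L → ℝ := fun r => if T ≤ r.val ∧ r.val + T < L then 0 else 1
  have h1 : avg bad ≤ 2 * (T : ℝ) / L := by
    rw [avg, Fintype.card_fin]
    apply div_le_div_of_nonneg_right _ (Nat.cast_nonneg _)
    have : ∑ r : Fin L, bad r = ((univ.filter fun r : Fin L => ¬(T ≤ r.val ∧ r.val + T < L)).card : ℝ) := by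
      rw [Finset.natCast_card_filter]
      exact Finset.sum_congr rfl fun r _ => by simp only [bad]; split <;> simp [*]
    rw [this]
    have hc : (univ.filter fun r : Fin L => ¬(T ≤ r.val ∧ r.val + T < L)).card
        ≤ (range T ∪ Finset.Ico (L - T) L).card :=
      Finset.card_le_card_of_injOn Fin.val (fun r hr => by
        simp only [Finset.coe_filter, Finset.mem_univ, true_and, Set.mem_ofPred_eq] at hr
        simp only [Finset.coe_union, Set.mem_union, Finset.mem_coe, Finset.mem_range, Finset.mem_Ico]
        have := r.isLt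
        omega) (Fin.val_injective.injOn)
    have := hc.trans (Finset.card_union_le _ _)
    rw [Finset.card_range, Nat.card_Ico] at this
    exact_mod_cast (by omega : (univ.filter fun r : Fin L =>
      ¬(T ≤ r.val ∧ r.val + T < L)).card ≤ 2 * T)
  have h2 : ∀ k, avg (fun v : S.Key → Fin L => bad (v k)) = avg bad := fun k => by
    refine (avg_comp_injective (fun _ : Unit => k) (fun _ _ _ => rfl) (fun z => bad (z ()))).trans ?_
    unfold avg
    rw [Fintype.card_congr (Equiv.funUnique Unit (Fin L))]
    congr 1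
    exact Fintype.sum_equiv (Equiv.funUnique Unit (Fin L)) _ _ (fun z => rfl)
  have h3 : avg (fun v : S.Key → Fin L => (1 : ℝ) - ∑ k, bad (v k)) ≤ avg (fun v : S.Key → Fin L =>
      if ∀ k, T ≤ (v k).val ∧ (v k).val + T < L then (1 : ℝ) else 0) := by
    apply div_le_div_of_nonneg_right _ (Nat.cast_nonneg _)
    refine Finset.sum_le_sum fun v _ => ?_
    have hnn : ∀ k, 0 ≤ bad (v k) := fun k => by simp only [bad]; split <;> norm_num
    split
    next h => linarith [Finset.sum_nonneg (fun k (_ : k ∈ univ) => hnn k)]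
    next h =>
      obtain ⟨k, hk⟩ := not_forall.1 h
      have : bad (v k) = 1 := if_neg hk
      linarith [Finset.single_le_sum (fun j _ => hnn j) (Finset.mem_univ k)]
  refine le_trans ?_ h3
  rw [← avg_sub, avg_const]
  have h4 : avg (fun v : S.Key → Fin L => ∑ k, bad (v k)) = ∑ k, avg (fun v : S.Key → Fin L => bad (v k)) := by
    simp only [avg, Finset.sum_div]
    exact Finset.sum_comm
  rw [h4]
  simp only [h2, Finset.sum_const, nsmul_eq_mul, Finset.card_univ]
  have hL' : (0 : ℝ) < L := by exact_mod_cast (show 0 < L by omega)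
  have : (Fintype.card S.Key : ℝ) * avg bad ≤ 1 / 4 := by
    refine (mul_le_mul_of_nonneg_left h1 (Nat.cast_nonneg _)).trans ?_
    rw [mul_div_assoc', div_le_iff₀ hL']
    have : (8 * (T : ℝ) * Fintype.card S.Key + 2 * T) < L := by exact_mod_cast hL
    nlinarith
  linarith

/-- The displacement bound for an edge system in a space of Markov type `p`. -/
theorem chain_bound (N : E → ℝ) (hN : ∀ x, 0 ≤ N x) {p K H low β : ℝ} (hp : 0 ≤ p)
    (hMT : HasMarkovTypeWith N p K) (hK : 0 ≤ K) {T : ℕ} (hT : 1 ≤ T) (hlow : 0 ≤ low)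
    (hβ0 : 0 ≤ β) (hstep : ∀ e, N (S.dvec e) ≤ H) (hzero : N 0 ≤ H)
    (hgood : ∀ w : ℕ → S.Lab, S.NoBack T w → low ≤ N (∑ i ∈ range T, S.dvec (w i)))
    (hβ : ∑ e, (S.degPhase (S.hd e) (S.iph e) : ℝ) / (S.deg (S.hd e) : ℝ)
      ≤ β * Fintype.card S.Lab) :
    low ^ p * (3 / 4 - (T : ℝ) * β) ≤ K ^ p * (T : ℝ) * H ^ p := by
  classical
  let L := 8 * T * Fintype.card S.Key + 2 * T + 1
  have : NeZero L := ⟨by omega⟩
  have hLab : (0 : ℝ) < Fintype.card S.Lab := by exact_mod_cast Fintype.card_pos
  have hV : (0 : ℝ) < Fintype.card (S.Key → Fin L) := by exact_mod_cast Fintype.card_pos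
  have hfib : ∀ g : S.Lab → ℝ, ∑ x : S.Used, ∑ e ∈ univ.filter (fun e : S.Lab => S.tl e = x.val), g e
      = ∑ e, g e := fun g => by
    rw [Finset.sum_coe_sort (univ.image S.tl)
      (fun x => ∑ e ∈ univ.filter (fun e : S.Lab => S.tl e = x), g e)]
    exact Finset.sum_fiberwise_of_maps_to (fun e he => Finset.mem_image_of_mem _ he) g
  have hflat : ∀ G : (S.Used × (S.Key → Fin L)) → (S.Used × (S.Key → Fin L)) → ℝ,
      ∑ a, S.law L a * ∑ c, S.trans L a c * G a c
        = avg (fun v : S.Key → Fin L => avg (fun e : S.Lab => G (S.useTl e, v) (S.target L e v))) := by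
    intro G
    rw [Fintype.sum_prod_type, Finset.sum_comm]
    simp only [avg, Finset.sum_div]
    refine Finset.sum_congr rfl fun v _ => ?_
    rw [← hfib]
    refine Finset.sum_congr rfl fun x _ => ?_
    rw [trans_apply]
    have hdx : (0 : ℝ) < S.deg x.val := by exact_mod_cast S.deg_used x
    rw [Finset.sum_div, Finset.mul_sum]
    refine Finset.sum_congr rfl fun e he => ?_
    simp only [Finset.mem_filter, Finset.mem_univ, true_and] at he
    rw [show S.useTl e = x from Subtype.ext he]
    simp only [law]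
    field_simp
  have hsum : ∑ a, S.law L a = 1 := by
    rw [Fintype.sum_prod_type]
    simp only [law, Finset.sum_const, Finset.card_univ, nsmul_eq_mul, ← Finset.mul_sum,
      ← Finset.sum_div]
    have := hfib (fun _ => (1 : ℝ))
    simp only [Finset.sum_const, nsmul_eq_mul, mul_one, Finset.card_univ] at this
    change _ * ((∑ x : S.Used, (S.deg x.val : ℝ)) / _) = 1
    rw [show ∑ x : S.Used, (S.deg x.val : ℝ) = (Fintype.card S.Lab : ℝ) from this]
    field_simp
  have hP0 : ∀ a c, 0 ≤ S.trans L a c := fun a c => div_nonneg (Nat.cast_nonneg _) (Nat.cast_nonneg _)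
  have hP1 : ∀ a, ∑ c, S.trans L a c = 1 := fun a => by
    have := S.trans_apply L a (fun _ => 1)
    simp only [mul_one, Finset.sum_const, nsmul_eq_mul] at this
    rw [this]
    exact div_self (by exact_mod_cast (S.deg_used a.1).ne')
  have hmt := markovType_fintype hMT (S.law L) (S.trans L)
    (fun a => div_nonneg (Nat.cast_nonneg _) (by positivity)) hsum hP0 hP1 (S.chain_rev L)
    (fun a => S.val L a.2) T hT
  simp only [mul_assoc, ← Finset.mul_sum] at hmt
  -- one step
  have hupper : ∑ a, S.law L a * ∑ c, S.trans L a c * N (S.val L c.2 - S.val L a.2) ^ p ≤ H ^ p := by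
    rw [hflat fun a c => N (S.val L c.2 - S.val L a.2) ^ p]
    refine avg_le fun v => avg_le fun e => Real.rpow_le_rpow (hN _) ?_ hp
    unfold target
    split
    next h => rw [S.val_bump L h]; exact hstep e
    next h => simpa using hzero
  -- `T` steps
  obtain ⟨n, rfl⟩ : ∃ n, T = n + 1 := ⟨T - 1, by omega⟩
  have hTl : ∀ a, ∑ c, (S.trans L ^ (n + 1)) a c * N (S.val L c.2 - S.val L a.2) ^ p
      = ∑ b, S.trans L a b * ∑ c, (S.trans L ^ n) b c * N (S.val L c.2 - S.val L a.2) ^ p := fun a => by
    simp only [pow_succ' (S.trans L), Matrix.mul_apply, Finset.sum_mul, Finset.mul_sum, mul_assoc]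
    rw [Finset.sum_comm]
  simp only [hTl] at hmt
  rw [hflat fun a b => ∑ c, (S.trans L ^ n) b c * N (S.val L c.2 - S.val L a.2) ^ p] at hmt
  have hlp : 0 ≤ low ^ p := Real.rpow_nonneg hlow _
  let good : (S.Key → Fin L) → ℝ := fun v =>
    if ∀ k, n + 1 ≤ (v k).val ∧ (v k).val + (n + 1) < L then 1 else 0
  let b : ℝ := avg (fun e : S.Lab => S.back n e)
  have hb1 : b ≤ ((n + 1 : ℕ) : ℝ) * β := by
    simp only [b, avg]
    rw [div_le_iff₀ hLab]
    refine (S.sum_back_le hβ n).trans ?_
    push_cast
    nlinarith [mul_nonneg hβ0 hLab.le]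
  have hb0 : b ≤ 1 := avg_le fun e => (S.back_mem n e).2
  have hpow : ∀ k a c, 0 ≤ (S.trans L ^ k) a c := by
    intro k
    induction k with
    | zero => intro a c; simp only [pow_zero, Matrix.one_apply]; split <;> norm_num
    | succ k ihk =>
      intro a c
      rw [pow_succ, Matrix.mul_apply]
      exact Finset.sum_nonneg fun b _ => mul_nonneg (ihk a b) (hP0 b c)
  have hlower : avg (fun v : S.Key → Fin L => good v * (low ^ p * (1 - b)))
      ≤ avg (fun v : S.Key → Fin L => avg (fun e : S.Lab =>
        ∑ c, (S.trans L ^ n) (S.target L e v) c * N (S.val L c.2 - S.val L (S.useTl e, v).2) ^ p)) := by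
    apply div_le_div_of_nonneg_right _ hV.le
    refine Finset.sum_le_sum fun v _ => ?_
    simp only [good]
    split
    next hm =>
      rw [one_mul]
      have hone : (1 : ℝ) - b = avg (fun e : S.Lab => 1 - S.back n e) := by
        simp only [b]; rw [← avg_sub, avg_const]
      rw [hone]
      simp only [avg]
      rw [mul_div_assoc', Finset.mul_sum]
      apply div_le_div_of_nonneg_right _ hLab.le
      refine Finset.sum_le_sum fun e _ => ?_
      obtain ⟨hin, hm'⟩ := S.bump_margin L (e := e) hm
      have := S.walk_lower L (n + 1) N hN hp hlow hgood v n 1 le_rfl (by omega) (fun _ => e)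
        (S.bump L e v) (fun i hi => absurd hi (by omega)) hm'
        (by rw [Finset.sum_range_one, S.val_bump L hin])
      simpa only [target, if_pos hin] using this
    next hm =>
      rw [zero_mul]
      exact avg_nonneg fun e => Finset.sum_nonneg fun c _ =>
        mul_nonneg (hpow _ _ _) (Real.rpow_nonneg (hN _) _)
  have hg : 3 / 4 ≤ avg good := S.avg_safe (n + 1) L (Nat.lt_succ_self _)
  have hsplit : avg (fun v : S.Key → Fin L => good v * (low ^ p * (1 - b)))
      = avg good * (low ^ p * (1 - b)) := by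
    simp only [avg, ← Finset.sum_mul]; ring
  rw [hsplit] at hlower
  have h1 : 3 / 4 * (low ^ p * (1 - b)) ≤ avg good * (low ^ p * (1 - b)) :=
    mul_le_mul_of_nonneg_right hg (mul_nonneg hlp (by linarith))
  have h2 := mul_le_mul_of_nonneg_left hupper
    (mul_nonneg (Real.rpow_nonneg hK p) (Nat.cast_nonneg (α := ℝ) (n + 1)))
  have h3 : low ^ p * (3 / 4 - ((n + 1 : ℕ) : ℝ) * β) ≤ 3 / 4 * (low ^ p * (1 - b)) := by
    have h5 : 0 ≤ ((n + 1 : ℕ) : ℝ) * β := mul_nonneg (Nat.cast_nonneg _) hβ0
    have := mul_nonneg hlp (show (0 : ℝ) ≤ ((n + 1 : ℕ) : ℝ) * β - 3 / 4 * b by linarith)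
    nlinarith
  rw [mul_assoc (K ^ p) ((n + 1 : ℕ) : ℝ) (H ^ p)]
  rw [mul_assoc (K ^ p)] at h2
  linarith

end Bound

end EdgeSystem

end Vale.Agent.P125
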