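import Mathlib

/-!
P125: the two index patterns of an edge (nested pulses), and the facts about one step.

A state is an increasing tuple with `R` periods of `d` pulses, a pulse having a start and an end,
each of which is a block of `M` points.
-/

namespace Vale.Agent.P125

open Finset

/-- Points of one period of the merged pattern. -/
def period (d : ℕ) : ℕ := 4 * d - 2

/-- Offsets of the first pattern inside a period. -/
def offX (d s : ℕ) : ℕ := if s = 0 then 0 else if s = 1 then 2 * d - 1 else 2 * d + s - 2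

/-- Offsets of the second pattern inside a period. -/
def offY (d s : ℕ) : ℕ :=
  if s = 0 then 2 * d - 1 else if s = 1 then period d else period d + s - 1

/-- Position of the `i`-th point of the first pattern with distinguished phase `a`. -/
def phiX (d a i : ℕ) : ℕ :=
  ((i + 2 * (d - a)) / (2 * d) + 1) * period d + offX d ((i + 2 * (d - a)) % (2 * d))

/-- Position of the `i`-th point of the second pattern with distinguished phase `a`. -/
def phiY (d a i : ℕ) : ℕ :=
  ((i + 2 * (d - a)) / (2 * d)) * period d + offY d ((i + 2 * (d - a)) % (2 * d))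

/-- Replace every point by a block of `M` points. -/
def blowUp (M : ℕ) (φ : ℕ → ℕ) (k : ℕ) : ℕ := φ (k / M) * M + k % M

/-- Index map of the first pattern. -/
def idxX (d R M a : ℕ) : Fin (2 * d * R * M) → ℕ := fun k => blowUp M (phiX d a) k

/-- Index map of the second pattern. -/
def idxY (d R M a : ℕ) : Fin (2 * d * R * M) → ℕ := fun k => blowUp M (phiY d a) k

/-- The `u`-th point of the `i`-th block of a tuple. -/
def blockPt {W : ℕ} (M : ℕ) (x : Fin W → ℕ) (i u : ℕ) : ℕ :=
  if h : i * M + u < W then x ⟨i * M + u, h⟩ else 0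

/-- Start block of the pulse of phase `a` in period `l`. -/
def pStart {W : ℕ} (d M : ℕ) (x : Fin W → ℕ) (a l u : ℕ) : ℕ := blockPt M x (2 * (a + l * d)) u

/-- End block of the pulse of phase `a` in period `l`. -/
def pEnd {W : ℕ} (d M : ℕ) (x : Fin W → ℕ) (a l u : ℕ) : ℕ := blockPt M x (2 * (a + l * d) + 1) u

/-- The average of `M` unit vectors. -/
noncomputable def atom (M : ℕ) (q : ℕ → ℕ) : ℕ →₀ ℝ :=
  ∑ u ∈ range M, Finsupp.single (q u) (1 / (M : ℝ))

/-- The vector of the pulses of phase `a`. -/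
noncomputable def vOut {W : ℕ} (d R M : ℕ) (x : Fin W → ℕ) (a : ℕ) : ℕ →₀ ℝ :=
  ∑ l ∈ range R, (atom M (pStart d M x a l) - atom M (pEnd d M x a l))

/-- What is needed about an edge from `x` to `y` leaving by phase `a` and entering by phase `a'`. -/
structure IsStep {W : ℕ} (d R M : ℕ) (x y : Fin W → ℕ) (a a' : ℕ) : Prop where
  mono_tail : StrictMono x
  mono_head : StrictMono y
  nest : ∀ b, b < d → b ≠ a' → ∃ σ : ℤ, -1 ≤ σ ∧ σ ≤ 1 ∧
    ∀ l l' : ℕ, l < R → l' < R → (l' : ℤ) = l + σ → ∀ u u', u < M → u' < M →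
      pStart d M x a l u < pStart d M y b l' u' ∧ pEnd d M y b l' u' < pEnd d M x a l u
  split : ∃ lo hi : ℕ → ℕ,
    (∀ l, 1 ≤ l → l < R → ∀ u u', u < M → u' < M → lo u < pStart d M x a l u') ∧
    (∀ l, l < R → ∀ u, u < M → pEnd d M x a l 0 ≤ hi u) ∧
    vOut d R M x a - vOut d R M y a' = (2 : ℝ) • vOut d R M x a + atom M hi - atom M lo

theorem phase_lt {d R a l : ℕ} (ha : a < d) (hl : l < R) : a + l * d < d * R := by
  have : (l + 1) * d ≤ R * d := Nat.mul_le_mul_right _ hl
  rw [Nat.add_mul, Nat.one_mul] at this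
  rw [Nat.mul_comm d R]
  omega

theorem block_index_lt {i M u n : ℕ} (hi : i < n) (hu : u < M) : i * M + u < n * M := by
  have : (i + 1) * M ≤ n * M := Nat.mul_le_mul_right _ hi
  rw [Nat.add_mul, Nat.one_mul] at this
  omega

theorem blockPt_lt {d R M : ℕ} {x : Fin (2 * d * R * M) → ℕ} (hx : StrictMono x) {i i' u u' : ℕ}
    (hi' : i' < 2 * d * R) (hu : u < M) (hu' : u' < M) (h : i < i' ∨ (i = i' ∧ u < u')) :
    blockPt M x i u < blockPt M x i' u' := by
  have h2 := block_index_lt hi' hu'
  have h1 : i * M + u < i' * M + u' := by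
    rcases h with h | ⟨rfl, h⟩
    · have := block_index_lt h hu; omega
    · omega
  rw [blockPt, blockPt, dif_pos (lt_trans h1 h2), dif_pos h2]
  exact hx h1

theorem blockPt_comp {W M : ℕ} (Z : ℕ → ℕ) (φ : ℕ → ℕ) (i u : ℕ) (hu : u < M) (h : i * M + u < W) :
    blockPt M (Z ∘ fun k : Fin W => blowUp M φ k) i u = Z (φ i * M + u) := by
  rw [blockPt, dif_pos h]
  simp only [Function.comp_apply, blowUp]
  rw [Nat.mul_comm i M, Nat.mul_add_div (by omega), Nat.div_eq_of_lt hu, Nat.add_zero,
    Nat.mul_add_mod, Nat.mod_eq_of_lt hu]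

theorem divmod_period {d : ℕ} (m s : ℕ) (hs : s < 2 * d) :
    (2 * d * m + s) / (2 * d) = m ∧ (2 * d * m + s) % (2 * d) = s := by
  rw [Nat.mul_add_div (by omega), Nat.div_eq_of_lt hs, Nat.mul_add_mod, Nat.mod_eq_of_lt hs]
  simp

theorem phi_start {d a : ℕ} (ha : a < d) (l : ℕ) :
    phiX d a (2 * (a + l * d)) = (l + 2) * period d ∧
    phiX d a (2 * (a + l * d) + 1) = (l + 2) * period d + (2 * d - 1) ∧
    phiY d a (2 * (a + l * d)) = (l + 1) * period d + (2 * d - 1) ∧
    phiY d a (2 * (a + l * d) + 1) = (l + 2) * period d := by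
  have e0 : 2 * (a + l * d) + 2 * (d - a) = 2 * d * (l + 1) + 0 := by
    rw [show 2 * d * (l + 1) = 2 * (l * d) + 2 * d by ring]; omega
  have e1 : 2 * (a + l * d) + 1 + 2 * (d - a) = 2 * d * (l + 1) + 1 := by omega
  obtain ⟨p0, q0⟩ := divmod_period (d := d) (l + 1) 0 (by omega)
  obtain ⟨p1, q1⟩ := divmod_period (d := d) (l + 1) 1 (by omega)
  simp only [phiX, phiY]
  rw [e0, e1, p0, q0, p1, q1]
  simp only [offX, offY, if_true, Nat.one_ne_zero, if_false]
  refine ⟨?_, ?_, ?_, ?_⟩ <;> first | trivial | ring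

/-- The points of the pulse of phase `b ≠ a` in period `l'`. -/
theorem phi_other {d a b : ℕ} (ha : a < d) (hb : b < d) (hba : b ≠ a) (l' : ℕ) :
    ∃ r, 1 ≤ r ∧ r < d ∧
      phiX d a (2 * (b + l' * d)) =
        ((if a < b then l' + 1 else l') + 1) * period d + (2 * d + 2 * r - 2) ∧
      phiX d a (2 * (b + l' * d) + 1) =
        ((if a < b then l' + 1 else l') + 1) * period d + (2 * d + 2 * r - 1) ∧
      phiY d a (2 * (b + l' * d)) =
        (if a < b then l' + 1 else l') * period d + (period d + 2 * r - 1) ∧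
      phiY d a (2 * (b + l' * d) + 1) =
        (if a < b then l' + 1 else l') * period d + (period d + 2 * r) := by
  obtain ⟨r, hr, hm⟩ : ∃ r, (1 ≤ r ∧ r < d) ∧
      2 * (b + l' * d) + 2 * (d - a) = 2 * d * (if a < b then l' + 1 else l') + 2 * r := by
    by_cases h : a < b
    · refine ⟨b - a, by omega, ?_⟩
      rw [if_pos h, show 2 * d * (l' + 1) = 2 * (l' * d) + 2 * d by ring]; omega
    · refine ⟨d + b - a, by omega, ?_⟩
      rw [if_neg h, show 2 * d * l' = 2 * (l' * d) by ring]; omega
  have hm1 : 2 * (b + l' * d) + 1 + 2 * (d - a)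
      = 2 * d * (if a < b then l' + 1 else l') + (2 * r + 1) := by omega
  obtain ⟨p0, q0⟩ := divmod_period (d := d) (if a < b then l' + 1 else l') (2 * r) (by omega)
  obtain ⟨p1, q1⟩ := divmod_period (d := d) (if a < b then l' + 1 else l') (2 * r + 1) (by omega)
  refine ⟨r, hr.1, hr.2, ?_⟩
  have n0 : 2 * r ≠ 0 := by omega
  have n1 : 2 * r ≠ 1 := by omega
  simp only [phiX, phiY]
  rw [hm, hm1, p0, q0, p1, q1]
  simp only [offX, offY, n0, n1, if_false, show 2 * r + 1 ≠ 0 by omega,
    show 2 * r + 1 ≠ 1 by omega]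
  refine ⟨?_, ?_, ?_, ?_⟩ <;> first | trivial | omega

theorem phiX_strictMono {d a : ℕ} (hd : 2 ≤ d) : StrictMono (phiX d a) := by
  intro i j hij
  have h1 := Nat.div_add_mod (i + 2 * (d - a)) (2 * d)
  have h2 := Nat.div_add_mod (j + 2 * (d - a)) (2 * d)
  have h3 := Nat.mod_lt (i + 2 * (d - a)) (show 0 < 2 * d by omega)
  have h4 := Nat.mod_lt (j + 2 * (d - a)) (show 0 < 2 * d by omega)
  have hle : (i + 2 * (d - a)) / (2 * d) ≤ (j + 2 * (d - a)) / (2 * d) :=
    Nat.div_le_div_right (by omega)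
  simp only [phiX]
  generalize (i + 2 * (d - a)) / (2 * d) = m at *
  generalize (j + 2 * (d - a)) / (2 * d) = n at *
  generalize (i + 2 * (d - a)) % (2 * d) = s at *
  generalize (j + 2 * (d - a)) % (2 * d) = t at *
  have hs : offX d s < period d := by simp only [offX, period]; split_ifs <;> omega
  rcases hle.lt_or_eq with h | h
  · have : (m + 1 + 1) * period d ≤ (n + 1) * period d := Nat.mul_le_mul_right _ (by omega)
    rw [Nat.add_mul (m + 1) 1, Nat.one_mul] at this
    omega
  · subst h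
    have : offX d s < offX d t := by simp only [offX]; split_ifs <;> omega
    omega

theorem phiY_strictMono {d a : ℕ} (hd : 2 ≤ d) : StrictMono (phiY d a) := by
  intro i j hij
  have h1 := Nat.div_add_mod (i + 2 * (d - a)) (2 * d)
  have h2 := Nat.div_add_mod (j + 2 * (d - a)) (2 * d)
  have h3 := Nat.mod_lt (i + 2 * (d - a)) (show 0 < 2 * d by omega)
  have h4 := Nat.mod_lt (j + 2 * (d - a)) (show 0 < 2 * d by omega)
  have hle : (i + 2 * (d - a)) / (2 * d) ≤ (j + 2 * (d - a)) / (2 * d) :=
    Nat.div_le_div_right (by omega)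
  simp only [phiY]
  generalize (i + 2 * (d - a)) / (2 * d) = m at *
  generalize (j + 2 * (d - a)) / (2 * d) = n at *
  generalize (i + 2 * (d - a)) % (2 * d) = s at *
  generalize (j + 2 * (d - a)) % (2 * d) = t at *
  have hs : offY d s < period d + (2 * d - 1) := by
    simp only [offY, period]; split_ifs <;> omega
  have ht : 2 * d - 1 ≤ offY d t := by simp only [offY, period]; split_ifs <;> omega
  rcases hle.lt_or_eq with h | h
  · have : (m + 1) * period d ≤ n * period d := Nat.mul_le_mul_right _ (by omega)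
    rw [Nat.add_mul, Nat.one_mul] at this
    omega
  · subst h
    have : offY d s < offY d t := by simp only [offY, period]; split_ifs <;> omega
    omega

theorem blowUp_strictMono {M : ℕ} (hM : 0 < M) {φ : ℕ → ℕ} (hφ : StrictMono φ) :
    StrictMono (blowUp M φ) := by
  intro i j hij
  have h1 := Nat.div_add_mod i M
  have h2 := Nat.div_add_mod j M
  have h3 := Nat.mod_lt i hM
  rcases (Nat.div_le_div_right (c := M) hij.le).lt_or_eq with h | h
  · have : (φ (i / M) + 1) * M ≤ φ (j / M) * M := Nat.mul_le_mul_right _ (hφ h)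
    rw [Nat.add_mul, Nat.one_mul] at this
    simp only [blowUp]
    omega
  · simp only [blowUp, h] at *
    omega

theorem idxX_strictMono {d R M a : ℕ} (hd : 2 ≤ d) (hM : 0 < M) : StrictMono (idxX d R M a) :=
  fun _ _ h => blowUp_strictMono hM (phiX_strictMono hd) h

theorem idxY_strictMono {d R M a : ℕ} (hd : 2 ≤ d) (hM : 0 < M) : StrictMono (idxY d R M a) :=
  fun _ _ h => blowUp_strictMono hM (phiY_strictMono hd) h

theorem idx_lt {d R M a : ℕ} (hd : 2 ≤ d) (hM : 0 < M) (k : Fin (2 * d * R * M)) :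
    idxX d R M a k < (R + 3) * period d * M ∧ idxY d R M a k < (R + 3) * period d * M := by
  have h1 : k.val / M < 2 * d * R := Nat.div_lt_of_lt_mul (by rw [Nat.mul_comm M]; exact k.isLt)
  have h2 : (k.val / M + 2 * (d - a)) / (2 * d) < R + 1 := Nat.div_lt_of_lt_mul (by
    rw [show 2 * d * (R + 1) = 2 * d * R + 2 * d by ring]; omega)
  have h3 := Nat.mod_lt (k.val / M + 2 * (d - a)) (show 0 < 2 * d by omega)
  have h5 : ((k.val / M + 2 * (d - a)) / (2 * d) + 1) * period d ≤ (R + 1) * period d :=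
    Nat.mul_le_mul_right _ (by omega)
  constructor
  · apply block_index_lt _ (Nat.mod_lt _ hM)
    have h4 : offX d ((k.val / M + 2 * (d - a)) % (2 * d)) < 2 * period d := by
      simp only [offX, period]; split_ifs <;> omega
    simp only [phiX]
    rw [show (R + 3) * period d = (R + 1) * period d + 2 * period d by ring]
    omega
  · apply block_index_lt _ (Nat.mod_lt _ hM)
    have h4 : offY d ((k.val / M + 2 * (d - a)) % (2 * d)) < 2 * period d := by
      simp only [offY, period]; split_ifs <;> omega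
    simp only [phiY]
    rw [Nat.add_mul, Nat.one_mul] at h5
    rw [show (R + 3) * period d = (R + 1) * period d + 2 * period d by ring]
    omega

theorem atom_congr {M : ℕ} {q q' : ℕ → ℕ} (h : ∀ u, u < M → q u = q' u) : atom M q = atom M q' :=
  Finset.sum_congr rfl fun u hu => by rw [h u (Finset.mem_range.1 hu)]

theorem isStep_pair {d R M a a' : ℕ} (hd : 2 ≤ d) (hR : 1 ≤ R) (hM : 0 < M) (ha : a < d) (ha' : a' < d)
    {Z : ℕ → ℕ} (hZ : StrictMono Z) :
    IsStep d R M (Z ∘ idxX d R M a) (Z ∘ idxY d R M a') a a' ∧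
    IsStep d R M (Z ∘ idxY d R M a') (Z ∘ idxX d R M a) a' a := by
  have hv : ∀ b, b < d → ∀ l, l < R → ∀ u, u < M →
      2 * (b + l * d) * M + u < 2 * d * R * M ∧ (2 * (b + l * d) + 1) * M + u < 2 * d * R * M := by
    intro b hb l hl u hu
    have h := phase_lt hb hl
    have h2 : 2 * d * R = 2 * (d * R) := by ring
    exact ⟨block_index_lt (by omega) hu, block_index_lt (by omega) hu⟩
  have xs : ∀ b, b < d → ∀ l, l < R → ∀ u, u < M → pStart d M (Z ∘ idxX d R M a) b l u
      = Z (phiX d a (2 * (b + l * d)) * M + u) :=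
    fun b hb l hl u hu => blockPt_comp Z (phiX d a) _ u hu (hv b hb l hl u hu).1
  have xe : ∀ b, b < d → ∀ l, l < R → ∀ u, u < M → pEnd d M (Z ∘ idxX d R M a) b l u
      = Z (phiX d a (2 * (b + l * d) + 1) * M + u) :=
    fun b hb l hl u hu => blockPt_comp Z (phiX d a) _ u hu (hv b hb l hl u hu).2
  have ys : ∀ b, b < d → ∀ l, l < R → ∀ u, u < M → pStart d M (Z ∘ idxY d R M a') b l u
      = Z (phiY d a' (2 * (b + l * d)) * M + u) :=
    fun b hb l hl u hu => blockPt_comp Z (phiY d a') _ u hu (hv b hb l hl u hu).1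
  have ye : ∀ b, b < d → ∀ l, l < R → ∀ u, u < M → pEnd d M (Z ∘ idxY d R M a') b l u
      = Z (phiY d a' (2 * (b + l * d) + 1) * M + u) :=
    fun b hb l hl u hu => blockPt_comp Z (phiY d a') _ u hu (hv b hb l hl u hu).2
  have pl : ∀ i i' u u', i < i' → u < M → Z (i * M + u) < Z (i' * M + u') := fun i i' u u' h hu =>
    hZ (lt_of_lt_of_le (block_index_lt h hu) (Nat.le_add_right _ _))
  have mX : StrictMono (Z ∘ idxX d R M a) := hZ.comp (idxX_strictMono hd hM)
  have mY : StrictMono (Z ∘ idxY d R M a') := hZ.comp (idxY_strictMono hd hM)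
  obtain ⟨R', rfl⟩ : ∃ R', R = R' + 1 := ⟨R - 1, by omega⟩
  -- the identity between the two pulse vectors
  have hse : ∀ l ∈ range R', atom M (pStart d M (Z ∘ idxY d (R' + 1) M a') a' (l + 1))
      = atom M (pEnd d M (Z ∘ idxX d (R' + 1) M a) a l) := fun l hl => atom_congr fun u hu => by
    have hl := Finset.mem_range.1 hl
    rw [ys a' ha' (l + 1) (by omega) u hu, xe a ha l (by omega) u hu,
      (phi_start ha' (l + 1)).2.2.1, (phi_start ha l).2.1]
  have hes : ∀ l ∈ range (R' + 1), atom M (pEnd d M (Z ∘ idxY d (R' + 1) M a') a' l)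
      = atom M (pStart d M (Z ∘ idxX d (R' + 1) M a) a l) := fun l hl => atom_congr fun u hu => by
    have hl := Finset.mem_range.1 hl
    rw [ye a' ha' l hl u hu, xs a ha l hl u hu, (phi_start ha' l).2.2.2, (phi_start ha l).1]
  have key : vOut d (R' + 1) M (Z ∘ idxY d (R' + 1) M a') a'
      = atom M (pStart d M (Z ∘ idxY d (R' + 1) M a') a' 0)
        - atom M (pEnd d M (Z ∘ idxX d (R' + 1) M a) a R')
        - vOut d (R' + 1) M (Z ∘ idxX d (R' + 1) M a) a := by
    simp only [vOut, Finset.sum_sub_distrib]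
    rw [Finset.sum_range_succ' (fun l => atom M (pStart d M (Z ∘ idxY d (R' + 1) M a') a' l)),
      Finset.sum_congr rfl hse, Finset.sum_congr rfl hes,
      Finset.sum_range_succ (fun l => atom M (pEnd d M (Z ∘ idxX d (R' + 1) M a) a l))]
    abel
  have hP : period d = 4 * d - 2 := rfl
  refine ⟨⟨mX, mY, ?_, ?_⟩, ⟨mY, mX, ?_, ?_⟩⟩
  · intro b hb hba
    refine ⟨if a' < b then 0 else 1, by split <;> omega, by split <;> omega, ?_⟩
    intro l l' hl hl' hll u u' hu hu'
    obtain ⟨r, hr1, hr2, -, -, e3, e4⟩ := phi_other ha' hb hba l'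
    have hm : (if a' < b then l' + 1 else l') = l + 1 := by
      by_cases h : a' < b
      · rw [if_pos h] at hll ⊢; omega
      · rw [if_neg h] at hll ⊢; omega
    rw [hm] at e3 e4
    rw [xs a ha l hl u hu, xe a ha l hl u hu, ys b hb l' hl' u' hu', ye b hb l' hl' u' hu', e3, e4,
      (phi_start ha l).1, (phi_start ha l).2.1]
    have e : (l + 2) * period d = (l + 1) * period d + period d := by ring
    exact ⟨pl _ _ _ _ (by omega) hu, pl _ _ _ _ (by omega) hu'⟩
  · refine ⟨pStart d M (Z ∘ idxY d (R' + 1) M a') a' 0, pEnd d M (Z ∘ idxX d (R' + 1) M a) a R',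
      ?_, ?_, ?_⟩
    · intro l _ hl u u' hu hu'
      rw [ys a' ha' 0 (by omega) u hu, xs a ha l hl u' hu', (phi_start ha' 0).2.2.1,
        (phi_start ha l).1]
      apply pl _ _ _ _ _ hu
      have : 2 * period d ≤ (l + 2) * period d := Nat.mul_le_mul_right _ (by omega)
      omega
    · intro l hl u hu
      rw [xe a ha l hl 0 hM, xe a ha R' (by omega) u hu, (phi_start ha l).2.1,
        (phi_start ha R').2.1]
      apply hZ.monotone
      have : (l + 2) * period d + (2 * d - 1) ≤ (R' + 2) * period d + (2 * d - 1) :=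
        Nat.add_le_add_right (Nat.mul_le_mul_right _ (by omega)) _
      have := Nat.mul_le_mul_right M this
      omega
    · rw [key, two_smul]; abel
  · intro b hb hba
    refine ⟨if a < b then -1 else 0, by split <;> omega, by split <;> omega, ?_⟩
    intro l l' hl hl' hll u u' hu hu'
    obtain ⟨r, hr1, hr2, e1, e2, -, -⟩ := phi_other ha hb hba l'
    have hm : (if a < b then l' + 1 else l') = l := by
      by_cases h : a < b
      · rw [if_pos h] at hll ⊢; omega
      · rw [if_neg h] at hll ⊢; omega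
    rw [hm] at e1 e2
    rw [ys a' ha' l hl u hu, ye a' ha' l hl u hu, xs b hb l' hl' u' hu', xe b hb l' hl' u' hu',
      e1, e2, (phi_start ha' l).2.2.1, (phi_start ha' l).2.2.2]
    have e : (l + 2) * period d = (l + 1) * period d + period d := by ring
    exact ⟨pl _ _ _ _ (by omega) hu, pl _ _ _ _ (by omega) hu'⟩
  · refine ⟨pStart d M (Z ∘ idxY d (R' + 1) M a') a' 0, pEnd d M (Z ∘ idxX d (R' + 1) M a) a R',
      ?_, ?_, ?_⟩
    · intro l hl1 hl u u' hu hu'
      rw [ys a' ha' 0 (by omega) u hu, ys a' ha' l hl u' hu', (phi_start ha' 0).2.2.1,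
        (phi_start ha' l).2.2.1]
      apply pl _ _ _ _ _ hu
      have : 2 * period d ≤ (l + 1) * period d := Nat.mul_le_mul_right _ (by omega)
      omega
    · intro l hl u hu
      rw [ye a' ha' l hl 0 hM, xe a ha R' (by omega) u hu, (phi_start ha' l).2.2.2,
        (phi_start ha R').2.1]
      apply hZ.monotone
      have : (l + 2) * period d ≤ (R' + 2) * period d + (2 * d - 1) :=
        le_trans (Nat.mul_le_mul_right _ (by omega)) (Nat.le_add_right _ _)
      have := Nat.mul_le_mul_right M this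
      omega
    · rw [key, two_smul]; abel

end Vale.Agent.P125
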