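import Mathlib
import Vale.Agent.P125.Defs
import Vale.Agent.P125.Pattern

/-!
P125: norm estimates along a path without backtracking, in a spreading seminorm.
-/

namespace Vale.Agent.P125

open Finset

/-- The tail sum from `c` on, as a linear map. -/
noncomputable def tailF (c : ℕ) : (ℕ →₀ ℝ) →ₗ[ℝ] ℝ :=
  Finsupp.linearCombination ℝ (fun i => if c ≤ i then (1 : ℝ) else 0)

/-- Alternating averaged blocks in canonical position. -/
noncomputable def vCanon (R M : ℕ) : ℕ →₀ ℝ :=
  ∑ l ∈ range R, (atom M (fun i => l * (2 * M) + i) - atom M (fun i => l * (2 * M) + (M + i)))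

/-- The norm of `R` alternating blocks of size `M`. -/
noncomputable def psi (σ : SpreadNorm) (R M : ℕ) : ℝ := σ.N (vCanon R M)

/-- The infimum of `psi σ R` over all block sizes. -/
noncomputable def psiInf (σ : SpreadNorm) (R : ℕ) : ℝ := ⨅ M : ℕ, psi σ R (M + 1)

namespace SpreadNorm

variable (σ : SpreadNorm)

theorem N_zero : σ.N 0 = 0 := by simpa using σ.smul 0 0

theorem N_neg (a : ℕ →₀ ℝ) : σ.N (-a) = σ.N a := by simpa using σ.smul (-1) a

theorem N_sub_le (a b : ℕ →₀ ℝ) : σ.N (a - b) ≤ σ.N a + σ.N b := by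
  rw [sub_eq_add_neg]
  exact (σ.add_le _ _).trans_eq (by rw [σ.N_neg])

theorem N_sum_le {ι : Type*} (s : Finset ι) (f : ι → ℕ →₀ ℝ) :
    σ.N (∑ i ∈ s, f i) ≤ ∑ i ∈ s, σ.N (f i) := by
  classical
  induction s using Finset.induction with
  | empty => simp [σ.N_zero]
  | insert a s ha ih =>
    rw [Finset.sum_insert ha, Finset.sum_insert ha]
    exact (σ.add_le _ _).trans (add_le_add le_rfl ih)

theorem N_atom_le (M : ℕ) (q : ℕ → ℕ) : σ.N (atom M q) ≤ 1 := by
  refine (σ.N_sum_le _ _).trans ?_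
  have h : ∀ u ∈ range M, σ.N (Finsupp.single (q u) (1 / (M : ℝ))) ≤ 1 / (M : ℝ) := fun u _ => by
    rw [← Finsupp.smul_single_one, σ.smul, abs_of_nonneg (by positivity)]
    exact mul_le_of_le_one_right (by positivity) (σ.single_le _)
  refine (Finset.sum_le_sum h).trans ?_
  rcases Nat.eq_zero_or_pos M with rfl | hM
  · simp
  · have : (M : ℝ) ≠ 0 := by exact_mod_cast hM.ne'
    simp [this]

theorem N_atom_sub_le (M : ℕ) (q q' : ℕ → ℕ) : σ.N (atom M q - atom M q') ≤ 2 := by
  linarith [σ.N_sub_le (atom M q) (atom M q'), σ.N_atom_le M q, σ.N_atom_le M q']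

theorem tail' (a : ℕ →₀ ℝ) (c : ℕ) : σ.θ * |tailF c a| ≤ σ.N a := by
  have : tailF c a = a.sum fun i r => if c ≤ i then r else 0 := by
    simp [tailF, Finsupp.linearCombination_apply]
  rw [this]
  exact σ.tail a c

end SpreadNorm

theorem tailF_atom_one {c M : ℕ} (hM : 0 < M) {q : ℕ → ℕ} (h : ∀ u, u < M → c ≤ q u) :
    tailF c (atom M q) = 1 := by
  have : (M : ℝ) ≠ 0 := by exact_mod_cast hM.ne'
  rw [atom, map_sum, Finset.sum_congr rfl (fun u hu => show _ = 1 / (M : ℝ) from ?_)]
  · simp [this]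
  · simp [tailF, h u (Finset.mem_range.1 hu)]

theorem tailF_atom_zero {c M : ℕ} {q : ℕ → ℕ} (h : ∀ u, u < M → q u < c) :
    tailF c (atom M q) = 0 := by
  rw [atom, map_sum]
  refine Finset.sum_eq_zero fun u hu => ?_
  simp [tailF, not_le.2 (h u (Finset.mem_range.1 hu))]

theorem psi_blocks (σ : SpreadNorm) (R M : ℕ) (S E : ℕ → ℕ → ℕ)
    (hS : ∀ l, l < R → ∀ u u', u < u' → u' < M → S l u < S l u')
    (hE : ∀ l, l < R → ∀ u u', u < u' → u' < M → E l u < E l u')
    (hSE : ∀ l, l < R → ∀ u u', u < M → u' < M → S l u < E l u')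
    (hES : ∀ l l', l < l' → l' < R → ∀ u u', u < M → u' < M → E l u < S l' u') :
    σ.N (∑ l ∈ range R, (atom M (S l) - atom M (E l))) = psi σ R M := by
  let g : ℕ → ℕ := fun k =>
    if k % (2 * M) < M then S (k / (2 * M)) (k % (2 * M))
    else E (k / (2 * M)) (k % (2 * M) - M)
  let b : ℕ := (range (R * (2 * M))).sup g + 1
  let κ : ℕ → ℕ := fun k => if k < R * (2 * M) then g k else b + k
  have hκ : StrictMono κ := by
    intro i j hij
    simp only [κ]
    by_cases hj : j < R * (2 * M)
    · rw [if_pos hj, if_pos (hij.trans hj)]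
      have hM : 0 < M := by
        rcases Nat.eq_zero_or_pos M with rfl | h
        · simp at hj
        · exact h
      have li : i / (2 * M) < R := Nat.div_lt_of_lt_mul (by rw [Nat.mul_comm]; exact hij.trans hj)
      have lj : j / (2 * M) < R := Nat.div_lt_of_lt_mul (by rw [Nat.mul_comm]; exact hj)
      have e1 := Nat.div_add_mod i (2 * M)
      have e2 := Nat.div_add_mod j (2 * M)
      have m1 := Nat.mod_lt i (show 0 < 2 * M by omega)
      have m2 := Nat.mod_lt j (show 0 < 2 * M by omega)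
      simp only [g]
      generalize i / (2 * M) = l at *
      generalize j / (2 * M) = l' at *
      generalize i % (2 * M) = r at *
      generalize j % (2 * M) = r' at *
      have hl : l ≤ l' := by
        by_contra h
        have : (l' + 1) * (2 * M) ≤ l * (2 * M) := Nat.mul_le_mul_right _ (by omega)
        rw [Nat.add_mul, Nat.one_mul, Nat.mul_comm l', Nat.mul_comm l] at this
        omega
      rcases hl.lt_or_eq with h | h
      · have a1 : ∀ u, u < M → E l (M - 1) < S l' u := fun u hu => hES l l' h lj _ u (by omega) hu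
        split_ifs with p q
        · exact lt_trans (hSE l li r (M - 1) p (by omega)) (a1 r' q)
        · exact lt_trans (hSE l li r (M - 1) p (by omega))
            (lt_trans (a1 0 hM) (hSE l' lj 0 (r' - M) hM (by omega)))
        · exact hES l l' h lj (r - M) r' (by omega) (by assumption)
        · exact lt_trans (hES l l' h lj (r - M) 0 (by omega) hM)
            (hSE l' lj 0 (r' - M) hM (by omega))
      · subst h
        split_ifs with p q
        · exact hS l li r r' (by omega) q
        · exact hSE l li r (r' - M) p (by omega)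
        · omega
        · exact hE l li (r - M) (r' - M) (by omega) (by omega)
    · rw [if_neg hj]
      by_cases hi : i < R * (2 * M)
      · rw [if_pos hi]
        have : g i ≤ (range (R * (2 * M))).sup g := Finset.le_sup (Finset.mem_range.2 hi)
        simp only [b]
        omega
      · rw [if_neg hi]
        omega
  rw [psi, ← σ.reindex κ hκ (vCanon R M)]
  congr 1
  rw [vCanon, ← Finsupp.lmapDomain_apply ℝ ℝ, map_sum]
  refine Finset.sum_congr rfl fun l hl => ?_
  have hl := Finset.mem_range.1 hl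
  have key : ∀ i, i < 2 * M → κ (l * (2 * M) + i) = if i < M then S l i else E l (i - M) := by
    intro i hi
    have : l * (2 * M) + i < R * (2 * M) := by
      have : (l + 1) * (2 * M) ≤ R * (2 * M) := Nat.mul_le_mul_right _ hl
      rw [Nat.add_mul, Nat.one_mul] at this
      omega
    simp only [κ, if_pos this, g]
    rw [Nat.mul_comm l, Nat.mul_add_div (by omega), Nat.div_eq_of_lt hi, Nat.mul_add_mod,
      Nat.mod_eq_of_lt hi, Nat.add_zero]
  rw [map_sub, atom, atom, atom, atom, map_sum, map_sum]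
  congr 1
  · refine Finset.sum_congr rfl fun u hu => ?_
    have hu := Finset.mem_range.1 hu
    rw [Finsupp.lmapDomain_apply, Finsupp.mapDomain_single, key u (by omega), if_pos hu]
  · refine Finset.sum_congr rfl fun u hu => ?_
    have hu := Finset.mem_range.1 hu
    rw [Finsupp.lmapDomain_apply, Finsupp.mapDomain_single, key (M + u) (by omega),
      if_neg (by omega), Nat.add_sub_cancel_left]

theorem psi_le_add (σ : SpreadNorm) {R R' : ℕ} (M : ℕ) (h : R' ≤ R) :
    psi σ R M ≤ psi σ R' M + 2 * ((R : ℝ) - R') := by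
  obtain ⟨k, rfl⟩ := Nat.exists_eq_add_of_le h
  simp only [psi, vCanon]
  rw [Finset.sum_range_add]
  refine (σ.add_le _ _).trans (add_le_add le_rfl ?_)
  refine (σ.N_sum_le _ _).trans ((Finset.sum_le_sum fun l _ => σ.N_atom_sub_le _ _ _).trans ?_)
  simp [mul_comm]

theorem psi_le (σ : SpreadNorm) (R M : ℕ) : psi σ R M ≤ 2 * R := by
  have h := psi_le_add σ M (Nat.zero_le R)
  simpa [psi, vCanon, σ.N_zero] using h

theorem psiInf_le (σ : SpreadNorm) (R : ℕ) {M : ℕ} (hM : 0 < M) : psiInf σ R ≤ psi σ R M := by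
  have h := ciInf_le (f := fun M : ℕ => psi σ R (M + 1))
    ⟨0, Set.forall_mem_range.2 fun _ => σ.nonneg _⟩ (M - 1)
  simpa [psiInf, Nat.sub_add_cancel hM] using h

theorem exists_psi_near (σ : SpreadNorm) (R : ℕ) : ∃ M, 0 < M ∧ psi σ R M < psiInf σ R + 1 := by
  obtain ⟨M, hM⟩ := exists_lt_of_ciInf_lt (show psiInf σ R < psiInf σ R + 1 by linarith)
  exact ⟨M + 1, Nat.succ_pos M, hM⟩

theorem atom_mul (T M : ℕ) (G : ℕ → ℕ → ℕ) :
    (T : ℝ) • atom (T * M) (fun i => G (i / M) (i % M)) = ∑ s ∈ range T, atom M (G s) := by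
  rcases Nat.eq_zero_or_pos T with rfl | hT
  · simp
  rcases Nat.eq_zero_or_pos M with rfl | hM
  · simp [atom]
  have hT' : (T : ℝ) ≠ 0 := by exact_mod_cast hT.ne'
  have h : ∀ (c : ℝ) k, ∑ i ∈ range (k * M), Finsupp.single (G (i / M) (i % M)) c
      = ∑ s ∈ range k, ∑ u ∈ range M, Finsupp.single (G s u) c := by
    intro c k
    induction k with
    | zero => simp
    | succ k ih =>
      rw [Nat.succ_mul, Finset.sum_range_add, ih, Finset.sum_range_succ]
      congr 1
      refine Finset.sum_congr rfl fun u hu => ?_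
      have hu := Finset.mem_range.1 hu
      rw [Nat.mul_comm k, Nat.mul_add_div hM, Nat.div_eq_of_lt hu, Nat.mul_add_mod,
        Nat.mod_eq_of_lt hu, Nat.add_zero]
  simp only [atom]
  rw [h, Finset.smul_sum]
  refine Finset.sum_congr rfl fun s _ => ?_
  rw [Finset.smul_sum]
  refine Finset.sum_congr rfl fun u _ => ?_
  rw [Finsupp.smul_single, smul_eq_mul]
  congr 1
  push_cast
  field_simp

section Path

variable {d R M : ℕ}

theorem two_phase_lt {a l : ℕ} (ha : a < d) (hl : l < R) : 2 * (a + l * d) + 1 < 2 * d * R := by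
  have h := phase_lt ha hl
  have : 2 * d * R = 2 * (d * R) := by ring
  omega

theorem pStart_lt_pEnd {x : Fin (2 * d * R * M) → ℕ} (hx : StrictMono x) {a l u u' : ℕ}
    (ha : a < d) (hl : l < R) (hu : u < M) (hu' : u' < M) :
    pStart d M x a l u < pEnd d M x a l u' :=
  blockPt_lt hx (two_phase_lt ha hl) hu hu' (Or.inl (Nat.lt_succ_self _))

theorem pEnd_lt_pStart {x : Fin (2 * d * R * M) → ℕ} (hx : StrictMono x) {a l l' u u' : ℕ}
    (ha : a < d) (hl : l < l') (hl' : l' < R) (hu : u < M) (hu' : u' < M) :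
    pEnd d M x a l u < pStart d M x a l' u' := by
  refine blockPt_lt hx (by have := two_phase_lt ha hl'; omega) hu hu' (Or.inl ?_)
  have : (l + 1) * d ≤ l' * d := Nat.mul_le_mul_right _ hl
  rw [Nat.add_mul, Nat.one_mul] at this
  omega

theorem pStart_mono {x : Fin (2 * d * R * M) → ℕ} (hx : StrictMono x) {a l u u' : ℕ}
    (ha : a < d) (hl : l < R) (h : u < u') (hu' : u' < M) :
    pStart d M x a l u < pStart d M x a l u' :=
  blockPt_lt hx (by have := two_phase_lt ha hl; omega) (h.trans hu') hu' (Or.inr ⟨rfl, h⟩)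

theorem pEnd_mono {x : Fin (2 * d * R * M) → ℕ} (hx : StrictMono x) {a l u u' : ℕ}
    (ha : a < d) (hl : l < R) (h : u < u') (hu' : u' < M) :
    pEnd d M x a l u < pEnd d M x a l u' :=
  blockPt_lt hx (two_phase_lt ha hl) (h.trans hu') hu' (Or.inr ⟨rfl, h⟩)

theorem psi_vOut (σ : SpreadNorm) {x : Fin (2 * d * R * M) → ℕ} (hx : StrictMono x) {a : ℕ}
    (ha : a < d) : σ.N (vOut d R M x a) = psi σ R M :=
  psi_blocks σ R M _ _ (fun _ hl _ _ h hu => pStart_mono hx ha hl h hu)
    (fun _ hl _ _ h hu => pEnd_mono hx ha hl h hu)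
    (fun _ hl _ _ hu hu' => pStart_lt_pEnd hx ha hl hu hu')
    (fun _ _ h hl' _ _ hu hu' => pEnd_lt_pStart hx ha h hl' hu hu')

/-- The displacement along a step. -/
noncomputable def stepVec (d R M : ℕ) (x y : Fin (2 * d * R * M) → ℕ) (a a' : ℕ) : ℕ →₀ ℝ :=
  vOut d R M x a - vOut d R M y a'

theorem N_stepVec_le (σ : SpreadNorm) {x y : Fin (2 * d * R * M) → ℕ} {a a' : ℕ}
    (h : IsStep d R M x y a a') (ha : a < d) :
    σ.N (stepVec d R M x y a a') ≤ 2 * psi σ R M + 2 := by
  obtain ⟨lo, hi, -, -, e⟩ := h.split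
  rw [stepVec, e]
  refine (σ.N_sub_le _ _).trans ?_
  have h1 := σ.add_le ((2 : ℝ) • vOut d R M x a) (atom M hi)
  rw [σ.smul, psi_vOut σ h.mono_tail ha, abs_two] at h1
  linarith [σ.N_atom_le M hi, σ.N_atom_le M lo]

theorem exists_offsets {T : ℕ} {X : ℕ → Fin (2 * d * R * M) → ℕ} {A B : ℕ → ℕ}
    (hA : ∀ s, s < T → A s < d)
    (hstep : ∀ s, s < T → IsStep d R M (X s) (X (s + 1)) (A s) (B s))
    (hnb : ∀ s, s + 1 < T → A (s + 1) ≠ B s) :
    ∃ off : ℕ → ℤ, (∀ s : ℕ, -(s : ℤ) ≤ off s ∧ off s ≤ s) ∧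
      ∀ s, s + 1 < T → ∀ l l' : ℕ, l < R → l' < R → (l' : ℤ) = l + (off (s + 1) - off s) →
        ∀ u u', u < M → u' < M →
          pStart d M (X s) (A s) l u < pStart d M (X (s + 1)) (A (s + 1)) l' u' ∧
          pEnd d M (X (s + 1)) (A (s + 1)) l' u' < pEnd d M (X s) (A s) l u := by
  have h : ∀ s, ∃ σ : ℤ, -1 ≤ σ ∧ σ ≤ 1 ∧ (s + 1 < T → ∀ l l' : ℕ, l < R → l' < R →
      (l' : ℤ) = l + σ → ∀ u u', u < M → u' < M →
        pStart d M (X s) (A s) l u < pStart d M (X (s + 1)) (A (s + 1)) l' u' ∧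
        pEnd d M (X (s + 1)) (A (s + 1)) l' u' < pEnd d M (X s) (A s) l u) := by
    intro s
    by_cases hs : s + 1 < T
    · obtain ⟨σ, h1, h2, h3⟩ :=
        (hstep s (by omega)).nest (A (s + 1)) (hA _ hs) (hnb s hs)
      exact ⟨σ, h1, h2, fun _ => h3⟩
    · exact ⟨0, by omega, by omega, fun h => absurd h hs⟩
  choose σ hσ1 hσ2 hσ3 using h
  refine ⟨fun s => ∑ i ∈ range s, σ i, fun s => ?_, fun s hs l l' hl hl' e => ?_⟩
  · induction s with
    | zero => simp
    | succ s ih =>
      have := hσ1 s; have := hσ2 s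
      simp only [Finset.sum_range_succ] at ih ⊢
      push_cast
      omega
  · refine hσ3 s hs l l' hl hl' ?_
    simp only [Finset.sum_range_succ] at e
    omega

variable {T : ℕ} {X : ℕ → Fin (2 * d * R * M) → ℕ} {A B : ℕ → ℕ}

/-- Nested pulses along a path. -/
theorem exists_nested (hA : ∀ s, s < T → A s < d)
    (hstep : ∀ s, s < T → IsStep d R M (X s) (X (s + 1)) (A s) (B s))
    (hnb : ∀ s, s + 1 < T → A (s + 1) ≠ B s) :
    ∃ L : ℕ → ℕ → ℕ,
      (∀ s, s < T → ∀ j j', j < j' → L s j < L s j') ∧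
      (∀ s, s < T → ∀ j, j + 2 * T ≤ R + j → j + 2 * T < R + 1 → 1 ≤ L s j) ∧
      (∀ s, s < T → ∀ j, j + 2 * T < R → L s j < R) ∧
      (∀ s s', s < s' → s' < T → ∀ j, j + 2 * T < R → ∀ u u', u < M → u' < M →
        pStart d M (X s) (A s) (L s j) u < pStart d M (X s') (A s') (L s' j) u' ∧
        pEnd d M (X s') (A s') (L s' j) u' < pEnd d M (X s) (A s) (L s j) u) := by
  obtain ⟨off, hb, hn⟩ := exists_offsets hA hstep hnb
  refine ⟨fun s j => ((j : ℤ) + T + off s).toNat, fun s hs j j' h => ?_, fun s hs j _ _ => ?_,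
    fun s hs j hj => ?_, ?_⟩
  · have := (hb s).1
    simp only
    omega
  · have := (hb s).1
    simp only
    omega
  · have := (hb s).2
    simp only
    omega
  · have hone : ∀ s, s + 1 < T → ∀ j, j + 2 * T < R → ∀ u u', u < M → u' < M →
        pStart d M (X s) (A s) (((j : ℤ) + T + off s).toNat) u
          < pStart d M (X (s + 1)) (A (s + 1)) (((j : ℤ) + T + off (s + 1)).toNat) u' ∧
        pEnd d M (X (s + 1)) (A (s + 1)) (((j : ℤ) + T + off (s + 1)).toNat) u'
          < pEnd d M (X s) (A s) (((j : ℤ) + T + off s).toNat) u := by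
      intro s hs j hj u u' hu hu'
      have := hb s; have := hb (s + 1)
      exact hn s hs _ _ (by omega) (by omega) (by omega) u u' hu hu'
    intro s s' hss
    induction s' with
    | zero => omega
    | succ k ih =>
      intro hk j hj u u' hu hu'
      rcases Nat.lt_succ_iff_lt_or_eq.1 hss with h | h
      · have h1 := ih h (by omega) j hj u u' hu hu'
        have h2 := hone k hk j hj u' u' hu' hu'
        exact ⟨lt_trans h1.1 h2.1, lt_trans h2.2 h1.2⟩
      · subst h
        exact hone s hk j hj u u' hu hu'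

/-- The tail sum at a common cut is `-1` for every step. -/
theorem path_tail (σ : SpreadNorm) (hT : 1 ≤ T) (hM : 0 < M) (hR : 2 * T < R)
    (hA : ∀ s, s < T → A s < d)
    (hstep : ∀ s, s < T → IsStep d R M (X s) (X (s + 1)) (A s) (B s))
    (hnb : ∀ s, s + 1 < T → A (s + 1) ≠ B s) :
    σ.θ * T ≤ σ.N (∑ s ∈ range T, stepVec d R M (X s) (X (s + 1)) (A s) (B s)) := by
  obtain ⟨L, -, hL1, hL2, hL3⟩ := exists_nested hA hstep hnb
  let c := pEnd d M (X (T - 1)) (A (T - 1)) (L (T - 1) 0) 0
  have hcut : ∀ s, s < T → (∀ u, u < M → pStart d M (X s) (A s) (L s 0) u < c) ∧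
      c ≤ pEnd d M (X s) (A s) (L s 0) 0 := by
    intro s hs
    rcases Nat.lt_or_ge s (T - 1) with h | h
    · refine ⟨fun u hu => lt_trans (hL3 s (T - 1) h (by omega) 0 (by omega) u 0 hu hM).1
        (pStart_lt_pEnd (hstep _ (by omega)).mono_tail (hA _ (by omega))
          (hL2 _ (by omega) 0 (by omega)) hM hM), ?_⟩
      exact (hL3 s (T - 1) h (by omega) 0 (by omega) 0 0 hM hM).2.le
    · obtain rfl : s = T - 1 := by omega
      exact ⟨fun u hu => pStart_lt_pEnd (hstep _ hs).mono_tail (hA _ hs)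
        (hL2 _ hs 0 (by omega)) hu hM, le_rfl⟩
  have hone : ∀ s, s < T → tailF c (stepVec d R M (X s) (X (s + 1)) (A s) (B s)) = -1 := by
    intro s hs
    have hx := (hstep s hs).mono_tail
    obtain ⟨lo, hi, hlo, hhi, e⟩ := (hstep s hs).split
    have l1 : 1 ≤ L s 0 := hL1 s hs 0 (by omega) (by omega)
    have l2 : L s 0 < R := hL2 s hs 0 (by omega)
    obtain ⟨c1, c2⟩ := hcut s hs
    have hle : ∀ u, u < M → c ≤ pEnd d M (X s) (A s) (L s 0) u := fun u hu => by
      rcases Nat.eq_zero_or_pos u with rfl | hu0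
      · exact c2
      · exact c2.trans (pEnd_mono hx (hA s hs) l2 hu0 hu).le
    have hv : tailF c (vOut d R M (X s) (A s)) = -1 := by
      rw [vOut, map_sum, Finset.sum_eq_single (L s 0)]
      · rw [map_sub, tailF_atom_zero c1, tailF_atom_one hM hle]; ring
      · intro l hl hne
        have hl := Finset.mem_range.1 hl
        rcases Nat.lt_or_gt_of_ne hne with h | h
        · have b : ∀ u, u < M → pEnd d M (X s) (A s) l u < c := fun u hu =>
            lt_trans (pEnd_lt_pStart hx (hA s hs) h l2 hu hM) (c1 0 hM)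
          rw [map_sub, tailF_atom_zero b, tailF_atom_zero (fun u hu =>
            lt_trans (pStart_lt_pEnd hx (hA s hs) hl hu hu) (b u hu)), sub_self]
        · have b : ∀ u, u < M → c ≤ pStart d M (X s) (A s) l u := fun u hu =>
            (hle 0 hM).trans (pEnd_lt_pStart hx (hA s hs) h hl hM hu).le
          rw [map_sub, tailF_atom_one hM b, tailF_atom_one hM (fun u hu =>
            (b u hu).trans (pStart_lt_pEnd hx (hA s hs) hl hu hu).le), sub_self]
      · intro h; exact absurd (Finset.mem_range.2 l2) h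
    rw [stepVec, e, map_sub, map_add, map_smul, hv,
      tailF_atom_one hM (fun u hu => c2.trans (hhi _ l2 u hu)),
      tailF_atom_zero (fun u hu => lt_trans (hlo _ l1 l2 u u hu hu) (c1 u hu))]
    norm_num
  refine le_trans ?_ (σ.tail' _ c)
  rw [map_sum, Finset.sum_congr rfl (fun s hs => hone s (Finset.mem_range.1 hs))]
  simp

/-- The displacement is at least `T` times a canonical alternating vector, up to `O(T^2)`. -/
theorem path_core (σ : SpreadNorm) (hT : 1 ≤ T) (hM : 0 < M) (hR : 2 * T < R)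
    (hA : ∀ s, s < T → A s < d)
    (hstep : ∀ s, s < T → IsStep d R M (X s) (X (s + 1)) (A s) (B s))
    (hnb : ∀ s, s + 1 < T → A (s + 1) ≠ B s) :
    2 * (T : ℝ) * psiInf σ R - 18 * (T : ℝ) ^ 2
      ≤ σ.N (∑ s ∈ range T, stepVec d R M (X s) (X (s + 1)) (A s) (B s)) := by
  obtain ⟨L, hL0, -, hL2, hL3⟩ := exists_nested hA hstep hnb
  let n := R - 2 * T
  let G : ℕ → ℕ → ℕ →₀ ℝ := fun s l =>
    atom M (pStart d M (X s) (A s) l) - atom M (pEnd d M (X s) (A s) l)
  let core : ℕ →₀ ℝ := ∑ s ∈ range T, ∑ j ∈ range n, G s (L s j)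
  have hrest : ∀ s, s < T →
      σ.N (vOut d R M (X s) (A s) - ∑ j ∈ range n, G s (L s j)) ≤ 4 * T := by
    intro s hs
    classical
    have hinj : Set.InjOn (L s) (range n : Set ℕ) := fun a _ b _ h => by
      rcases lt_trichotomy a b with h' | h' | h'
      · exact absurd h (hL0 s hs a b h').ne
      · exact h'
      · exact absurd h.symm (hL0 s hs b a h').ne
    have hsub : (range n).image (L s) ⊆ range R := fun l hl => by
      obtain ⟨j, hj, rfl⟩ := Finset.mem_image.1 hl
      exact Finset.mem_range.2 (hL2 s hs j (by have := Finset.mem_range.1 hj; omega))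
    have e : vOut d R M (X s) (A s) - ∑ j ∈ range n, G s (L s j)
        = ∑ l ∈ range R \ (range n).image (L s), G s l := by
      rw [← Finset.sum_image hinj, vOut, sub_eq_iff_eq_add]
      exact (Finset.sum_sdiff hsub).symm
    rw [e]
    refine (σ.N_sum_le _ _).trans ((Finset.sum_le_sum fun l _ => σ.N_atom_sub_le _ _ _).trans ?_)
    rw [Finset.sum_const, nsmul_eq_mul, Finset.card_sdiff_of_subset hsub,
      Finset.card_image_of_injOn hinj, Finset.card_range, Finset.card_range]
    have : R - n = 2 * T := by omega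
    rw [this]
    push_cast
    linarith
  -- the core is a canonical vector
  let S' : ℕ → ℕ → ℕ := fun j i => pStart d M (X (i / M)) (A (i / M)) (L (i / M) j) (i % M)
  let E' : ℕ → ℕ → ℕ := fun j i =>
    pEnd d M (X (T - 1 - i / M)) (A (T - 1 - i / M)) (L (T - 1 - i / M) j) (i % M)
  have hdiv : ∀ i, i < T * M → i / M < T ∧ i % M < M := fun i hi =>
    ⟨Nat.div_lt_of_lt_mul (by rwa [Nat.mul_comm]), Nat.mod_lt _ hM⟩
  have hord : ∀ i i', i < i' → i / M < i' / M ∨ (i / M = i' / M ∧ i % M < i' % M) := fun i i' h => by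
    have e1 := Nat.div_add_mod i M; have e2 := Nat.div_add_mod i' M
    rcases (Nat.div_le_div_right (c := M) h.le).lt_or_eq with h' | h'
    · exact Or.inl h'
    · exact Or.inr ⟨h', by rw [h'] at e1; omega⟩
  have hjR : ∀ j, j < n → j + 2 * T < R := fun j hj => by omega
  have hSE : ∀ j, j < n → ∀ s s', s < T → s' < T → ∀ u u', u < M → u' < M →
      pStart d M (X s) (A s) (L s j) u < pEnd d M (X s') (A s') (L s' j) u' := by
    intro j hj s s' hs hs' u u' hu hu'
    have hse : ∀ r, r < T → ∀ v v', v < M → v' < M →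
        pStart d M (X r) (A r) (L r j) v < pEnd d M (X r) (A r) (L r j) v' := fun r hr v v' =>
      pStart_lt_pEnd (hstep r hr).mono_tail (hA r hr) (hL2 r hr j (hjR j hj))
    rcases lt_trichotomy s s' with h | rfl | h
    · exact lt_trans (hL3 s s' h hs' j (hjR j hj) u u hu hu).1 (hse s' hs' u u' hu hu')
    · exact hse s hs u u' hu hu'
    · exact lt_trans (hse s hs u u hu hu) (hL3 s' s h hs j (hjR j hj) u' u hu' hu).2
  have hcore : σ.N core = T * psi σ n (T * M) := by
    have e : core = (T : ℝ) • ∑ j ∈ range n, (atom (T * M) (S' j) - atom (T * M) (E' j)) := by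
      rw [Finset.smul_sum]
      simp only [core, G]
      rw [Finset.sum_comm]
      refine Finset.sum_congr rfl fun j _ => ?_
      rw [smul_sub, atom_mul T M (fun s u => pStart d M (X s) (A s) (L s j) u),
        atom_mul T M (fun r u => pEnd d M (X (T - 1 - r)) (A (T - 1 - r)) (L (T - 1 - r) j) u),
        Finset.sum_range_reflect (fun r => atom M (fun u => pEnd d M (X r) (A r) (L r j) u)) T,
        ← Finset.sum_sub_distrib]
    rw [e, σ.smul, Nat.abs_cast, psi_blocks]
    · intro j hj i i' h hi'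
      obtain ⟨a1, a2⟩ := hdiv i (h.trans hi')
      obtain ⟨b1, b2⟩ := hdiv i' hi'
      have := Nat.zero_le (i / M)
      have := Nat.zero_le (i' / M)
      rcases hord i i' h with h' | ⟨h', h''⟩
      · exact (hL3 _ _ h' b1 j (hjR j hj) _ _ a2 b2).1
      · simp only [S', h']
        exact pStart_mono (hstep _ b1).mono_tail (hA _ b1) (hL2 _ b1 j (hjR j hj)) h'' b2
    · intro j hj i i' h hi'
      obtain ⟨a1, a2⟩ := hdiv i (h.trans hi')
      obtain ⟨b1, b2⟩ := hdiv i' hi'
      have := Nat.zero_le (i / M)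
      have := Nat.zero_le (i' / M)
      rcases hord i i' h with h' | ⟨h', h''⟩
      · exact (hL3 _ _ (by omega) (by omega) j (hjR j hj) _ _ b2 a2).2
      · simp only [E', h']
        exact pEnd_mono (hstep _ (by omega)).mono_tail (hA _ (by omega))
          (hL2 _ (by omega) j (hjR j hj)) h'' b2
    · intro j hj i i' hi hi'
      have := Nat.zero_le (i' / M)
      exact hSE j hj _ _ (hdiv i hi).1 (by omega) _ _ (hdiv i hi).2 (hdiv i' hi').2
    · intro j j' hjj hj' i i' hi hi'
      obtain ⟨b1, b2⟩ := hdiv i' hi'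
      have := Nat.zero_le (i / M)
      have := Nat.zero_le (i' / M)
      -- every end of period `j` is below every start of period `j'`
      refine lt_of_le_of_lt (?_ : _ ≤ pEnd d M (X 0) (A 0) (L 0 j) (M - 1)) (lt_of_lt_of_le
        (pEnd_lt_pStart (hstep 0 (by omega)).mono_tail (hA 0 (by omega))
          (hL0 0 (by omega) j j' hjj) (hL2 0 (by omega) j' (hjR j' hj')) (by omega) hM)
        (?_ : pStart d M (X 0) (A 0) (L 0 j') 0 ≤ S' j' i'))
      · simp only [E']
        obtain ⟨a1, a2⟩ := hdiv i hi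
        rcases Nat.eq_zero_or_pos (T - 1 - i / M) with h0 | h0
        · rw [h0]
          rcases Nat.lt_or_ge (i % M) (M - 1) with h1 | h1
          · exact (pEnd_mono (hstep 0 (by omega)).mono_tail (hA 0 (by omega))
              (hL2 0 (by omega) j (hjR j (by omega))) h1 (by omega)).le
          · rw [show i % M = M - 1 by omega]
        · exact (hL3 0 _ h0 (by omega) j (hjR j (by omega)) (M - 1) _ (by omega) a2).2.le
      · simp only [S']
        rcases Nat.eq_zero_or_pos (i' / M) with h0 | h0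
        · rw [h0]
          rcases Nat.eq_zero_or_pos (i' % M) with h1 | h1
          · rw [h1]
          · exact (pStart_mono (hstep 0 (by omega)).mono_tail (hA 0 (by omega))
              (hL2 0 (by omega) j' (hjR j' hj')) h1 b2).le
        · exact (hL3 0 _ h0 b1 j' (hjR j' hj') 0 _ hM b2).1.le
  have hpsi : psiInf σ R - 4 * T ≤ psi σ n (T * M) := by
    have h1 := psiInf_le σ R (Nat.mul_pos (by omega : 0 < T) hM)
    have h2 := psi_le_add σ (T * M) (show n ≤ R by omega)
    have : (R : ℝ) - n = 2 * T := by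
      have : n + 2 * T = R := by omega
      rw [← this]; push_cast; ring
    rw [this] at h2
    linarith
  -- compare the path vector with twice the core
  have hdiff : σ.N ((2 : ℝ) • core - ∑ s ∈ range T, stepVec d R M (X s) (X (s + 1)) (A s) (B s))
      ≤ (T : ℝ) * (8 * T + 2) := by
    simp only [core]
    rw [Finset.smul_sum, ← Finset.sum_sub_distrib]
    refine (σ.N_sum_le _ _).trans ((Finset.sum_le_sum (g := fun _ => 8 * (T : ℝ) + 2)
      fun s hs => ?_).trans_eq (by rw [Finset.sum_const, Finset.card_range, nsmul_eq_mul]))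
    have hs := Finset.mem_range.1 hs
    obtain ⟨lo, hi, -, -, e⟩ := (hstep s hs).split
    rw [stepVec, e]
    rw [show (2 : ℝ) • ∑ j ∈ range n, G s (L s j)
        - ((2 : ℝ) • vOut d R M (X s) (A s) + atom M hi - atom M lo)
        = (atom M lo - atom M hi)
          - (2 : ℝ) • (vOut d R M (X s) (A s) - ∑ j ∈ range n, G s (L s j)) by
      rw [smul_sub]; abel]
    refine (σ.N_sub_le _ _).trans ?_
    rw [σ.smul, abs_two]
    linarith [σ.N_atom_sub_le M lo hi, hrest s hs]
  have h3 : σ.N ((2 : ℝ) • core) ≤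
      σ.N ((2 : ℝ) • core - ∑ s ∈ range T, stepVec d R M (X s) (X (s + 1)) (A s) (B s))
        + σ.N (∑ s ∈ range T, stepVec d R M (X s) (X (s + 1)) (A s) (B s)) :=
    le_of_eq_of_le (by rw [sub_add_cancel]) (σ.add_le _ _)
  rw [σ.smul, abs_two, hcore] at h3
  have hT' : (1 : ℝ) ≤ T := by exact_mod_cast hT
  nlinarith

end Path

end Vale.Agent.P125
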