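import Mathlib
import Vale.Agent.P125.Defs
import Vale.Agent.P125.Contractable
import Vale.Agent.P125.Path
import Vale.Agent.P125.Chain

/-!
P125: no spreading seminorm with bounded tail functionals has Markov type `p > 1`.
-/

namespace Vale.Agent.P125

open Finset

/-- The edge system of nested pulse configurations sampled from `X`. -/
noncomputable def pulseSystem (d R M : ℕ) (Ω : Type) [Fintype Ω] [Nonempty Ω] [NeZero d]
    (X : Ω → ℕ → ℕ) : EdgeSystem (ℕ →₀ ℝ) d :=
  { Key := Ω × Fin d × Fin d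
    keyDecEq := Classical.decEq _
    Vert := Fin (2 * d * R * M) → ℕ
    src := fun k => X k.1 ∘ idxX d R M k.2.1.val
    dst := fun k => X k.1 ∘ idxY d R M k.2.2.val
    srcPhase := fun k => k.2.1
    dstPhase := fun k => k.2.2
    vec := fun k => stepVec d R M (X k.1 ∘ idxX d R M k.2.1.val) (X k.1 ∘ idxY d R M k.2.2.val)
      k.2.1.val k.2.2.val }

section

variable {d R M : ℕ} {Ω : Type} [Fintype Ω] [Nonempty Ω] [NeZero d] {X : Ω → ℕ → ℕ}

theorem pulse_step (hd : 2 ≤ d) (hR : 1 ≤ R) (hM : 0 < M) (hX : ∀ ω, StrictMono (X ω))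
    (e : (pulseSystem d R M Ω X).Lab) :
    IsStep d R M ((pulseSystem d R M Ω X).tl e) ((pulseSystem d R M Ω X).hd e)
      ((pulseSystem d R M Ω X).oph e).val ((pulseSystem d R M Ω X).iph e).val ∧
    (pulseSystem d R M Ω X).dvec e = stepVec d R M ((pulseSystem d R M Ω X).tl e)
      ((pulseSystem d R M Ω X).hd e) ((pulseSystem d R M Ω X).oph e).val
      ((pulseSystem d R M Ω X).iph e).val := by
  obtain ⟨⟨ω, a, a'⟩, b⟩ := e
  have h := isStep_pair hd hR hM a.isLt a'.isLt (hX ω)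
  cases b
  · exact ⟨h.2, neg_sub _ _⟩
  · exact ⟨h.1, rfl⟩

theorem pulse_back {δ : ℝ} (hd : 2 ≤ d) (hM : 0 < M)
    (hlaw : ∀ I J : Fin (2 * d * R * M) → ℕ, StrictMono I → StrictMono J →
      (∀ i, I i < (R + 3) * period d * M) → (∀ i, J i < (R + 3) * period d * M) →
      ∀ g : (Fin (2 * d * R * M) → ℕ) → ℝ, (∀ z, g z ∈ Set.Icc (0 : ℝ) 1) →
        |avg (fun ω => g (X ω ∘ I)) - avg (fun ω => g (X ω ∘ J))| ≤ δ) :
    ∑ e, ((pulseSystem d R M Ω X).degPhase ((pulseSystem d R M Ω X).hd e)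
        ((pulseSystem d R M Ω X).iph e) : ℝ)
      / ((pulseSystem d R M Ω X).deg ((pulseSystem d R M Ω X).hd e) : ℝ)
      ≤ (1 / (d : ℝ) + δ) * Fintype.card (pulseSystem d R M Ω X).Lab := by
  classical
  let S := pulseSystem d R M Ω X
  let g : Fin d → (Fin (2 * d * R * M) → ℕ) → ℝ := fun a x =>
    (S.degPhase x a : ℝ) / (S.deg x : ℝ)
  have hg : ∀ a x, g a x ∈ Set.Icc (0 : ℝ) 1 := fun a x => by
    refine ⟨div_nonneg (Nat.cast_nonneg _) (Nat.cast_nonneg _),
      div_le_one_of_le₀ ?_ (Nat.cast_nonneg _)⟩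
    refine Nat.cast_le.2 (Finset.card_le_card fun e he => ?_)
    simp only [Finset.mem_filter, Finset.mem_univ, true_and] at he ⊢
    exact he.1
  have hsum : ∀ x, ∑ a, g a x ≤ 1 := fun x => by
    simp only [g, ← Finset.sum_div]
    refine div_le_one_of_le₀ ?_ (Nat.cast_nonneg _)
    refine le_of_eq ?_
    rw [← Nat.cast_sum, Nat.cast_inj]
    simp only [EdgeSystem.deg, EdgeSystem.degPhase]
    rw [Finset.card_eq_sum_card_fiberwise (f := S.oph) (t := Finset.univ)
      (fun e _ => Finset.mem_univ _)]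
    exact Finset.sum_congr rfl fun a _ => by rw [Finset.filter_filter]
  let I0 : Fin (2 * d * R * M) → ℕ := idxX d R M 0
  have hI0 : StrictMono I0 := idxX_strictMono hd hM
  have hbX : ∀ a : Fin d, avg (fun ω => g a (X ω ∘ idxX d R M a.val))
      ≤ avg (fun ω => g a (X ω ∘ I0)) + δ := fun a => by
    have := hlaw (idxX d R M a.val) I0 (idxX_strictMono hd hM) hI0
      (fun k => (idx_lt hd hM k).1) (fun k => (idx_lt hd hM k).1) (g a) (hg a)
    linarith [(abs_le.1 this).2]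
  have hbY : ∀ a : Fin d, avg (fun ω => g a (X ω ∘ idxY d R M a.val))
      ≤ avg (fun ω => g a (X ω ∘ I0)) + δ := fun a => by
    have := hlaw (idxY d R M a.val) I0 (idxY_strictMono hd hM) hI0
      (fun k => (idx_lt hd hM k).2) (fun k => (idx_lt hd hM k).1) (g a) (hg a)
    linarith [(abs_le.1 this).2]
  have h0 : ∑ a : Fin d, avg (fun ω => g a (X ω ∘ I0)) ≤ 1 := by
    have : ∑ a : Fin d, avg (fun ω => g a (X ω ∘ I0))
        = avg (fun ω => ∑ a : Fin d, g a (X ω ∘ I0)) := by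
      simp only [avg, ← Finset.sum_div]
      rw [Finset.sum_comm]
    rw [this]
    exact avg_le fun ω => hsum _
  -- expand the sum over directed edges
  have hexp : ∑ e : S.Lab, (S.degPhase (S.hd e) (S.iph e) : ℝ) / (S.deg (S.hd e) : ℝ)
      = (Fintype.card Ω : ℝ) * d * ((∑ a : Fin d, avg (fun ω => g a (X ω ∘ idxY d R M a.val)))
        + ∑ a : Fin d, avg (fun ω => g a (X ω ∘ idxX d R M a.val))) := by
    change ∑ e : (Ω × Fin d × Fin d) × Bool, g (S.iph e) (S.hd e) = _
    rw [Fintype.sum_prod_type]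
    simp only [Fintype.sum_bool, EdgeSystem.iph, EdgeSystem.hd, if_true, Bool.false_eq_true,
      if_false, Fintype.sum_prod_type, Finset.sum_add_distrib, avg, ← Finset.sum_div]
    have hΩ : (Fintype.card Ω : ℝ) ≠ 0 := by exact_mod_cast Fintype.card_ne_zero
    simp only [S, pulseSystem]
    have e1 : ∀ F : Fin d → Ω → ℝ, ∑ ω, ∑ _a : Fin d, ∑ y, F y ω = (d : ℝ) * ∑ i, ∑ ω, F i ω :=
      fun F => by
        simp only [Finset.sum_const, Finset.card_univ, Fintype.card_fin, nsmul_eq_mul,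
          ← Finset.mul_sum]
        rw [Finset.sum_comm]
    have e2 : ∀ F : Fin d → Ω → ℝ, ∑ ω, ∑ a, ∑ _y : Fin d, F a ω = (d : ℝ) * ∑ i, ∑ ω, F i ω :=
      fun F => by
        simp only [Finset.sum_const, Finset.card_univ, Fintype.card_fin, nsmul_eq_mul,
          ← Finset.mul_sum]
        rw [Finset.sum_comm]
    rw [e1 (fun y ω => g y (X ω ∘ idxY d R M y.val)), e2 (fun y ω => g y (X ω ∘ idxX d R M y.val))]
    field_simp
  change ∑ e : S.Lab, (S.degPhase (S.hd e) (S.iph e) : ℝ) / (S.deg (S.hd e) : ℝ) ≤ _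
  rw [hexp]
  have hd0 : (0 : ℝ) < d := by exact_mod_cast (show 0 < d by omega)
  have hc : (Fintype.card S.Lab : ℝ) = 2 * ((Fintype.card Ω : ℝ) * d * d) := by
    change (Fintype.card ((Ω × Fin d × Fin d) × Bool) : ℝ) = _
    simp only [Fintype.card_prod, Fintype.card_fin, Fintype.card_bool]
    push_cast; ring
  rw [show (Fintype.card (pulseSystem d R M Ω X).Lab : ℝ) = _ from hc]
  have hX' := Finset.sum_le_sum (s := (univ : Finset (Fin d))) (fun a _ => hbX a)
  have hY' := Finset.sum_le_sum (s := (univ : Finset (Fin d))) (fun a _ => hbY a)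
  simp only [Finset.sum_add_distrib, Finset.sum_const, Finset.card_univ, Fintype.card_fin,
    nsmul_eq_mul] at hX' hY'
  calc (Fintype.card Ω : ℝ) * d * ((∑ a : Fin d, avg (fun ω => g a (X ω ∘ idxY d R M a.val)))
        + ∑ a : Fin d, avg (fun ω => g a (X ω ∘ idxX d R M a.val)))
      ≤ (Fintype.card Ω : ℝ) * d * (2 + 2 * d * δ) :=
        mul_le_mul_of_nonneg_left (by linarith) (by positivity)
    _ = (1 / (d : ℝ) + δ) * (2 * ((Fintype.card Ω : ℝ) * d * d)) := by field_simp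

end

/-- The displacement over `T` steps is linear in `T`. -/
theorem exists_parameters (σ : SpreadNorm) :
    ∃ γ : ℝ, 0 < γ ∧ ∀ T : ℕ, 1 ≤ T → ∃ R M : ℕ, 2 * T < R ∧ 0 < M ∧
      ∀ (d : ℕ) (X : ℕ → Fin (2 * d * R * M) → ℕ) (A B : ℕ → ℕ), (∀ s, s < T → A s < d) →
        (∀ s, s < T → IsStep d R M (X s) (X (s + 1)) (A s) (B s)) →
        (∀ s, s + 1 < T → A (s + 1) ≠ B s) →
        γ * T * (2 * psi σ R M + 2)
          ≤ σ.N (∑ s ∈ range T, stepVec d R M (X s) (X (s + 1)) (A s) (B s)) := by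
  by_cases hb : ∃ C : ℝ, ∀ R, psiInf σ R ≤ C
  · obtain ⟨C, hC⟩ := hb
    have hC0 : 0 ≤ C := (Real.iInf_nonneg fun _ => σ.nonneg _).trans (hC 0)
    refine ⟨σ.θ / (2 * C + 4), div_pos σ.θ_pos (by linarith), fun T hT => ?_⟩
    obtain ⟨M, hM, hψ⟩ := exists_psi_near σ (2 * T + 1)
    refine ⟨2 * T + 1, M, by omega, hM, fun d X A B hA hs hn => ?_⟩
    refine le_trans ?_ (path_tail σ hT hM (by omega) hA hs hn)
    have h1 : 2 * psi σ (2 * T + 1) M + 2 ≤ 2 * C + 4 := by linarith [hC (2 * T + 1)]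
    calc σ.θ / (2 * C + 4) * (T : ℝ) * (2 * psi σ (2 * T + 1) M + 2)
        ≤ σ.θ / (2 * C + 4) * (T : ℝ) * (2 * C + 4) :=
          mul_le_mul_of_nonneg_left h1
            (mul_nonneg (div_nonneg σ.θ_pos.le (by linarith)) (Nat.cast_nonneg _))
      _ = σ.θ * T := by field_simp
  · simp only [not_exists, not_forall, not_le] at hb
    refine ⟨1 / 6, by norm_num, fun T hT => ?_⟩
    obtain ⟨R, hR⟩ := hb (18 * T)
    obtain ⟨M, hM, hψ⟩ := exists_psi_near σ R
    have hT' : (1 : ℝ) ≤ T := by exact_mod_cast hT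
    have hRT : 2 * T < R := by
      have h1 := (psiInf_le σ R Nat.one_pos).trans (psi_le σ R 1)
      have h2 : (2 * T : ℝ) < R := by linarith
      exact_mod_cast h2
    refine ⟨R, M, hRT, hM, fun d X A B hA hs hn => ?_⟩
    refine le_trans ?_ (path_core σ hT hM hRT hA hs hn)
    have h1 : 2 * psi σ R M + 2 ≤ 6 * psiInf σ R := by linarith
    nlinarith [mul_le_mul_of_nonneg_left h1 (by positivity : (0 : ℝ) ≤ 1 / 6 * T),
      mul_le_mul_of_nonneg_left hR.le (by linarith : (0 : ℝ) ≤ T)]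

/-- A spreading seminorm with bounded tail functionals has no Markov type `p > 1`. -/
theorem not_markovType_spread (σ : SpreadNorm) {p K : ℝ} (hp : 1 < p) (hK : 0 ≤ K) :
    ¬ HasMarkovTypeWith σ.N p K := by
  intro hMT
  obtain ⟨γ, hγ, hpar⟩ := exists_parameters σ
  -- choose the time
  obtain ⟨T, hT1, hTbig⟩ : ∃ T : ℕ, 1 ≤ T ∧ 2 * K ^ p * (T : ℝ) < (γ * T) ^ p := by
    have hgp : 0 < γ ^ p := Real.rpow_pos_of_pos hγ p
    obtain ⟨T, hT⟩ := exists_nat_gt ((max (2 * K ^ p / γ ^ p) 1) ^ (1 / (p - 1)))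
    have hm : (1 : ℝ) ≤ max (2 * K ^ p / γ ^ p) 1 := le_max_right _ _
    have h1 : (1 : ℝ) < T := lt_of_le_of_lt
      (Real.one_le_rpow hm (div_nonneg zero_le_one (by linarith))) hT
    have hT0 : (0 : ℝ) < T := by linarith
    refine ⟨T, by exact_mod_cast h1.le, ?_⟩
    have h2 : max (2 * K ^ p / γ ^ p) 1 < (T : ℝ) ^ (p - 1) := by
      have := Real.rpow_lt_rpow (Real.rpow_nonneg (by linarith) _) hT (show 0 < p - 1 by linarith)
      rwa [← Real.rpow_mul (by linarith), one_div, inv_mul_cancel₀ (by linarith), Real.rpow_one] at this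
    have h3 : 2 * K ^ p / γ ^ p < (T : ℝ) ^ (p - 1) := lt_of_le_of_lt (le_max_left _ _) h2
    rw [Real.mul_rpow hγ.le hT0.le]
    rw [div_lt_iff₀ hgp] at h3
    have h4 : (T : ℝ) ^ p = (T : ℝ) ^ (p - 1) * T := by
      rw [← Real.rpow_add_one hT0.ne', sub_add_cancel]
    rw [h4]
    nlinarith
  obtain ⟨R, M, hR, hM, hlow⟩ := hpar T hT1
  let d := 8 * T + 2
  have : NeZero d := ⟨by omega⟩
  have hT0 : (0 : ℝ) < T := by exact_mod_cast hT1
  obtain ⟨Ω, iF, iN, X, hX, hlaw⟩ :=
    exists_contractable (2 * d * R * M) ((R + 3) * period d * M) (1 / (8 * T)) (by positivity)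
  let S := pulseSystem d R M Ω X
  let H := 2 * psi σ R M + 2
  have hH : 0 < H := by
    have : 0 ≤ psi σ R M := σ.nonneg _
    simp only [H]; linarith
  have hd : 2 ≤ d := by omega
  have hR1 : 1 ≤ R := by omega
  have h := S.chain_bound σ.N σ.nonneg (p := p) (K := K) (H := H) (low := γ * T * H)
    (β := 1 / (d : ℝ) + 1 / (8 * T)) (by linarith) hMT hK hT1 (by positivity) (by positivity)
    (fun e => by
      rw [(pulse_step hd hR1 hM hX e).2]
      exact N_stepVec_le σ (pulse_step hd hR1 hM hX e).1 (S.oph e).isLt)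
    (by rw [σ.N_zero]; exact hH.le)
    (fun w hw => by
      let Xs : ℕ → Fin (2 * d * R * M) → ℕ := fun s => if s < T then S.tl (w s) else S.hd (w (s - 1))
      have hnext : ∀ s, s < T → Xs (s + 1) = S.hd (w s) := fun s hs => by
        by_cases h : s + 1 < T
        · exact (if_pos h).trans (hw s h).1
        · exact (if_neg h).trans (by rw [Nat.add_sub_cancel])
      have hcur : ∀ s, s < T → Xs s = S.tl (w s) := fun s hs => if_pos hs
      have := hlow d Xs (fun s => (S.oph (w s)).val) (fun s => (S.iph (w s)).val)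
        (fun s _ => (S.oph (w s)).isLt)
        (fun s hs => by rw [hcur s hs, hnext s hs]; exact (pulse_step hd hR1 hM hX (w s)).1)
        (fun s hs h => (hw s hs).2 (Fin.ext h))
      refine this.trans_eq ?_
      congr 1
      refine Finset.sum_congr rfl fun s hs => ?_
      have hs := Finset.mem_range.1 hs
      rw [hcur s hs, hnext s hs]
      exact ((pulse_step hd hR1 hM hX (w s)).2).symm)
    (pulse_back hd hM hlaw)
  have hβ : (T : ℝ) * (1 / (d : ℝ) + 1 / (8 * T)) ≤ 1 / 4 := by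
    have e1 : (T : ℝ) * (1 / (8 * T)) = 1 / 8 := by field_simp
    have e2 : (T : ℝ) * (1 / (d : ℝ)) ≤ 1 / 8 := by
      rw [mul_one_div, div_le_iff₀ (by exact_mod_cast (show 0 < d by omega))]
      simp only [d]; push_cast; linarith
    linarith [mul_add (T : ℝ) (1 / (d : ℝ)) (1 / (8 * T))]
  have hlp : 0 ≤ (γ * T * H) ^ p := Real.rpow_nonneg (by positivity) _
  have h2 : (γ * T * H) ^ p * (1 / 2) ≤ K ^ p * T * H ^ p :=
    le_trans (mul_le_mul_of_nonneg_left (by linarith) hlp) h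
  rw [Real.mul_rpow (by positivity) hH.le] at h2
  have hHp : 0 < H ^ p := Real.rpow_pos_of_pos hH p
  have h3 := mul_lt_mul_of_pos_right hTbig hHp
  nlinarith

end Vale.Agent.P125
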