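import Mathlib

/-!
P125: a bounded subset of a reflexive space cannot be bushy: it has a point which is not in the
closed convex hull of the points of the set that are far from it.
-/

namespace Vale.Agent.P125

open Set Filter Topology TopologicalSpace Metric

universe u

variable {Z : Type u} [NormedAddCommGroup Z] [NormedSpace ℝ Z]

/-- A countable part of a bushy set which is still bushy. -/
theorem exists_countable_bushy {A : Set Z} (hA : A.Nonempty) {r : ℝ}
    (h : ∀ a ∈ A, a ∈ closure (convexHull ℝ (A \ ball a r))) :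
    ∃ D : Set Z, D.Countable ∧ D.Nonempty ∧ D ⊆ A ∧
      ∀ a ∈ D, a ∈ closure (convexHull ℝ (D \ ball a r)) := by
  have step : ∀ a ∈ A, ∃ S : Set Z, S.Countable ∧ S ⊆ A \ ball a r ∧
      a ∈ closure (convexHull ℝ S) := by
    intro a ha
    have := Metric.mem_closure_iff.1 (h a ha)
    have hk : ∀ k : ℕ, ∃ t : Finset Z, (t : Set Z) ⊆ A \ ball a r ∧
        ∃ b ∈ convexHull ℝ (t : Set Z), dist a b < 1 / ((k : ℝ) + 1) := by
      intro k
      obtain ⟨b, hb, hd⟩ := this (1 / ((k : ℝ) + 1)) Nat.one_div_pos_of_nat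
      rw [convexHull_eq_union_convexHull_finite_subsets, mem_iUnion₂] at hb
      obtain ⟨t, ht, hbt⟩ := hb
      exact ⟨t, ht, b, hbt, hd⟩
    choose t ht b hb hd using hk
    refine ⟨⋃ k, (t k : Set Z), countable_iUnion fun k => (t k).countable_toSet,
      iUnion_subset ht, Metric.mem_closure_iff.2 fun ε hε => ?_⟩
    obtain ⟨k, hk⟩ := exists_nat_one_div_lt hε
    exact ⟨b k, convexHull_mono (subset_iUnion (fun k => (t k : Set Z)) k) (hb k),
      (hd k).trans hk⟩
  choose! S hS1 hS2 hS3 using step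
  obtain ⟨a₀, ha₀⟩ := hA
  let D : ℕ → Set Z := fun n => Nat.rec {a₀} (fun _ s => ⋃ a ∈ s, S a) n
  have hD : ∀ n, (D n).Countable ∧ D n ⊆ A := by
    intro n
    induction n with
    | zero => exact ⟨countable_singleton _, singleton_subset_iff.2 ha₀⟩
    | succ n ih =>
      exact ⟨ih.1.biUnion fun a ha => hS1 a (ih.2 ha),
        iUnion₂_subset fun a ha => (hS2 a (ih.2 ha)).trans sdiff_subset⟩
  refine ⟨⋃ n, D n, countable_iUnion fun n => (hD n).1, ⟨a₀, mem_iUnion.2 ⟨0, rfl⟩⟩,
    iUnion_subset fun n => (hD n).2, fun a ha => ?_⟩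
  obtain ⟨n, hn⟩ := mem_iUnion.1 ha
  refine closure_mono (convexHull_mono ?_) (hS3 a ((hD n).2 hn))
  intro y hy
  exact ⟨mem_iUnion.2 ⟨n + 1, mem_biUnion hn hy⟩, (hS2 a ((hD n).2 hn) hy).2⟩

/-- The smallest compact convex set containing two given ones. -/
theorem exists_compact_convex_join {W : Type*} [AddCommGroup W] [Module ℝ W] [TopologicalSpace W]
    [IsTopologicalAddGroup W] [ContinuousSMul ℝ W] {A B : Set W}
    (hA : IsCompact A) (hAc : Convex ℝ A) (hB : IsCompact B) (hBc : Convex ℝ B) :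
    ∃ C : Set W, IsCompact C ∧ Convex ℝ C ∧ A ⊆ C ∧ B ⊆ C ∧
      ∀ x ∈ C, x ∈ A ∨ x ∈ B ∨ ∃ a ∈ A, ∃ b ∈ B, x ∈ segment ℝ a b := by
  rcases A.eq_empty_or_nonempty with rfl | hAn
  · exact ⟨B, hB, hBc, empty_subset _, Subset.rfl, fun x hx => Or.inr (Or.inl hx)⟩
  rcases B.eq_empty_or_nonempty with rfl | hBn
  · exact ⟨A, hA, hAc, Subset.rfl, empty_subset _, fun x hx => Or.inl hx⟩
  refine ⟨convexJoin ℝ A B, ?_, hAc.convexJoin hBc, subset_convexJoin_left hBn,
    subset_convexJoin_right hAn, fun x hx => Or.inr (Or.inr (mem_convexJoin.1 hx))⟩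
  have hc : Continuous fun q : ℝ × W × W => (1 - q.1) • q.2.1 + q.1 • q.2.2 := by fun_prop
  have himg : convexJoin ℝ A B =
      (fun q : ℝ × W × W => (1 - q.1) • q.2.1 + q.1 • q.2.2) '' (Icc (0 : ℝ) 1 ×ˢ A ×ˢ B) := by
    ext x
    simp only [mem_convexJoin, segment_eq_image, mem_image, Prod.exists, mem_prod]
    constructor
    · rintro ⟨a, ha, b, hb, t, ht, rfl⟩
      exact ⟨t, a, b, ⟨ht, ha, hb⟩, rfl⟩
    · rintro ⟨t, a, b, ⟨ht, ha, hb⟩, rfl⟩
      exact ⟨a, ha, b, hb, t, ht, rfl⟩
  rw [himg]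
  exact (isCompact_Icc.prod (hA.prod hB)).image hc

/-- An extreme point `e` of a compact convex `K` and a compact `S` not containing it are
separated by a compact convex subset of `K`. -/
theorem exists_compact_convex_notMem_extreme {W : Type*} [AddCommGroup W] [Module ℝ W]
    [TopologicalSpace W] [IsTopologicalAddGroup W] [ContinuousSMul ℝ W] [T2Space W]
    [LocallyConvexSpace ℝ W] {K S : Set W} (hK : IsCompact K) (hKc : Convex ℝ K)
    (hS : IsCompact S) (hSK : S ⊆ K) {e : W} (he : e ∈ K.extremePoints ℝ) (heS : e ∉ S) :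
    ∃ C : Set W, IsCompact C ∧ Convex ℝ C ∧ C ⊆ K ∧ S ⊆ C ∧ e ∉ C := by
  classical
  have hs : ∀ s ∈ S, ∃ l : W →L[ℝ] ℝ, l e < l s := fun s hs =>
    geometric_hahn_banach_point_point fun heq => heS (heq ▸ hs)
  choose! l hl using hs
  obtain ⟨T, hTS, hT⟩ := hS.elim_nhds_subcover (fun s => {x | (l s e + l s s) / 2 < l s x})
    fun s hs => (isOpen_lt continuous_const (l s).continuous).mem_nhds
      (show (l s e + l s s) / 2 < l s s by linarith [hl s hs])
  suffices ∀ F : Finset W, (∀ s ∈ F, s ∈ S) → ∃ C : Set W, IsCompact C ∧ Convex ℝ C ∧ C ⊆ K ∧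
      (∀ s ∈ F, K ∩ {x | (l s e + l s s) / 2 ≤ l s x} ⊆ C) ∧ e ∉ C by
    obtain ⟨C, h1, h2, h3, h4, h5⟩ := this T hTS
    refine ⟨C, h1, h2, h3, fun x hx => ?_, h5⟩
    obtain ⟨s, hsT, hxs⟩ := mem_iUnion₂.1 (hT hx)
    exact h4 s hsT ⟨hSK hx, (show (l s e + l s s) / 2 < l s x from hxs).le⟩
  intro F
  induction F using Finset.induction_on with
  | empty =>
    intro _
    exact ⟨∅, isCompact_empty, convex_empty, empty_subset _, by simp, id⟩
  | @insert a F _ ih =>
    intro hF
    obtain ⟨C, h1, h2, h3, h4, h5⟩ := ih fun s hs => hF s (Finset.mem_insert_of_mem hs)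
    have haS : a ∈ S := hF a (Finset.mem_insert_self _ _)
    obtain ⟨C', g1, g2, g3, g4, g5⟩ := exists_compact_convex_join
      (A := K ∩ {x | (l a e + l a a) / 2 ≤ l a x})
      (hK.inter_right (isClosed_le continuous_const (l a).continuous))
      (hKc.inter (convex_halfSpace_ge (l a).toLinearMap.isLinear _)) h1 h2
    refine ⟨C', g1, g2, fun x hx => ?_, fun s hs => ?_, fun hx => ?_⟩
    · rcases g5 x hx with h | h | ⟨p, hp, q, hq, h⟩
      · exact h.1
      · exact h3 h
      · exact hKc.segment_subset hp.1 (h3 hq) h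
    · rcases Finset.mem_insert.1 hs with rfl | hs
      · exact g3
      · exact (h4 s hs).trans g4
    · have hea : ¬ (l a e + l a a) / 2 ≤ l a e := by linarith [hl a haS]
      rcases g5 e hx with h | h | ⟨p, hp, q, hq, h⟩
      · exact hea h.2
      · exact h5 h
      · rcases mem_extremePoints_iff_forall_segment.1 he |>.2 p hp.1 q (h3 hq) h with rfl | rfl
        · exact hea hp.2
        · exact h5 hq

/-- No bounded nonempty bushy set in a reflexive space. -/
theorem not_bushy (hrefl : Function.Surjective (NormedSpace.inclusionInDoubleDual ℝ Z))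
    {A : Set Z} (hA : A.Nonempty) {R r : ℝ} (hr : 0 < r) (hR : ∀ a ∈ A, ‖a‖ ≤ R) :
    ∃ a ∈ A, a ∉ closure (convexHull ℝ (A \ ball a r)) := by
  by_contra hcon
  push Not at hcon
  obtain ⟨D, hDc, hDn, hDA, hD⟩ := exists_countable_bushy hA hcon
  have : LocallyConvexSpace ℝ (WeakSpace ℝ Z) :=
    (topDualPairing ℝ Z).flip.weakBilin_withSeminorms.toLocallyConvexSpace
  set e := toWeakSpace ℝ Z with he
  set K := closure (convexHull ℝ D) with hK
  have hKb : K ⊆ closedBall 0 R :=
    closure_minimal (convexHull_min (fun a ha => by simpa using hR a (hDA ha))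
      (convex_closedBall _ _)) isClosed_closedBall
  have hKconv : Convex ℝ K := (convex_convexHull ℝ D).closure
  have himg : e '' K = closure (e '' convexHull ℝ D) :=
    (convex_convexHull ℝ D).toWeakSpace_closure ℝ
  have hKw : IsCompact (e '' K) := by
    rw [himg]
    refine NormedSpace.isCompact_closure_of_isBounded ℝ Z _ ?_ ?_
    · rw [show (toWeakSpace ℝ Z) ⁻¹' (e '' convexHull ℝ D) = convexHull ℝ D from
        preimage_image_eq _ e.injective]
      exact (isBounded_closedBall).subset (subset_closure.trans hKb)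
    · intro Φ _
      obtain ⟨z, hz⟩ := hrefl (WeakDual.toStrongDual Φ)
      refine ⟨e z, DFunLike.ext _ _ fun f => ?_⟩
      exact congrArg (fun G : (Z →L[ℝ] ℝ) →L[ℝ] ℝ => G f) hz
  have hKwc : Convex ℝ (e '' K) := hKconv.linear_image e.toLinearMap
  -- countably many small balls
  have hsep : IsSeparable K := by
    refine ((hDc.isSeparable.span (R := ℝ)).mono ?_).closure
    exact convexHull_min Submodule.subset_span (Submodule.span ℝ D).convex
  obtain ⟨c, hcc, hKc⟩ := hsep
  have : Countable c := hcc.to_subtype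
  have hKne : K.Nonempty := hDn.mono ((subset_convexHull ℝ D).trans subset_closure)
  have hext : ((e '' K).extremePoints ℝ).Nonempty := hKw.extremePoints_nonempty (hKne.image e)
  set T := closure ((e '' K).extremePoints ℝ) with hT
  have hTK : T ⊆ e '' K := closure_minimal extremePoints_subset hKw.isClosed
  have hTc : IsCompact T := hKw.of_isClosed_subset isClosed_closure hTK
  have hball : ∀ (x : Z) (ρ : ℝ), IsClosed (e '' closedBall x ρ) := fun x ρ => by
    have h := (convex_closedBall x ρ).toWeakSpace_closure ℝ (E := Z)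
    rw [isClosed_closedBall.closure_eq] at h
    rw [h]
    exact isClosed_closure
  have : CompactSpace T := isCompact_iff_compactSpace.1 hTc
  have : Nonempty T := (hext.mono subset_closure).to_subtype
  have hcover : ⋃ i : c, ((↑) : T → WeakSpace ℝ Z) ⁻¹' (e '' closedBall (i : Z) (r / 8))
      = univ := by
    refine eq_univ_of_forall fun x => mem_iUnion.2 ?_
    obtain ⟨z, hz, hzx⟩ := hTK x.2
    obtain ⟨i, hi, hd⟩ := Metric.mem_closure_iff.1 (hKc hz) (r / 8) (by linarith)
    exact ⟨⟨i, hi⟩, z, hd.le, hzx⟩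
  obtain ⟨i, hi⟩ := nonempty_interior_of_iUnion_of_closed
    (fun i : c => (hball (i : Z) (r / 8)).preimage continuous_subtype_val) hcover
  obtain ⟨U, hU, hUi⟩ := isOpen_induced_iff.1 (isOpen_interior
    (s := ((↑) : T → WeakSpace ℝ Z) ⁻¹' (e '' closedBall (i : Z) (r / 8))))
  obtain ⟨x₀, hx₀⟩ := hi
  rw [← hUi] at hx₀
  obtain ⟨p, hpU, hp⟩ := _root_.mem_closure_iff.1 x₀.2 U hU hx₀
  have hTU : T ∩ U ⊆ e '' closedBall (i : Z) (r / 8) := by
    rintro x ⟨hxT, hxU⟩
    have : (⟨x, hxT⟩ : T) ∈ interior (((↑) : T → WeakSpace ℝ Z) ⁻¹'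
        (e '' closedBall (i : Z) (r / 8))) := by
      rw [← hUi]; exact hxU
    exact interior_subset (s := ((↑) : T → WeakSpace ℝ Z) ⁻¹'
      (e '' closedBall (i : Z) (r / 8))) this
  obtain ⟨K₂, hK₂, hK₂c, hK₂K, hK₂S, hpK₂⟩ := exists_compact_convex_notMem_extreme hKw hKwc
    (hTc.diff hU) (sdiff_subset.trans hTK) hp (fun h => h.2 hpU)
  obtain ⟨C, hC, hCc, hC1, hC2, hC3⟩ := exists_compact_convex_join
    (A := e '' K ∩ e '' closedBall (i : Z) (r / 8)) (hKw.inter_right (hball _ _))
    (hKwc.inter ((convex_closedBall _ _).linear_image e.toLinearMap)) hK₂ hK₂c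
  have hKC : e '' K ⊆ C := by
    rw [← closure_convexHull_extremePoints hKw hKwc]
    refine closure_minimal (convexHull_min (fun x hx => ?_) hCc) hC.isClosed
    by_cases hxU : x ∈ U
    · exact hC1 ⟨extremePoints_subset hx, hTU ⟨subset_closure hx, hxU⟩⟩
    · exact hC2 (hK₂S ⟨subset_closure hx, hxU⟩)
  obtain ⟨φ, u, hu, hup⟩ := geometric_hahn_banach_closed_point hK₂c hK₂.isClosed hpK₂
  obtain ⟨m, hm, hmax⟩ := hKw.exists_isMaxOn (hKne.image e) φ.continuous.continuousOn
  have hum : u < φ m := lt_of_lt_of_le hup (hmax (extremePoints_subset hp))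
  set ψ : Z →L[ℝ] ℝ := φ.comp (toWeakSpaceCLM ℝ Z) with hψ
  have hψe : ∀ z, ψ z = φ (e z) := fun z => rfl
  have hR0 : 0 ≤ R := by
    obtain ⟨a, ha⟩ := hDn
    exact (norm_nonneg a).trans (hR a (hDA ha))
  set τ : ℝ := (φ m - u) * min 1 (r / 8 / (2 * R + 1)) with hτ
  have hτ0 : 0 < τ := by
    have : 0 < φ m - u := by linarith
    positivity
  -- the slice is small
  have hslice : ∀ z ∈ K, φ m - τ < ψ z → dist z i ≤ r / 4 := by
    intro z hz hzv
    rw [hψe] at hzv
    rcases hC3 (e z) (hKC (mem_image_of_mem e hz)) with h | h | ⟨a, ha, b, hb, hab⟩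
    · obtain ⟨-, z', hz', hzz⟩ := h
      obtain rfl := e.injective hzz
      linarith [mem_closedBall.1 hz']
    · have h1 := hu _ h
      have h2 : τ ≤ φ m - u :=
        mul_le_of_le_one_right (by linarith) (min_le_left _ _)
      linarith
    · obtain ⟨⟨za, hza, rfl⟩, za', hza', hzz⟩ := ha
      obtain rfl := e.injective hzz
      obtain ⟨zb, hzb, rfl⟩ := hK₂K hb
      obtain ⟨s, t, hs, ht, hst, hsum⟩ := hab
      rw [← map_smul, ← map_smul, ← map_add] at hsum
      obtain rfl := e.injective hsum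
      have h1 := hu _ hb
      have h2 : φ (e za') ≤ φ m := hmax (mem_image_of_mem e hza)
      simp only [map_add, map_smul, smul_eq_mul] at hzv
      obtain rfl : s = 1 - t := by linarith
      have h3 : (1 - t) * φ (e za') ≤ (1 - t) * φ m := mul_le_mul_of_nonneg_left h2 hs
      have h4 : t * φ (e zb) ≤ t * u := mul_le_mul_of_nonneg_left h1.le ht
      have h5 : t * (φ m - u) < τ := by nlinarith
      have h6 : t < r / 8 / (2 * R + 1) := by
        rw [hτ, mul_comm (φ m - u)] at h5
        exact (lt_of_mul_lt_mul_right h5 (by linarith)).trans_le (min_le_right _ _)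
      have h7 : ‖za' - zb‖ ≤ 2 * R + 1 := by
        have ha := hKb hza
        have hb := hKb hzb
        rw [mem_closedBall_zero_iff] at ha hb
        linarith [norm_sub_le za' zb]
      have h8 : dist ((1 - t) • za' + t • zb) za' ≤ r / 8 := by
        rw [dist_eq_norm, show (1 - t) • za' + t • zb - za' = t • (zb - za') by module,
          norm_smul, Real.norm_eq_abs, abs_of_nonneg ht, norm_sub_rev]
        calc t * ‖za' - zb‖ ≤ (r / 8 / (2 * R + 1)) * (2 * R + 1) := by
              gcongr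
          _ = r / 8 := by field_simp
      linarith [dist_triangle ((1 - t) • za' + t • zb) za' i, mem_closedBall.1 hza']
  -- the slice meets `D`
  obtain ⟨w, hwD, hw⟩ : ∃ w ∈ D, φ m - τ < ψ w := by
    by_contra hn
    push Not at hn
    obtain ⟨z, hz, rfl⟩ := hm
    have : K ⊆ {x | ψ x ≤ φ (e z) - τ} := closure_minimal
      (convexHull_min hn (convex_halfSpace_le ψ.toLinearMap.isLinear _))
      (isClosed_le ψ.continuous continuous_const)
    have h := this hz
    rw [mem_ofPred_eq, hψe] at h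
    linarith
  have hfar : D \ ball w r ⊆ {x | ψ x ≤ φ m - τ} := by
    rintro x ⟨hxD, hxw⟩
    by_contra hx
    rw [mem_ofPred_eq, not_le] at hx
    have hDK : D ⊆ K := (subset_convexHull ℝ D).trans subset_closure
    have h1 := hslice x (hDK hxD) hx
    have h2 := hslice w (hDK hwD) hw
    rw [mem_ball, not_lt] at hxw
    linarith [dist_triangle_right x w (i : Z)]
  have : closure (convexHull ℝ (D \ ball w r)) ⊆ {x | ψ x ≤ φ m - τ} := closure_minimal
    (convexHull_min hfar (convex_halfSpace_le ψ.toLinearMap.isLinear _))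
    (isClosed_le ψ.continuous continuous_const)
  exact absurd (this (hD w hwD)) (not_le.2 hw)

end Vale.Agent.P125
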