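import Vale.Agent.P125.Defs
import Vale.Agent.P125.Dentable

/-!
P125, module C: a reflexive model gives an equivalent uniformly convex norm, and an equivalent
uniformly convex norm on the dual gives an equivalent uniformly smooth norm.
-/

namespace Vale.Agent.P125

open Set Filter Topology Metric

universe u

variable {E : Type u} [NormedAddCommGroup E] [NormedSpace ℝ E]

/-- A concave symmetric score measuring how deep separated midpoint trees can be rooted at `x`. -/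
noncomputable def qdepth (ε : ℝ) : ℕ → E → ℝ
  | 0 => fun _ => 1
  | n + 1 => fun x => sSup {v : ℝ | ∃ (k : ℕ) (w : Fin k → ℝ) (y z : Fin k → E),
      (∀ i, 0 ≤ w i) ∧ ∑ i, w i = 1 ∧ (∀ i, ‖y i‖ ≤ 2) ∧ (∀ i, ‖z i‖ ≤ 2) ∧
      ∑ i, w i • ((1 / 2 : ℝ) • (y i + z i)) = x ∧
      v = ∑ i, w i *
        (if ε ≤ ‖y i - z i‖ then (qdepth ε n (y i) + qdepth ε n (z i)) / 2 else 0)}

/-- The set of values in the definition of `qdepth (n + 1)`. -/
def qset (ε : ℝ) (f : E → ℝ) (x : E) : Set ℝ :=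
  {v : ℝ | ∃ (k : ℕ) (w : Fin k → ℝ) (y z : Fin k → E),
      (∀ i, 0 ≤ w i) ∧ ∑ i, w i = 1 ∧ (∀ i, ‖y i‖ ≤ 2) ∧ (∀ i, ‖z i‖ ≤ 2) ∧
      ∑ i, w i • ((1 / 2 : ℝ) • (y i + z i)) = x ∧
      v = ∑ i, w i * (if ε ≤ ‖y i - z i‖ then (f (y i) + f (z i)) / 2 else 0)}

theorem qdepth_succ (ε : ℝ) (n : ℕ) (x : E) :
    qdepth ε (n + 1) x = sSup (qset ε (qdepth ε n) x) := rfl

theorem qdepth_bounds (ε : ℝ) : ∀ (n : ℕ) (x : E),
    0 ≤ qdepth ε n x ∧ qdepth ε n x ≤ 1 := by
  intro n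
  induction n with
  | zero => intro x; simp [qdepth]
  | succ n ih =>
    intro x
    have hterm : ∀ y z : E,
        0 ≤ (if ε ≤ ‖y - z‖ then (qdepth ε n y + qdepth ε n z) / 2 else 0) ∧
        (if ε ≤ ‖y - z‖ then (qdepth ε n y + qdepth ε n z) / 2 else 0) ≤ 1 := by
      intro y z
      have := ih y; have := ih z
      split_ifs <;> constructor <;> linarith
    rw [qdepth_succ]
    constructor
    · apply Real.sSup_nonneg
      rintro v ⟨k, w, y, z, hw, hw1, -, -, -, rfl⟩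
      exact Finset.sum_nonneg fun i _ => mul_nonneg (hw i) (hterm _ _).1
    · refine Real.sSup_le ?_ zero_le_one
      rintro v ⟨k, w, y, z, hw, hw1, -, -, -, rfl⟩
      calc _ ≤ ∑ i, w i * 1 :=
            Finset.sum_le_sum fun i _ => mul_le_mul_of_nonneg_left (hterm _ _).2 (hw i)
        _ = 1 := by simp [hw1]

theorem qset_bddAbove (ε : ℝ) (n : ℕ) (x : E) : BddAbove (qset ε (qdepth ε n) x) := by
  refine ⟨1, ?_⟩
  rintro v ⟨k, w, y, z, hw, hw1, -, -, -, rfl⟩
  calc _ ≤ ∑ i, w i * 1 := Finset.sum_le_sum fun i _ => by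
        refine mul_le_mul_of_nonneg_left ?_ (hw i)
        have := qdepth_bounds ε n (y i); have := qdepth_bounds ε n (z i)
        split_ifs <;> linarith
    _ = 1 := by simp [hw1]

theorem qset_nonempty (ε : ℝ) (f : E → ℝ) {x : E} (hx : ‖x‖ ≤ 2) : (qset ε f x).Nonempty :=
  ⟨_, 1, fun _ => 1, fun _ => x, fun _ => x, fun _ => zero_le_one, by simp, fun _ => hx,
    fun _ => hx, by simp; module, rfl⟩

theorem qdepth_mid {ε : ℝ} (n : ℕ) {y z : E} (hy : ‖y‖ ≤ 2) (hz : ‖z‖ ≤ 2)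
    (h : ε ≤ ‖y - z‖) :
    (qdepth ε n y + qdepth ε n z) / 2 ≤ qdepth ε (n + 1) ((1 / 2 : ℝ) • (y + z)) := by
  rw [qdepth_succ]
  refine le_csSup (qset_bddAbove ε n _) ⟨1, fun _ => 1, fun _ => y, fun _ => z,
    fun _ => zero_le_one, by simp, fun _ => hy, fun _ => hz, by simp, by simp [h]⟩

theorem qdepth_neg (ε : ℝ) : ∀ (n : ℕ) (x : E), qdepth ε n (-x) = qdepth ε n x := by
  intro n
  induction n with
  | zero => intro x; rfl
  | succ n ih =>
    have key : ∀ x : E, qset ε (qdepth ε n) x ⊆ qset ε (qdepth ε n) (-x) := by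
      rintro x v ⟨k, w, y, z, hw, hw1, hy, hz, hsum, rfl⟩
      refine ⟨k, w, fun i => -y i, fun i => -z i, hw, hw1, by simpa using hy, by simpa using hz,
        ?_, ?_⟩
      · rw [← hsum, ← Finset.sum_neg_distrib]
        refine Finset.sum_congr rfl fun i _ => ?_
        module
      · refine Finset.sum_congr rfl fun i _ => ?_
        simp only [ih, neg_sub_neg, norm_sub_rev (z i) (y i)]
    intro x
    rw [qdepth_succ, qdepth_succ]
    exact congrArg sSup ((le_antisymm (by simpa using key (-x)) (key x)))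

theorem qdepth_antitone_step (ε : ℝ) : ∀ (n : ℕ) (x : E), ‖x‖ ≤ 2 →
    qdepth ε (n + 1) x ≤ qdepth ε n x := by
  intro n
  induction n with
  | zero => intro x _; exact (qdepth_bounds ε 1 x).2
  | succ n ih =>
    intro x hx
    rw [qdepth_succ, qdepth_succ]
    refine csSup_le (qset_nonempty ε _ hx) ?_
    rintro v ⟨k, w, y, z, hw, hw1, hy, hz, hsum, rfl⟩
    refine le_csSup_of_le (qset_bddAbove ε n x) ⟨k, w, y, z, hw, hw1, hy, hz, hsum, rfl⟩ ?_
    refine Finset.sum_le_sum fun i _ => mul_le_mul_of_nonneg_left ?_ (hw i)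
    have := ih (y i) (hy i); have := ih (z i) (hz i)
    split_ifs <;> linarith

theorem qdepth_antitone (ε : ℝ) {x : E} (hx : ‖x‖ ≤ 2) :
    Antitone fun n => qdepth ε n x :=
  antitone_nat_of_succ_le fun n => qdepth_antitone_step ε n x hx

theorem qdepth_concave (ε : ℝ) (n : ℕ) :
    ConcaveOn ℝ (closedBall (0 : E) 2) (qdepth ε n) := by
  refine ⟨convex_closedBall _ _, fun x hx y hy a b ha hb hab => ?_⟩
  cases n with
  | zero => simp [qdepth, hab]
  | succ n =>
    rw [mem_closedBall_zero_iff] at hx hy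
    rw [smul_eq_mul, smul_eq_mul]
    refine le_of_forall_pos_le_add fun η hη => ?_
    obtain ⟨v₁, ⟨k₁, w₁, y₁, z₁, hw₁, hs₁, hy₁, hz₁, hx₁, rfl⟩, hv₁⟩ :=
      exists_lt_of_lt_csSup (qset_nonempty ε (qdepth ε n) hx)
        (show qdepth ε (n + 1) x - η < sSup (qset ε (qdepth ε n) x) by
          rw [← qdepth_succ]; linarith)
    obtain ⟨v₂, ⟨k₂, w₂, y₂, z₂, hw₂, hs₂, hy₂, hz₂, hx₂, rfl⟩, hv₂⟩ :=
      exists_lt_of_lt_csSup (qset_nonempty ε (qdepth ε n) hy)
        (show qdepth ε (n + 1) y - η < sSup (qset ε (qdepth ε n) y) by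
          rw [← qdepth_succ]; linarith)
    have hmem : a * (∑ i, w₁ i * (if ε ≤ ‖y₁ i - z₁ i‖ then
          (qdepth ε n (y₁ i) + qdepth ε n (z₁ i)) / 2 else 0)) +
        b * (∑ i, w₂ i * (if ε ≤ ‖y₂ i - z₂ i‖ then
          (qdepth ε n (y₂ i) + qdepth ε n (z₂ i)) / 2 else 0))
        ∈ qset ε (qdepth ε n) (a • x + b • y) := by
      refine ⟨k₁ + k₂, Fin.append (fun i => a * w₁ i) (fun i => b * w₂ i), Fin.append y₁ y₂,
        Fin.append z₁ z₂, ?_, ?_, ?_, ?_, ?_, ?_⟩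
      · refine Fin.addCases (fun i => ?_) (fun i => ?_) <;> simp
        · exact mul_nonneg ha (hw₁ i)
        · exact mul_nonneg hb (hw₂ i)
      · simp [Fin.sum_univ_add, ← Finset.mul_sum, hs₁, hs₂, hab]
      · refine Fin.addCases (fun i => ?_) (fun i => ?_) <;> simp [hy₁, hy₂]
      · refine Fin.addCases (fun i => ?_) (fun i => ?_) <;> simp [hz₁, hz₂]
      · simp only [Fin.sum_univ_add, Fin.append_left, Fin.append_right, mul_smul,
          ← Finset.smul_sum, hx₁, hx₂]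
      · simp only [Fin.sum_univ_add, Fin.append_left, Fin.append_right, mul_assoc,
          ← Finset.mul_sum]
    have h := le_csSup (qset_bddAbove ε n _) hmem
    rw [← qdepth_succ] at h
    have h1 := mul_le_mul_of_nonneg_left hv₁.le ha
    have h2 := mul_le_mul_of_nonneg_left hv₂.le hb
    nlinarith

theorem ulim_mem_Icc {f : ℕ → ℝ} {a b : ℝ} (h : ∀ n, f n ∈ Icc a b) :
    ulim f ∈ Icc a b :=
  isClosed_Icc.mem_of_tendsto (tendsto_ulim h) (Eventually.of_forall h)

theorem IsBddSeq.tendsto_apply {x : ℕ → E} (hx : IsBddSeq x) {φ : ℕ → E →L[ℝ] ℝ} {C : ℝ}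
    (hφ : ∀ n, ‖φ n‖ ≤ C) :
    Tendsto (fun n => φ n (x n)) (U0 : Filter ℕ) (𝓝 (ulim fun n => φ n (x n))) := by
  obtain ⟨R, hR⟩ := hx
  refine tendsto_ulim (a := -(C * R)) (b := C * R) fun n => ?_
  rw [mem_Icc, ← abs_le]
  calc |φ n (x n)| ≤ ‖φ n‖ * ‖x n‖ := (φ n).le_opNorm _
    _ ≤ C * R := mul_le_mul (hφ n) (hR n) (norm_nonneg _) ((norm_nonneg _).trans (hφ n))

/-- In the presence of a reflexive model some `qdepth` is uniformly below one. -/
theorem exists_qdepth_lt (M : ReflModel E) {ε : ℝ} (hε : 0 < ε) :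
    ∃ n, ∃ θ < 1, ∀ x : E, ‖x‖ ≤ 2 → qdepth ε n x ≤ θ := by
  by_contra hcon
  push Not at hcon
  have hsel : ∀ m : ℕ, ∃ x : E, ‖x‖ ≤ 2 ∧ 1 - 1 / ((m : ℝ) + 1) < qdepth ε m x := fun m =>
    hcon m _ (by have : 0 < 1 / ((m : ℝ) + 1) := Nat.one_div_pos_of_nat; linarith)
  choose x₀ hx₀ hx₀q using hsel
  set C : Set (ℕ → E) := {x | (∀ m, ‖x m‖ ≤ 2) ∧
    ∀ n, Tendsto (fun m => qdepth ε n (x m)) (U0 : Filter ℕ) (𝓝 1)} with hC
  have hU : (U0 : Filter ℕ) ≤ atTop := Nat.hyperfilter_le_atTop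
  have hone : Tendsto (fun m : ℕ => 1 / ((m : ℝ) + 1)) (U0 : Filter ℕ) (𝓝 0) :=
    tendsto_one_div_add_atTop_nhds_zero_nat.mono_left hU
  have hx₀C : x₀ ∈ C := by
    refine ⟨hx₀, fun n => tendsto_of_tendsto_of_tendsto_of_le_of_le'
      (g := fun m : ℕ => 1 - 1 / ((m : ℝ) + 1)) (h := fun _ => (1 : ℝ))
      (by simpa using hone.const_sub 1) tendsto_const_nhds ?_
      (Eventually.of_forall fun m => (qdepth_bounds ε n _).2)⟩
    filter_upwards [hU (eventually_ge_atTop n)] with m hm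
    exact (hx₀q m).le.trans (qdepth_antitone ε (hx₀ m) hm)
  have hA : ∀ a ∈ M.ι '' C, ‖a‖ ≤ 2 := by
    rintro _ ⟨x, hx, rfl⟩
    exact le_of_tendsto (M.norm_ι x ⟨2, hx.1⟩) (Eventually.of_forall hx.1)
  obtain ⟨_, ⟨x, hx, rfl⟩, hnot⟩ :=
    not_bushy M.refl ⟨_, mem_image_of_mem M.ι hx₀C⟩ (r := ε / 4) (by linarith) hA
  obtain ⟨Φ, u, hu, hΦ⟩ :=
    geometric_hahn_banach_closed_point (convex_convexHull ℝ _).closure isClosed_closure hnot
  set η : ℝ := (Φ (M.ι x) - u) / 8 with hηdef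
  have hη : 0 < η := by linarith
  obtain ⟨φ, ⟨Cφ, hCφ⟩, hφ⟩ := M.coord Φ η hη
  have hC0 : 0 ≤ Cφ := (norm_nonneg _).trans (hCφ 0)
  -- the depth available at the `m`th coordinate
  classical
  set N : ℕ → ℕ := fun m =>
    Nat.findGreatest (fun n => 1 - 1 / ((n : ℝ) + 1) ≤ qdepth ε n (x m)) m with hN
  have hNspec : ∀ m, 1 - 1 / ((N m : ℝ) + 1) ≤ qdepth ε (N m) (x m) := fun m =>
    Nat.findGreatest_spec (P := fun n => 1 - 1 / ((n : ℝ) + 1) ≤ qdepth ε n (x m))
      (Nat.zero_le m) (by simp [qdepth])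
  have hNtop : Tendsto N (U0 : Filter ℕ) atTop := by
    refine tendsto_atTop.2 fun n => ?_
    have hp : (0 : ℝ) < 1 / ((n : ℝ) + 1) := Nat.one_div_pos_of_nat
    filter_upwards [hU (eventually_ge_atTop n),
      (hx.2 n).eventually (eventually_gt_nhds (show 1 - 1 / ((n : ℝ) + 1) < 1 by linarith))]
      with m hm hq
    exact Nat.le_findGreatest hm hq.le
  set δ : ℕ → ℝ := fun m => Real.sqrt (1 / ((N m : ℝ) + 1)) with hδ
  have hδ0 : Tendsto δ (U0 : Filter ℕ) (𝓝 0) := by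
    have h1 : Tendsto (fun m => 1 / ((N m : ℝ) + 1)) (U0 : Filter ℕ) (𝓝 0) :=
      tendsto_one_div_add_atTop_nhds_zero_nat.comp hNtop
    have h2 := (Real.continuous_sqrt.tendsto 0).comp h1
    rw [Real.sqrt_zero] at h2
    exact h2
  have hδpos : ∀ m, 0 < δ m := fun m => Real.sqrt_pos.2 Nat.one_div_pos_of_nat
  -- the chosen pair
  have hpair : ∀ m, ∃ p : E × E, ‖p.1‖ ≤ 2 ∧ ‖p.2‖ ≤ 2 ∧
      φ m (x m) - 2 * δ m ≤ φ m ((1 / 2 : ℝ) • (p.1 + p.2)) ∧
      φ m ((1 / 2 : ℝ) • (p.1 + p.2)) ≤ φ m p.1 ∧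
      (1 ≤ N m → 2 * δ m * δ m + (4 * Cφ + 2 * δ m) * δ m < 1 / 2 →
        ε ≤ ‖p.1 - p.2‖ ∧
        1 - 2 * (2 * δ m * δ m + (4 * Cφ + 2 * δ m) * δ m) ≤ qdepth ε (N m - 1) p.1 ∧
        1 - 2 * (2 * δ m * δ m + (4 * Cφ + 2 * δ m) * δ m) ≤ qdepth ε (N m - 1) p.2) := by
    intro m
    by_cases hN1 : 1 ≤ N m
    swap
    · have hmm : (1 / 2 : ℝ) • (x m + x m) = x m := by module
      refine ⟨(x m, x m), hx.1 m, hx.1 m, ?_, ?_, fun h => absurd h hN1⟩
      · simp only [hmm]; linarith [hδpos m]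
      · simp only [hmm]; exact le_rfl
    obtain ⟨n, hn⟩ : ∃ n, N m = n + 1 := ⟨N m - 1, by omega⟩
    have hd : δ m * δ m = 1 / ((N m : ℝ) + 1) := Real.mul_self_sqrt Nat.one_div_pos_of_nat.le
    have hq : 1 - 2 * (δ m * δ m) < sSup (qset ε (qdepth ε n) (x m)) := by
      rw [← qdepth_succ, ← hn]
      have := hNspec m
      have := mul_pos (hδpos m) (hδpos m)
      linarith
    obtain ⟨v, ⟨k, w, y, z, hw, hw1, hy, hz, hsum, rfl⟩, hv⟩ :=
      exists_lt_of_lt_csSup (qset_nonempty ε (qdepth ε n) (hx.1 m)) hq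
    set g : Fin k → ℝ :=
      fun i => if ε ≤ ‖y i - z i‖ then (qdepth ε n (y i) + qdepth ε n (z i)) / 2 else 0 with hg
    have hg1 : ∀ i, g i ≤ 1 := fun i => by
      have := qdepth_bounds ε n (y i); have := qdepth_bounds ε n (z i)
      simp only [hg]; split_ifs <;> linarith
    set f : Fin k → ℝ := fun i => φ m ((1 / 2 : ℝ) • (y i + z i)) with hf
    have hfx : ∑ i, w i * f i = φ m (x m) := by
      rw [← hsum, map_sum]
      exact Finset.sum_congr rfl fun i _ => by simp [hf, mul_add]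
    obtain ⟨i, hi⟩ : ∃ i, φ m (x m) + (1 / δ m) * (1 - 2 * (δ m * δ m)) ≤
        f i + (1 / δ m) * g i := by
      by_contra hno
      push Not at hno
      have hk : (Finset.univ : Finset (Fin k)).Nonempty := by
        rw [Finset.univ_nonempty_iff]
        rcases Nat.eq_zero_or_pos k with rfl | hk
        · simp at hw1
        · exact ⟨⟨0, hk⟩⟩
      obtain ⟨j, -, hj⟩ : ∃ j ∈ (Finset.univ : Finset (Fin k)), 0 < w j := by
        by_contra hz0
        push Not at hz0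
        linarith [Finset.sum_nonpos hz0]
      have hlt : ∑ i, w i * (f i + (1 / δ m) * g i) <
          ∑ i, w i * (φ m (x m) + (1 / δ m) * (1 - 2 * (δ m * δ m))) :=
        Finset.sum_lt_sum (fun i _ => mul_le_mul_of_nonneg_left (hno i).le (hw i))
          ⟨j, Finset.mem_univ j, mul_lt_mul_of_pos_left (hno j) hj⟩
      simp only [mul_add, Finset.sum_add_distrib, hfx, ← Finset.sum_mul, hw1, one_mul,
        mul_left_comm _ (1 / δ m), ← Finset.mul_sum] at hlt
      have := mul_le_mul_of_nonneg_left hv.le (one_div_pos.2 (hδpos m)).le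
      linarith
    have hfi : f i ≤ φ m (x m) + 4 * Cφ := by
      have h1 : |f i| ≤ Cφ * 2 := by
        refine ((φ m).le_opNorm _).trans ?_
        refine mul_le_mul (hCφ m) ?_ (norm_nonneg _) hC0
        rw [norm_smul]
        norm_num
        linarith [norm_add_le (y i) (z i), hy i, hz i]
      have h2 : |φ m (x m)| ≤ Cφ * 2 :=
        ((φ m).le_opNorm _).trans (mul_le_mul (hCφ m) (hx.1 m) (norm_nonneg _) hC0)
      linarith [(abs_le.1 h1).2, (abs_le.1 h2).1]
    have hdp := hδpos m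
    have hcancel : (1 / δ m) * (δ m * δ m) = δ m := by field_simp
    have hf_lo : φ m (x m) - 2 * δ m ≤ f i := by
      have := mul_le_mul_of_nonneg_left (hg1 i) (one_div_pos.2 hdp).le
      nlinarith
    have hg_lo : 1 - (2 * δ m * δ m + (4 * Cφ + 2 * δ m) * δ m) ≤ g i := by
      have h1 : (1 / δ m) * (1 - g i) ≤ 4 * Cφ + 2 * δ m := by nlinarith
      have h2 := mul_le_mul_of_nonneg_left h1 hdp.le
      rw [← mul_assoc, mul_one_div_cancel hdp.ne', one_mul] at h2
      nlinarith [mul_self_nonneg (δ m)]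
    -- order the pair so that the first one is better for `φ m`
    have hsplit : f i = (φ m (y i) + φ m (z i)) / 2 := by
      simp [hf]; ring
    rcases le_total (φ m (z i)) (φ m (y i)) with hyz | hyz
    · refine ⟨(y i, z i), hy i, hz i, hf_lo, by simp only; rw [show
        φ m ((1 / 2 : ℝ) • (y i + z i)) = f i from rfl, hsplit]; linarith, fun _ hsmall => ?_⟩
      simp only [hg] at hg_lo
      split_ifs at hg_lo with hsep
      · have := (qdepth_bounds ε n (y i)).2; have := (qdepth_bounds ε n (z i)).2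
        rw [show N m - 1 = n by omega]
        exact ⟨hsep, by linarith, by linarith⟩
      · linarith
    · refine ⟨(z i, y i), hz i, hy i, by simpa [hf, add_comm] using hf_lo, by
        simp only; rw [add_comm, show φ m ((1 / 2 : ℝ) • (y i + z i)) = f i from rfl, hsplit]
        linarith, fun _ hsmall => ?_⟩
      simp only [hg] at hg_lo
      split_ifs at hg_lo with hsep
      · have := (qdepth_bounds ε n (y i)).2; have := (qdepth_bounds ε n (z i)).2
        rw [show N m - 1 = n by omega]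
        exact ⟨by rwa [norm_sub_rev], by linarith, by linarith⟩
      · linarith
  choose p hp1 hp2 hplo hphi hpq using hpair
  have herr : Tendsto (fun m => 2 * δ m * δ m + (4 * Cφ + 2 * δ m) * δ m)
      (U0 : Filter ℕ) (𝓝 0) := by
    simpa using ((hδ0.const_mul 2).mul hδ0).add (((hδ0.const_mul 2).const_add (4 * Cφ)).mul hδ0)
  have hgood : ∀ᶠ m in (U0 : Filter ℕ), ε ≤ ‖(p m).1 - (p m).2‖ ∧
      1 - 2 * (2 * δ m * δ m + (4 * Cφ + 2 * δ m) * δ m) ≤ qdepth ε (N m - 1) (p m).1 ∧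
      1 - 2 * (2 * δ m * δ m + (4 * Cφ + 2 * δ m) * δ m) ≤ qdepth ε (N m - 1) (p m).2 := by
    filter_upwards [hNtop.eventually_ge_atTop 1,
      herr.eventually (eventually_lt_nhds (show (0 : ℝ) < 1 / 2 by norm_num))] with m h1 h2
    exact hpq m h1 h2
  have hsq : ∀ (v : ℕ → E), (∀ m, ‖v m‖ ≤ 2) →
      (∀ᶠ m in (U0 : Filter ℕ),
        1 - 2 * (2 * δ m * δ m + (4 * Cφ + 2 * δ m) * δ m) ≤ qdepth ε (N m - 1) (v m)) →
      v ∈ C := by
    intro v hv hev
    refine ⟨hv, fun n => tendsto_of_tendsto_of_tendsto_of_le_of_le'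
      (by simpa using (herr.const_mul 2).const_sub 1) tendsto_const_nhds ?_
      (Eventually.of_forall fun m => (qdepth_bounds ε n _).2)⟩
    filter_upwards [hev, hNtop.eventually_ge_atTop (n + 1)] with m h1 h2
    exact h1.trans (qdepth_antitone ε (hv m) (by omega))
  set y : ℕ → E := fun m => (p m).1 with hy
  set w : ℕ → E := fun m => (1 / 2 : ℝ) • ((p m).1 + (p m).2) with hw
  have hyC : y ∈ C := hsq y hp1 (hgood.mono fun m h => h.2.1)
  have hwn : ∀ m, ‖w m‖ ≤ 2 := fun m => by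
    simp only [hw, norm_smul]; norm_num
    linarith [norm_add_le (p m).1 (p m).2, hp1 m, hp2 m]
  have hwC : w ∈ C := by
    refine hsq w hwn (hgood.mono fun m h => ?_)
    have hc := (qdepth_concave ε (N m - 1)).2 (mem_closedBall_zero_iff.2 (hp1 m))
      (mem_closedBall_zero_iff.2 (hp2 m)) (show (0 : ℝ) ≤ 1 / 2 by norm_num) (show (0 : ℝ) ≤ 1 / 2 by norm_num)
      (by norm_num)
    rw [smul_eq_mul, smul_eq_mul, ← smul_add] at hc
    simp only [hw]
    linarith [h.2.1, h.2.2]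
  have hyb : IsBddSeq y := ⟨2, hp1⟩
  have hwb : IsBddSeq w := ⟨2, hwn⟩
  have hdist : ε / 2 ≤ ‖M.ι y - M.ι w‖ := by
    have hs : M.ι (y - w) = M.ι y - M.ι w := by
      have hb : IsBddSeq (y - w) := ⟨2 + 2, fun m =>
        (norm_sub_le _ _).trans (add_le_add (hp1 m) (hwn m))⟩
      have := M.ι_add (y - w) w hb hwb
      rw [sub_add_cancel] at this
      rw [this, add_sub_cancel_right]
    rw [← hs]
    refine ge_of_tendsto (M.norm_ι (y - w) ⟨2 + 2, fun m =>
        (norm_sub_le _ _).trans (add_le_add (hp1 m) (hwn m))⟩) (hgood.mono fun m h => ?_)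
    rw [Pi.sub_apply, show y m - w m = (1 / 2 : ℝ) • ((p m).1 - (p m).2) by
      simp only [hy, hw]; module, norm_smul]
    norm_num
    linarith [h.1]
  have hval : ∀ v ∈ C, (∀ m, φ m (x m) - 2 * δ m ≤ φ m (v m)) →
      Φ (M.ι x) - 4 * η ≤ Φ (M.ι v) := by
    intro v hv hle
    have hxb : IsBddSeq x := ⟨2, hx.1⟩
    have hvb : IsBddSeq v := ⟨2, hv.1⟩
    have h1 : ulim (fun m => φ m (x m)) ≤ ulim (fun m => φ m (v m)) := by
      have h := le_of_tendsto_of_tendsto' ((hxb.tendsto_apply hCφ).sub (hδ0.const_mul 2))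
        (hvb.tendsto_apply hCφ) hle
      linarith
    have h2 := abs_le.1 (hφ x hxb)
    have h3 := abs_le.1 (hφ v hvb)
    have h4 := mul_le_mul_of_nonneg_left (hA _ (mem_image_of_mem M.ι hx)) hη.le
    have h5 := mul_le_mul_of_nonneg_left (hA _ (mem_image_of_mem M.ι hv)) hη.le
    linarith [h2.1, h2.2, h3.1, h3.2]
  have hyv := hval y hyC fun m => (hplo m).trans (hphi m)
  have hwv := hval w hwC hplo
  have hnear : ∀ v ∈ C, Φ (M.ι x) - 4 * η ≤ Φ (M.ι v) → dist (M.ι v) (M.ι x) < ε / 4 := by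
    intro v hv hle
    by_contra hfar
    have hmem : M.ι v ∈ closure (convexHull ℝ (M.ι '' C \ ball (M.ι x) (ε / 4))) :=
      subset_closure (subset_convexHull ℝ _ ⟨mem_image_of_mem M.ι hv, by simpa using hfar⟩)
    have := hu _ hmem
    linarith
  have h1 := hnear y hyC hyv
  have h2 := hnear w hwC hwv
  have := dist_triangle_right (M.ι y) (M.ι w) (M.ι x)
  rw [dist_eq_norm (M.ι y) (M.ι w)] at this
  linarith

/-- A bounded concave even function with a definite midpoint gain on separated pairs. -/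
theorem exists_gain (M : ReflModel E) {ε : ℝ} (hε : 0 < ε) :
    ∃ g : E → ℝ, (∀ x, 0 ≤ g x ∧ g x ≤ 1) ∧ (∀ x, g (-x) = g x) ∧
      ConcaveOn ℝ (closedBall (0 : E) 2) g ∧
      ∃ γ : ℝ, 0 < γ ∧ ∀ y z, ‖y‖ ≤ 2 → ‖z‖ ≤ 2 → ε ≤ ‖y - z‖ →
        (g y + g z) / 2 + γ ≤ g ((1 / 2 : ℝ) • (y + z)) := by
  obtain ⟨n, θ, hθ, hn⟩ := exists_qdepth_lt M hε
  set c : ℝ := 1 / ((n : ℝ) + 1) with hc
  have hc0 : 0 < c := Nat.one_div_pos_of_nat
  refine ⟨fun x => c * ∑ k ∈ Finset.range n, qdepth ε (k + 1) x, fun x => ⟨?_, ?_⟩, fun x => ?_,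
    ?_, c * (1 - θ), mul_pos hc0 (by linarith), fun y z hy hz hyz => ?_⟩
  · exact mul_nonneg hc0.le (Finset.sum_nonneg fun k _ => (qdepth_bounds ε _ _).1)
  · calc c * ∑ k ∈ Finset.range n, qdepth ε (k + 1) x ≤ c * ((n : ℝ) + 1) := by
          refine mul_le_mul_of_nonneg_left ?_ hc0.le
          calc _ ≤ ∑ _k ∈ Finset.range n, (1 : ℝ) :=
                Finset.sum_le_sum fun k _ => (qdepth_bounds ε _ _).2
            _ ≤ _ := by simp
      _ = 1 := by rw [hc]; field_simp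
  · simp only [qdepth_neg]
  · refine ⟨convex_closedBall _ _, fun x hx y hy a b ha hb hab => ?_⟩
    simp only [smul_eq_mul, Finset.mul_sum, ← Finset.sum_add_distrib]
    refine Finset.sum_le_sum fun k _ => ?_
    have h := (qdepth_concave ε (k + 1)).2 hx hy ha hb hab
    rw [smul_eq_mul, smul_eq_mul] at h
    nlinarith [mul_le_mul_of_nonneg_left h hc0.le]
  · have hsum : ∑ k ∈ Finset.range n, (qdepth ε k y + qdepth ε k z) / 2 ≤
        ∑ k ∈ Finset.range n, qdepth ε (k + 1) ((1 / 2 : ℝ) • (y + z)) :=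
      Finset.sum_le_sum fun k _ => qdepth_mid k hy hz hyz
    have htel : ∀ v : E, ∑ k ∈ Finset.range n, qdepth ε k v =
        (∑ k ∈ Finset.range n, qdepth ε (k + 1) v) + (1 - qdepth ε n v) := by
      intro v
      have h1 := Finset.sum_range_succ (fun k => qdepth ε k v) n
      have h2 := Finset.sum_range_succ' (fun k => qdepth ε k v) n
      have h3 : qdepth ε 0 v = 1 := rfl
      linarith
    rw [← Finset.sum_div, Finset.sum_add_distrib, htel, htel] at hsum
    have := hn y hy; have := hn z hz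
    nlinarith [mul_le_mul_of_nonneg_left hsum hc0.le]

/-- A reflexive model gives a bounded convex even energy, uniformly convex on a ball. -/
theorem exists_energy (M : ReflModel E) :
    ∃ F : E → ℝ, (∀ x, ‖x‖ * ‖x‖ ≤ F x ∧ F x ≤ ‖x‖ * ‖x‖ + 1 / 8) ∧ (∀ x, F (-x) = F x) ∧
      ConvexOn ℝ (closedBall (0 : E) 2) F ∧
      ∀ ε : ℝ, 0 < ε → ∃ κ : ℝ, 0 < κ ∧ ∀ x y, ‖x‖ ≤ 2 → ‖y‖ ≤ 2 → ε ≤ ‖x - y‖ →
        F ((1 / 2 : ℝ) • (x + y)) ≤ (F x + F y) / 2 - κ := by
  choose g hg01 hgeven hgconc γ hγ hgain using fun j : ℕ =>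
    exists_gain M (ε := 1 / ((j : ℝ) + 1)) Nat.one_div_pos_of_nat
  set T : ℕ → E → ℝ := fun j x => (1 / 16) * ((1 / 2 : ℝ) ^ j * (1 - g j x)) with hT
  have hT0 : ∀ j x, 0 ≤ T j x := fun j x => by
    have h : 0 ≤ 1 - g j x := by linarith [(hg01 j x).2]
    simp only [hT]
    positivity
  have hT1 : ∀ j x, T j x ≤ (1 / 16) * (1 / 2 : ℝ) ^ j := fun j x => by
    simp only [hT]
    have h := mul_le_of_le_one_right (show 0 ≤ (1 / 2 : ℝ) ^ j by positivity)
      (show 1 - g j x ≤ 1 by linarith [(hg01 j x).1])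
    linarith
  have hgeo : Summable fun j : ℕ => (1 / 16 : ℝ) * (1 / 2 : ℝ) ^ j :=
    summable_geometric_two.mul_left _
  have hsumm : ∀ x, Summable fun j => T j x := fun x =>
    Summable.of_nonneg_of_le (fun j => hT0 j x) (fun j => hT1 j x) hgeo
  have hT8 : ∀ x, ∑' j, T j x ≤ 1 / 8 := fun x => by
    refine ((hsumm x).tsum_le_tsum (fun j => hT1 j x) hgeo).trans (le_of_eq ?_)
    rw [tsum_mul_left, tsum_geometric_two]
    norm_num
  have hTconv : ∀ j x y, ‖x‖ ≤ 2 → ‖y‖ ≤ 2 → ∀ a b : ℝ, 0 ≤ a → 0 ≤ b → a + b = 1 →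
      T j (a • x + b • y) ≤ a * T j x + b * T j y := by
    intro j x y hx hy a b ha hb hab
    have h := (hgconc j).2 (mem_closedBall_zero_iff.2 hx) (mem_closedBall_zero_iff.2 hy) ha hb hab
    rw [smul_eq_mul, smul_eq_mul] at h
    have h' := mul_le_mul_of_nonneg_left h (show (0 : ℝ) ≤ (1 / 2) ^ j by positivity)
    simp only [hT]
    obtain rfl : a = 1 - b := by linarith
    linarith
  refine ⟨fun x => ‖x‖ * ‖x‖ + ∑' j, T j x, fun x => ⟨le_add_of_nonneg_right
      (tsum_nonneg fun j => hT0 j x), add_le_add le_rfl (hT8 x)⟩,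
    fun x => by simp only [norm_neg, hT, hgeven], ⟨convex_closedBall _ _, ?_⟩, ?_⟩
  · intro x hx y hy a b ha hb hab
    rw [mem_closedBall_zero_iff] at hx hy
    have h1 : ‖a • x + b • y‖ ≤ a * ‖x‖ + b * ‖y‖ := by
      refine (norm_add_le _ _).trans (le_of_eq ?_)
      simp [norm_smul, abs_of_nonneg ha, abs_of_nonneg hb]
    have h2 : ‖a • x + b • y‖ * ‖a • x + b • y‖ ≤ a * (‖x‖ * ‖x‖) + b * (‖y‖ * ‖y‖) := by
      have := mul_le_mul h1 h1 (norm_nonneg _) ((norm_nonneg _).trans h1)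
      obtain rfl : a = 1 - b := by linarith
      linarith [mul_nonneg (mul_nonneg ha hb) (mul_self_nonneg (‖x‖ - ‖y‖))]
    have h3 : ∑' j, T j (a • x + b • y) ≤ a * (∑' j, T j x) + b * (∑' j, T j y) := by
      rw [← tsum_mul_left, ← tsum_mul_left,
        ← ((hsumm x).mul_left a).tsum_add ((hsumm y).mul_left b)]
      exact (hsumm _).tsum_le_tsum (fun j => hTconv j x y hx hy a b ha hb hab)
        (((hsumm x).mul_left a).add ((hsumm y).mul_left b))
    rw [smul_eq_mul, smul_eq_mul]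
    linarith
  intro ε hε
  obtain ⟨j, hj⟩ := exists_nat_one_div_lt hε
  refine ⟨(1 / 16) * ((1 / 2 : ℝ) ^ j * γ j), by have := hγ j; positivity,
    fun x y hx hy hxy => ?_⟩
  set κ : ℝ := (1 / 16) * ((1 / 2 : ℝ) ^ j * γ j) with hκ
  have h2 : ‖(1 / 2 : ℝ) • (x + y)‖ * ‖(1 / 2 : ℝ) • (x + y)‖ ≤
      (‖x‖ * ‖x‖ + ‖y‖ * ‖y‖) / 2 := by
    have h1 : ‖(1 / 2 : ℝ) • (x + y)‖ ≤ (‖x‖ + ‖y‖) / 2 := by
      rw [norm_smul]; norm_num
      linarith [norm_add_le x y]
    have := mul_le_mul h1 h1 (norm_nonneg _) ((norm_nonneg _).trans h1)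
    linarith [mul_self_nonneg (‖x‖ - ‖y‖)]
  have h3 : ∑' i, T i ((1 / 2 : ℝ) • (x + y)) + κ ≤ ((∑' i, T i x) + ∑' i, T i y) / 2 := by
    have hone : Summable fun i : ℕ => if i = j then κ else 0 :=
      summable_of_ne_finset_zero (s := {j}) fun i hi => if_neg (by simpa using hi)
    have hadd := (hsumm ((1 / 2 : ℝ) • (x + y))).tsum_add hone
    rw [tsum_ite_eq] at hadd
    rw [← (hsumm x).tsum_add (hsumm y), ← tsum_div_const, ← hadd]
    refine ((hsumm _).add hone).tsum_le_tsum (fun i => ?_)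
      (((hsumm x).add (hsumm y)).div_const 2)
    split_ifs with hi
    · subst hi
      have h' := mul_le_mul_of_nonneg_left (hgain i x y hx hy (hj.le.trans hxy))
        (show (0 : ℝ) ≤ (1 / 2) ^ i by positivity)
      simp only [hT, hκ]
      linarith
    · have h := hTconv i x y hx hy (1 / 2) (1 / 2) (by norm_num) (by norm_num) (by norm_num)
      rw [← smul_add] at h
      linarith
  linarith

/-- The gauge of a sublevel set of a uniformly convex energy is a uniformly convex norm. -/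
theorem exists_ucNorm_of_energy {F : E → ℝ}
    (hF : ∀ x, ‖x‖ * ‖x‖ ≤ F x ∧ F x ≤ ‖x‖ * ‖x‖ + 1 / 8) (heven : ∀ x, F (-x) = F x)
    (hconv : ConvexOn ℝ (closedBall (0 : E) 2) F)
    (hgain : ∀ ε : ℝ, 0 < ε → ∃ κ : ℝ, 0 < κ ∧ ∀ x y, ‖x‖ ≤ 2 → ‖y‖ ≤ 2 → ε ≤ ‖x - y‖ →
        F ((1 / 2 : ℝ) • (x + y)) ≤ (F x + F y) / 2 - κ) :
    ∃ n : Seminorm ℝ E, IsEquivNorm n ∧ IsUCNorm n := by
  set S : Set E := {x ∈ closedBall (0 : E) 2 | F x ≤ 1} with hS
  have hS1 : ∀ x ∈ S, ‖x‖ ≤ 1 := fun x hx => by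
    have h := (hF x).1.trans hx.2
    nlinarith [norm_nonneg x]
  have hSconv : Convex ℝ S := hconv.convex_le 1
  have hSneg : ∀ ⦃x⦄, x ∈ S → -x ∈ S := fun x hx => by
    simpa [hS, heven] using hx
  have hball : closedBall (0 : E) (1 / 2) ⊆ S := fun x hx => by
    rw [mem_closedBall_zero_iff] at hx
    refine ⟨mem_closedBall_zero_iff.2 (by linarith), (hF x).2.trans ?_⟩
    nlinarith [norm_nonneg x]
  have habs : Absorbent ℝ S :=
    absorbent_nhds_zero (mem_of_superset (closedBall_mem_nhds 0 (by norm_num)) hball)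
  have hS0 : (0 : E) ∈ S := hball (mem_closedBall_self (by norm_num))
  set n := gaugeSeminorm ((balanced_iff_neg_mem hSconv).2 hSneg) hSconv habs with hn
  have hlo : ∀ x, ‖x‖ ≤ n x := fun x => by
    have h := le_gauge_of_subset_closedBall habs zero_le_one
      (fun y hy => mem_closedBall_zero_iff.2 (hS1 y hy)) (x := x)
    change ‖x‖ ≤ gauge S x
    simpa using h
  have hup : ∀ x, n x ≤ 2 * ‖x‖ := fun x => by
    have h := mul_gauge_le_norm (ball_subset_closedBall.trans hball) (x := x)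
    change gauge S x ≤ _
    linarith
  refine ⟨n, ⟨1, 2, one_pos, two_pos, fun x => ⟨by simpa using hlo x, hup x⟩⟩,
    fun ε hε hε2 => ?_⟩
  obtain ⟨κ, hκ0, hκ⟩ := hgain (ε / 4) (by linarith)
  obtain ⟨c, hc0, hc5, hc1⟩ : ∃ c : ℝ, 0 < c ∧ c ≤ κ / 5 ∧ c ≤ 1 / 2 :=
    ⟨min (κ / 5) (1 / 2), lt_min (by linarith) (by norm_num), min_le_left _ _, min_le_right _ _⟩
  refine ⟨1 - 1 / (1 + c), ?_, fun x y hx hy hxy => ?_⟩
  · rw [sub_pos, div_lt_one (by linarith)]
    linarith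
  have hkey : ∀ t : ℝ, 1 / 2 ≤ t → t < 1 → (1 + c) * t * n ((1 / 2 : ℝ) • (x + y)) ≤ 1 := by
    intro t ht ht1
    have hmemS : ∀ v, n v ≤ 1 → t • v ∈ S := fun v hv => by
      refine setOfPred_gauge_lt_one_subset_self hSconv hS0 habs ?_
      change n (t • v) < 1
      rw [map_smul_eq_mul, Real.norm_eq_abs, abs_of_nonneg (by linarith)]
      have := mul_le_of_le_one_right (show 0 ≤ t by linarith) hv
      linarith
    have hx' := hmemS x hx
    have hy' := hmemS y hy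
    have hsep : ε / 4 ≤ ‖t • x - t • y‖ := by
      rw [← smul_sub, norm_smul, Real.norm_eq_abs, abs_of_nonneg (by linarith)]
      have h := hup (x - y)
      have := mul_le_mul_of_nonneg_right ht (norm_nonneg (x - y))
      linarith
    have hmid := hκ _ _ (mem_closedBall_zero_iff.1 hx'.1) (mem_closedBall_zero_iff.1 hy'.1) hsep
    set m := (1 / 2 : ℝ) • (t • x + t • y) with hm
    have hm1 : ‖m‖ ≤ 1 := by
      rw [hm, norm_smul]; norm_num
      linarith [norm_add_le (t • x) (t • y), hS1 _ hx', hS1 _ hy']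
    have h2m : ‖(2 : ℝ) • m‖ ≤ 2 := by rw [norm_smul]; norm_num; linarith
    have hmem : (1 + c) • m ∈ S := by
      have heq : (1 + c) • m = (1 - c) • m + c • ((2 : ℝ) • m) := by module
      refine ⟨mem_closedBall_zero_iff.2 ?_, ?_⟩
      · rw [norm_smul, Real.norm_eq_abs, abs_of_nonneg (by linarith)]
        nlinarith [norm_nonneg m]
      rw [heq]
      refine (hconv.2 (mem_closedBall_zero_iff.2 (by linarith)) (mem_closedBall_zero_iff.2 h2m)
        (by linarith) hc0.le (by ring)).trans ?_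
      rw [smul_eq_mul, smul_eq_mul]
      have h5 : F ((2 : ℝ) • m) ≤ 5 := by
        refine (hF _).2.trans ?_
        nlinarith [norm_nonneg ((2 : ℝ) • m)]
      have h6 : c * F ((2 : ℝ) • m) ≤ c * 5 := mul_le_mul_of_nonneg_left h5 hc0.le
      have h7 : 0 ≤ c * F m :=
        mul_nonneg hc0.le ((mul_self_nonneg _).trans (hF m).1)
      linarith [hx'.2, hy'.2]
    have h1 : n ((1 + c) • m) ≤ 1 := gauge_le_one_of_mem hmem
    rw [hm, ← smul_add, smul_comm (1 / 2 : ℝ) t, smul_smul, map_smul_eq_mul,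
      Real.norm_eq_abs, abs_of_nonneg (mul_nonneg (by linarith) (by linarith))] at h1
    exact h1
  have hlim : Tendsto (fun t : ℝ => (1 + c) * t * n ((1 / 2 : ℝ) • (x + y))) (𝓝[<] 1)
      (𝓝 ((1 + c) * n ((1 / 2 : ℝ) • (x + y)))) := by
    have : Continuous fun t : ℝ => (1 + c) * t * n ((1 / 2 : ℝ) • (x + y)) := by fun_prop
    simpa using (this.tendsto 1).mono_left nhdsWithin_le_nhds
  have h := le_of_tendsto hlim (by
    filter_upwards [Ioo_mem_nhdsLT (show (1 / 2 : ℝ) < 1 by norm_num)] with t ht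
    exact hkey t ht.1.le ht.2)
  rw [sub_sub_cancel, le_div_iff₀' (by linarith)]
  exact h

/-- A reflexive model gives an equivalent uniformly convex norm. -/
theorem exists_ucNorm {E : Type u} [NormedAddCommGroup E] [NormedSpace ℝ E] (M : ReflModel E) :
    ∃ n : Seminorm ℝ E, IsEquivNorm n ∧ IsUCNorm n := by
  obtain ⟨F, h1, h2, h3, h4⟩ := exists_energy M
  exact exists_ucNorm_of_energy h1 h2 h3 h4

/-- An equivalent uniformly convex norm on the dual gives a uniformly smooth one on the space. -/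
theorem exists_usNorm_of_dual {X : Type u} [NormedAddCommGroup X] [NormedSpace ℝ X]
    (n : Seminorm ℝ (X →L[ℝ] ℝ)) (h1 : IsEquivNorm n) (h2 : IsUCNorm n) :
    ∃ m : Seminorm ℝ X, IsEquivNorm m ∧ IsUSNorm m := by
  obtain ⟨a, b, ha, hb, hab⟩ := h1
  set s : X → Set ℝ := fun x => (fun φ : X →L[ℝ] ℝ => φ x) '' {φ | n φ ≤ 1} with hs
  have hne : ∀ x, (s x).Nonempty := fun x => ⟨0, 0, by simp, by simp⟩
  have hbd : ∀ x, ∀ v ∈ s x, v ≤ ‖x‖ / a := by
    rintro x _ ⟨φ, hφ, rfl⟩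
    have h : a * ‖φ‖ ≤ 1 := (hab φ).1.trans hφ
    refine (le_abs_self _).trans ((φ.le_opNorm x).trans ?_)
    rw [le_div_iff₀ ha]
    nlinarith [norm_nonneg x, norm_nonneg φ]
  have hbdd : ∀ x, BddAbove (s x) := fun x => ⟨_, hbd x⟩
  set f : X → ℝ := fun x => sSup (s x) with hf
  have hle : ∀ x φ, n φ ≤ 1 → φ x ≤ f x := fun x φ hφ => le_csSup (hbdd x) ⟨φ, hφ, rfl⟩
  have hf0 : ∀ x, 0 ≤ f x := fun x => by simpa using hle x 0 (by simp)
  have hadd : ∀ x y, f (x + y) ≤ f x + f y := fun x y => by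
    refine csSup_le (hne _) ?_
    rintro _ ⟨φ, hφ, rfl⟩
    change φ (x + y) ≤ _
    rw [map_add]
    exact add_le_add (hle x φ hφ) (hle y φ hφ)
  have hsmul : ∀ (r : ℝ) x, f (r • x) = ‖r‖ * f x := by
    have key : ∀ (r : ℝ) x, f (r • x) ≤ ‖r‖ * f x := fun r x => by
      refine csSup_le (hne _) ?_
      rintro _ ⟨φ, hφ, rfl⟩
      change φ (r • x) ≤ _
      rw [map_smul, smul_eq_mul]
      have h1 := hle x φ hφ
      have h2 : -(φ x) ≤ f x := by simpa using hle x (-φ) (by simpa [map_neg_eq_map] using hφ)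
      calc r * φ x ≤ |r| * |φ x| := (le_abs_self _).trans (abs_mul _ _).le
        _ ≤ _ := mul_le_mul_of_nonneg_left (abs_le.2 ⟨by linarith, h1⟩) (abs_nonneg r)
    intro r x
    refine le_antisymm (key r x) ?_
    rcases eq_or_ne r 0 with rfl | hr
    · simpa using hf0 _
    · have h := key r⁻¹ (r • x)
      rw [inv_smul_smul₀ hr, norm_inv] at h
      have hr' : (0 : ℝ) < ‖r‖ := norm_pos_iff.2 hr
      rwa [le_inv_mul_iff₀ hr'] at h
  refine ⟨Seminorm.of f hadd hsmul, ⟨1 / b, 1 / a, by positivity, by positivity,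
    fun x => ⟨?_, ?_⟩⟩, fun η hη => ?_⟩
  · obtain ⟨g, hg1, hg2⟩ := exists_dual_vector'' ℝ x
    have h : n ((1 / b) • g) ≤ 1 := by
      rw [map_smul_eq_mul, Real.norm_eq_abs, abs_of_pos (by positivity), div_mul_eq_mul_div,
        one_mul, div_le_one hb]
      exact (hab g).2.trans (mul_le_of_le_one_right hb.le hg1)
    have := hle x _ h
    change 1 / b * ‖x‖ ≤ f x
    simpa [hg2] using this
  · change f x ≤ 1 / a * ‖x‖
    rw [div_mul_eq_mul_div, one_mul]
    exact csSup_le (hne x) (hbd x)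
  obtain ⟨δ, hδ, huc⟩ := h2 (min η 1) (lt_min hη one_pos)
    ((min_le_right _ _).trans one_le_two)
  refine ⟨δ, hδ, fun τ hτ hτδ x y hx hy => ?_⟩
  change (1 / 2) * (f (x + τ • y) + f (x - τ • y)) - 1 ≤ η * τ
  refine le_of_forall_pos_le_add fun e he => ?_
  obtain ⟨_, ⟨φ, hφ, rfl⟩, hφe⟩ :=
    exists_lt_of_lt_csSup (hne (x + τ • y)) (show f (x + τ • y) - e < sSup (s (x + τ • y)) by
      simp only [hf]; linarith)
  obtain ⟨_, ⟨ψ, hψ, rfl⟩, hψe⟩ :=
    exists_lt_of_lt_csSup (hne (x - τ • y)) (show f (x - τ • y) - e < sSup (s (x - τ • y)) by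
      simp only [hf]; linarith)
  change f x = 1 at hx
  change f y = 1 at hy
  simp only [map_add, map_sub, map_smul, smul_eq_mul] at hφe hψe
  by_cases hsep : min η 1 ≤ n (φ - ψ)
  · have h := huc φ ψ hφ hψ hsep
    -- the average is strictly inside the dual ball
    rcases le_or_gt (1 - δ) 0 with hd | hd
    · have h0 : n ((1 / 2 : ℝ) • (φ + ψ)) = 0 := le_antisymm (h.trans hd) (apply_nonneg n _)
      have hz : (1 / 2 : ℝ) • (φ + ψ) = 0 := by
        have := (hab ((1 / 2 : ℝ) • (φ + ψ))).1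
        rw [h0] at this
        exact norm_le_zero_iff.1 (nonpos_of_mul_nonpos_right this ha |>.trans le_rfl)
      have hz' : φ x + ψ x = 0 := by
        have := DFunLike.congr_fun hz x
        simp at this
        linarith
      have h3 := hle y φ hφ
      have h4 : -(ψ y) ≤ f y := by simpa using hle y (-ψ) (by simpa [map_neg_eq_map] using hψ)
      nlinarith [mul_pos hη hτ]
    · have h3 : n ((1 / (1 - δ)) • ((1 / 2 : ℝ) • (φ + ψ))) ≤ 1 := by
        rw [map_smul_eq_mul, Real.norm_eq_abs, abs_of_pos (by positivity), div_mul_eq_mul_div,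
          one_mul, div_le_one hd]
        exact h
      have h4 := hle x _ h3
      simp only [FunLike.coe_smul, FunLike.coe_add, Pi.smul_apply, Pi.add_apply, smul_eq_mul,
        hx] at h4
      rw [div_mul_eq_mul_div, one_mul, div_le_one hd] at h4
      have h5 := hle y φ hφ
      have h6 : -(ψ y) ≤ f y := by simpa using hle y (-ψ) (by simpa [map_neg_eq_map] using hψ)
      nlinarith [mul_pos hη hτ]
  · rw [not_le] at hsep
    have h3 : φ y - ψ y ≤ n (φ - ψ) * f y := by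
      rcases eq_or_lt_of_le (apply_nonneg n (φ - ψ)) with h0 | h0
      · have hz : φ - ψ = 0 := by
          have := (hab (φ - ψ)).1
          rw [← h0] at this
          exact norm_le_zero_iff.1 (nonpos_of_mul_nonpos_right this ha |>.trans le_rfl)
        have := DFunLike.congr_fun hz y
        simp at this
        rw [← h0, zero_mul]
        linarith
      · have h4 : n ((1 / n (φ - ψ)) • (φ - ψ)) ≤ 1 := by
          rw [map_smul_eq_mul, Real.norm_eq_abs, abs_of_pos (by positivity)]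
          field_simp
          exact le_rfl
        have := hle y _ h4
        simp only [FunLike.coe_smul, FunLike.coe_sub, Pi.smul_apply, Pi.sub_apply,
          smul_eq_mul] at this
        rw [div_mul_eq_mul_div, one_mul, div_le_iff₀ h0] at this
        linarith
    rw [hy, mul_one] at h3
    have h5 := hle x φ hφ
    have h6 := hle x ψ hψ
    have h7 : φ y - ψ y ≤ η := h3.trans (hsep.le.trans (min_le_left _ _))
    nlinarith [mul_le_mul_of_nonneg_left h7 hτ.le, mul_pos hη hτ]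

end Vale.Agent.P125
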