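import Vale.Agent.P125.UltraSpread

/-!
P125, module A: either the reflexive models exist, or a spreading seminorm with a tail functional
inherits the Markov type.
-/

namespace Vale.Agent.P125

open Filter Topology NormedSpace
open scoped BoundedContinuousFunction

set_option linter.unusedSectionVars false

universe u

variable {X : Type u} [NormedAddCommGroup X] [NormedSpace ℝ X]

lemma markov_upow {p K : ℝ} (hp : 0 < p) (h : HasMarkovTypeWith (fun x : X => ‖x‖) p K) :
    HasMarkovTypeWith (fun z : UPow X => ‖z‖) p K := by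
  intro n π P hP f t ht
  choose x hx using fun i => mkU_surjective (f i)
  have hd : ∀ i j, Tendsto (fun k => ‖x j k - x i k‖ ^ p) (U0 : Filter ℕ)
      (𝓝 (‖f j - f i‖ ^ p)) := fun i j => by
    have := (tendsto_norm_mkU (x j - x i)).rpow_const (p := p) (Or.inr hp.le)
    rw [map_sub, hx, hx] at this
    exact this
  refine le_of_tendsto_of_tendsto'
    (tendsto_finsetSum _ fun i _ => tendsto_finsetSum _ fun j _ =>
      (hd i j).const_mul (π i * (P ^ t) i j))
    (Tendsto.const_mul (K ^ p * (t : ℝ)) (tendsto_finsetSum _ fun i _ =>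
      tendsto_finsetSum _ fun j _ => (hd i j).const_mul (π i * P i j)))
    fun k => h n π P hP (fun i => x i k) t ht

variable {Z : Type u} [NormedAddCommGroup Z] [NormedSpace ℝ Z]

lemma JamesSeq.markov_G (J : JamesSeq Z) {p K : ℝ} (hp : 0 < p)
    (h : HasMarkovTypeWith (fun z : Z => ‖z‖) p K) {n : ℕ} (π : Fin n → ℝ)
    (P : Matrix (Fin n) (Fin n) ℝ) (hP : IsStatRev π P) (t : ℕ) (ht : 1 ≤ t) :
    ∀ (m : ℕ) (a : Fin n → ℕ → ℝ) (w : Fin n → Z),
      ∑ i, ∑ j, π i * (P ^ t) i j * J.G m (a j - a i) (w j - w i) ^ p ≤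
        K ^ p * (t : ℝ) * ∑ i, ∑ j, π i * P i j * J.G m (a j - a i) (w j - w i) ^ p := by
  intro m
  induction m with
  | zero => intro a w; exact h n π P hP w t ht
  | succ m ih =>
    intro a w
    have hd : ∀ i j, Tendsto
        (fun k => J.G m ((fun l => a j (l + 1)) - fun l => a i (l + 1))
          ((w j + a j 0 • J.z k) - (w i + a i 0 • J.z k)) ^ p) (U0 : Filter ℕ)
        (𝓝 (J.G (m + 1) (a j - a i) (w j - w i) ^ p)) := fun i j => by
      refine ((J.tendsto_G m (a j - a i) (w j - w i)).rpow_const (Or.inr hp.le)).congr fun k => ?_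
      have : w j + a j 0 • J.z k - (w i + a i 0 • J.z k) =
          w j - w i + (a j - a i) 0 • J.z k := by
        rw [Pi.sub_apply, sub_smul]; abel
      rw [this]
      rfl
    exact le_of_tendsto_of_tendsto'
      (tendsto_finsetSum _ fun i _ => tendsto_finsetSum _ fun j _ =>
        (hd i j).const_mul (π i * (P ^ t) i j))
      (Tendsto.const_mul (K ^ p * (t : ℝ)) (tendsto_finsetSum _ fun i _ =>
        tendsto_finsetSum _ fun j _ => (hd i j).const_mul (π i * P i j)))
      fun k => ih (fun i l => a i (l + 1)) (fun i => w i + a i 0 • J.z k)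

lemma JamesSeq.markov_spread (J : JamesSeq Z) {p K : ℝ} (hp : 0 < p)
    (h : HasMarkovTypeWith (fun z : Z => ‖z‖) p K) : HasMarkovTypeWith J.spread.N p K := by
  intro n π P hP f t ht
  classical
  set M : ℕ := Finset.univ.sup fun i => bnd (f i) with hM
  have hN : ∀ i j, J.spread.N (f j - f i) = J.G M (⇑(f j) - ⇑(f i)) ((0 : Z) - 0) := fun i j => by
    show J.N (f j - f i) = _
    rw [J.N_eq (f j - f i) (M := M) fun l hl => ?_]
    · simp
    · rcases em (f j l = 0) with h0 | h0
      · refine lt_of_lt_of_le (lt_bnd (a := f i) fun h1 => hl (by simp [h0, h1]))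
          (Finset.le_sup (f := fun i => bnd (f i)) (Finset.mem_univ i))
      · exact lt_of_lt_of_le (lt_bnd h0)
          (Finset.le_sup (f := fun i => bnd (f i)) (Finset.mem_univ j))
  simp only [hN]
  exact J.markov_G hp h π P hP t ht M (fun i => ⇑(f i)) (fun _ => 0)

/-- Either reflexive models of `X` and of its dual exist, or a spreading seminorm with a tail
functional inherits the Markov type of `X`. -/
theorem model_dichotomy {X : Type u} [NormedAddCommGroup X] [NormedSpace ℝ X] [CompleteSpace X]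
    {p K : ℝ} (hp : 0 < p) (_hK : 0 ≤ K)
    (h : HasMarkovTypeWith (fun x : X => ‖x‖) p K) :
    (Nonempty (ReflModel X) ∧ Nonempty (ReflModel (X →L[ℝ] ℝ))) ∨
      ∃ σ : SpreadNorm, HasMarkovTypeWith σ.N p K := by
  by_cases hZ : Function.Surjective (inclusionInDoubleDual ℝ (UPow X))
  · exact Or.inl ⟨⟨modelX hZ⟩, ⟨modelDual hZ⟩⟩
  · obtain ⟨J⟩ := nonempty_jamesSeq hZ
    exact Or.inr ⟨J.spread, J.markov_spread hp (markov_upow hp h)⟩

end Vale.Agent.P125
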