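import Vale.Agent.P125.Defs

/-!
P125: the ultrapower of a normed space along `U0`, the pairing with the bounded sequences of
functionals, and the reflexive models in the case that the ultrapower is reflexive.
-/

namespace Vale.Agent.P125

open Filter Topology NormedSpace
open scoped BoundedContinuousFunction

set_option linter.unusedSectionVars false

universe u

lemma tendsto_ulim_abs {f : ℕ → ℝ} {C : ℝ} (h : ∀ k, |f k| ≤ C) :
    Tendsto f (U0 : Filter ℕ) (𝓝 (ulim f)) :=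
  tendsto_ulim (a := -C) (b := C) fun k => abs_le.1 (h k)

lemma U0_le_atTop : (U0 : Filter ℕ) ≤ atTop := Nat.hyperfilter_le_atTop

variable {X : Type u} [NormedAddCommGroup X] [NormedSpace ℝ X]

/-- The limit of the norms of a bounded sequence. -/
noncomputable def qnorm (x : ℕ →ᵇ X) : ℝ := ulim fun k => ‖x k‖

lemma tendsto_qnorm (x : ℕ →ᵇ X) :
    Tendsto (fun k => ‖x k‖) (U0 : Filter ℕ) (𝓝 (qnorm x)) :=
  tendsto_ulim_abs (C := ‖x‖) fun k => by
    rw [abs_norm]; exact x.norm_coe_le_norm k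

lemma qnorm_nonneg (x : ℕ →ᵇ X) : 0 ≤ qnorm x :=
  ge_of_tendsto' (tendsto_qnorm x) fun _ => norm_nonneg _

lemma abs_qnorm_sub_le (x y : ℕ →ᵇ X) : |qnorm x - qnorm y| ≤ ‖x - y‖ := by
  refine le_of_tendsto' ((tendsto_qnorm x).sub (tendsto_qnorm y)).abs fun k => ?_
  exact (abs_norm_sub_norm_le _ _).trans ((x - y).norm_coe_le_norm k)

/-- The sequences with vanishing limit of norms. -/
noncomputable def nul (X : Type u) [NormedAddCommGroup X] [NormedSpace ℝ X] :
    Submodule ℝ (ℕ →ᵇ X) where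
  carrier := {x | Tendsto (fun k => ‖x k‖) (U0 : Filter ℕ) (𝓝 0)}
  zero_mem' := by simp
  add_mem' {x y} hx hy := by
    refine squeeze_zero (fun k => norm_nonneg _) (fun k => ?_) (by simpa using hx.add hy)
    exact norm_add_le (x k) (y k)
  smul_mem' r x hx := by
    have := hx.const_mul |r|
    simpa [norm_smul] using this

lemma mem_nul_iff {x : ℕ →ᵇ X} : x ∈ nul X ↔ qnorm x = 0 :=
  ⟨fun h => ulim_eq h, fun h => by
    have := tendsto_qnorm x
    rw [h] at this
    exact this⟩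

instance nul_closed : IsClosed ((nul X : Submodule ℝ (ℕ →ᵇ X)) : Set (ℕ →ᵇ X)) := by
  have hc : Continuous (qnorm : (ℕ →ᵇ X) → ℝ) :=
    LipschitzWith.continuous (K := 1) (LipschitzWith.of_dist_le_mul fun x y => by
      rw [Real.dist_eq, dist_eq_norm, NNReal.coe_one, one_mul]
      exact abs_qnorm_sub_le x y)
  have : ((nul X : Submodule ℝ (ℕ →ᵇ X)) : Set (ℕ →ᵇ X)) = qnorm ⁻¹' {0} := by
    ext x
    simp [mem_nul_iff]
  rw [this]
  exact isClosed_singleton.preimage hc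

/-- The ultrapower. -/
abbrev UPow (X : Type u) [NormedAddCommGroup X] [NormedSpace ℝ X] : Type u := (ℕ →ᵇ X) ⧸ nul X

/-- The class of a bounded sequence. -/
noncomputable def mkU : (ℕ →ᵇ X) →ₗ[ℝ] UPow X := (nul X).mkQ

lemma mkU_surjective : Function.Surjective (mkU (X := X)) := Submodule.mkQ_surjective _

lemma norm_mkU (x : ℕ →ᵇ X) : ‖mkU x‖ = qnorm x := by
  refine le_antisymm ?_ ?_
  · refine le_of_forall_pos_le_add fun ε hε => ?_
    have hev : ∀ᶠ k in (U0 : Filter ℕ), ‖x k‖ < qnorm x + ε :=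
      (tendsto_qnorm x).eventually_lt_const (by linarith)
    classical
    let g : ℕ → X := fun k => if ‖x k‖ < qnorm x + ε then x k else 0
    have hg : ∀ k, ‖g k‖ ≤ qnorm x + ε := fun k => by
      by_cases h : ‖x k‖ < qnorm x + ε
      · simp only [g, if_pos h]; exact h.le
      · simp only [g, if_neg h, norm_zero]; linarith [qnorm_nonneg x]
    let y := BoundedContinuousFunction.ofNormedAddCommGroupDiscrete g _ hg
    have hy : mkU x = mkU y := by
      refine (Submodule.Quotient.eq _).2 ?_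
      show Tendsto (fun k => ‖(x - y) k‖) (U0 : Filter ℕ) (𝓝 0)
      refine tendsto_const_nhds.congr' ?_
      filter_upwards [hev] with k hk
      simp [y, g, hk]
    rw [hy]
    refine (Submodule.Quotient.norm_mk_le _ y).trans ?_
    exact (BoundedContinuousFunction.norm_le (by linarith [qnorm_nonneg x])).2 hg
  · refine le_of_forall_pos_le_add fun ε hε => ?_
    obtain ⟨m, hm, hlt⟩ := Submodule.Quotient.norm_mk_lt (mkU x) hε
    have hd : m - x ∈ nul X := (Submodule.Quotient.eq _).1 hm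
    have h0 : Tendsto (fun k => ‖m k‖ - ‖x k‖) (U0 : Filter ℕ) (𝓝 0) :=
      squeeze_zero_norm (fun k => abs_norm_sub_norm_le (m k) (x k)) hd
    have h1 : qnorm m = qnorm x := by
      have := ((tendsto_qnorm m).sub (tendsto_qnorm x))
      have := tendsto_nhds_unique this h0
      linarith
    have h2 : qnorm m ≤ ‖m‖ := le_of_tendsto' (tendsto_qnorm m) fun k => m.norm_coe_le_norm k
    linarith

lemma tendsto_norm_mkU (x : ℕ →ᵇ X) :
    Tendsto (fun k => ‖x k‖) (U0 : Filter ℕ) (𝓝 ‖mkU x‖) := by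
  rw [norm_mkU]; exact tendsto_qnorm x

/-- A bounded sequence as a bounded continuous function. -/
noncomputable def mkB (x : ℕ → X) (h : IsBddSeq x) : ℕ →ᵇ X :=
  BoundedContinuousFunction.ofNormedAddCommGroupDiscrete x h.choose h.choose_spec

@[simp] lemma coe_mkB (x : ℕ → X) (h : IsBddSeq x) : ⇑(mkB x h) = x := rfl

lemma isBdd_coe (x : ℕ →ᵇ X) : IsBddSeq (⇑x) := ⟨‖x‖, x.norm_coe_le_norm⟩

lemma mkB_coe (x : ℕ →ᵇ X) (h : IsBddSeq (⇑x)) : mkB (⇑x) h = x := by ext; rfl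

open Classical in
/-- The map from all sequences (junk on the unbounded ones). -/
noncomputable def iotaU (x : ℕ → X) : UPow X := if h : IsBddSeq x then mkU (mkB x h) else 0

lemma iotaU_of_bdd (x : ℕ → X) (h : IsBddSeq x) : iotaU x = mkU (mkB x h) := by
  simp [iotaU, h]

lemma iotaU_coe (x : ℕ →ᵇ X) : iotaU (⇑x) = mkU x := by
  rw [iotaU_of_bdd _ (isBdd_coe x), mkB_coe]

lemma IsBddSeq.add {x y : ℕ → X} (hx : IsBddSeq x) (hy : IsBddSeq y) : IsBddSeq (x + y) := by
  obtain ⟨C, hC⟩ := hx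
  obtain ⟨D, hD⟩ := hy
  exact ⟨C + D, fun k => (norm_add_le _ _).trans (add_le_add (hC k) (hD k))⟩

lemma IsBddSeq.smul {x : ℕ → X} (r : ℝ) (hx : IsBddSeq x) : IsBddSeq (r • x) := by
  obtain ⟨C, hC⟩ := hx
  exact ⟨‖r‖ * C, fun k => by
    rw [Pi.smul_apply, norm_smul]; exact mul_le_mul_of_nonneg_left (hC k) (norm_nonneg _)⟩

lemma iotaU_add (x y : ℕ → X) (hx : IsBddSeq x) (hy : IsBddSeq y) :
    iotaU (x + y) = iotaU x + iotaU y := by
  rw [iotaU_of_bdd _ hx, iotaU_of_bdd _ hy, iotaU_of_bdd _ (hx.add hy), ← map_add]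
  congr 1

lemma iotaU_smul (r : ℝ) (x : ℕ → X) (hx : IsBddSeq x) : iotaU (r • x) = r • iotaU x := by
  rw [iotaU_of_bdd _ hx, iotaU_of_bdd _ (hx.smul r), ← map_smul]
  congr 1

lemma tendsto_norm_iotaU (x : ℕ → X) (hx : IsBddSeq x) :
    Tendsto (fun k => ‖x k‖) (U0 : Filter ℕ) (𝓝 ‖iotaU x‖) := by
  rw [iotaU_of_bdd _ hx]; exact tendsto_norm_mkU (mkB x hx)

/-! ## The pairing -/

lemma tendsto_pair (φ : ℕ →ᵇ StrongDual ℝ X) (x : ℕ →ᵇ X) :
    Tendsto (fun k => φ k (x k)) (U0 : Filter ℕ) (𝓝 (ulim fun k => φ k (x k))) :=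
  tendsto_ulim_abs (C := ‖φ‖ * ‖x‖) fun k => by
    rw [← Real.norm_eq_abs]
    exact (φ k).le_of_opNorm_le_of_le (φ.norm_coe_le_norm k) (x.norm_coe_le_norm k)

/-- Pairing of a bounded sequence of functionals with bounded sequences. -/
noncomputable def pairLin (φ : ℕ →ᵇ StrongDual ℝ X) : (ℕ →ᵇ X) →ₗ[ℝ] ℝ where
  toFun x := ulim fun k => φ k (x k)
  map_add' x y := ulim_eq (((tendsto_pair φ x).add (tendsto_pair φ y)).congr fun k => by simp)
  map_smul' r x := ulim_eq (((tendsto_pair φ x).const_mul r).congr fun k => by simp)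

lemma abs_pairLin_le (φ : ℕ →ᵇ StrongDual ℝ X) (x : ℕ →ᵇ X) :
    |pairLin φ x| ≤ qnorm φ * qnorm x :=
  le_of_tendsto_of_tendsto' (tendsto_pair φ x).abs ((tendsto_qnorm φ).mul (tendsto_qnorm x))
    fun k => by rw [← Real.norm_eq_abs]; exact (φ k).le_opNorm (x k)

lemma nul_le_ker (φ : ℕ →ᵇ StrongDual ℝ X) : nul X ≤ LinearMap.ker (pairLin φ) := by
  intro x hx
  rw [LinearMap.mem_ker, ← abs_eq_zero]
  refine le_antisymm ?_ (abs_nonneg _)
  have := abs_pairLin_le φ x
  rw [mem_nul_iff.1 hx, mul_zero] at this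
  exact this

/-- The functional on the ultrapower given by a bounded sequence of functionals. -/
noncomputable def gmap (φ : ℕ →ᵇ StrongDual ℝ X) : StrongDual ℝ (UPow X) :=
  LinearMap.mkContinuous ((nul X).liftQ (pairLin φ) (nul_le_ker φ)) (qnorm φ) fun z => by
    obtain ⟨x, rfl⟩ := mkU_surjective z
    rw [Real.norm_eq_abs, norm_mkU]
    exact abs_pairLin_le φ x

lemma gmap_apply (φ : ℕ →ᵇ StrongDual ℝ X) (x : ℕ →ᵇ X) :
    gmap φ (mkU x) = ulim fun k => φ k (x k) := rfl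

lemma tendsto_gmap (φ : ℕ →ᵇ StrongDual ℝ X) (x : ℕ →ᵇ X) :
    Tendsto (fun k => φ k (x k)) (U0 : Filter ℕ) (𝓝 (gmap φ (mkU x))) := tendsto_pair φ x

lemma gmap_add (φ ψ : ℕ →ᵇ StrongDual ℝ X) : gmap (φ + ψ) = gmap φ + gmap ψ := by
  ext z
  obtain ⟨x, rfl⟩ := mkU_surjective z
  exact ulim_eq (((tendsto_gmap φ x).add (tendsto_gmap ψ x)).congr fun k => by simp)

lemma gmap_smul (r : ℝ) (φ : ℕ →ᵇ StrongDual ℝ X) : gmap (r • φ) = r • gmap φ := by
  ext z
  obtain ⟨x, rfl⟩ := mkU_surjective z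
  exact ulim_eq (((tendsto_gmap φ x).const_mul r).congr fun k => by simp)

/-- The pairing as a linear map. -/
noncomputable def gmapLin : (ℕ →ᵇ StrongDual ℝ X) →ₗ[ℝ] StrongDual ℝ (UPow X) where
  toFun := gmap
  map_add' := gmap_add
  map_smul' := gmap_smul

lemma exists_norming (f : StrongDual ℝ X) {η : ℝ} (hη : 0 < η) :
    ∃ x : X, ‖x‖ ≤ 1 ∧ ‖f‖ - η ≤ f x := by
  obtain ⟨x, hx, hfx⟩ := f.exists_lt_apply_of_lt_opNorm (show ‖f‖ - η < ‖f‖ by linarith)
  rcases le_total 0 (f x) with h | h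
  · exact ⟨x, hx.le, by rw [Real.norm_eq_abs, abs_of_nonneg h] at hfx; linarith⟩
  · exact ⟨-x, by simpa using hx.le, by
      rw [Real.norm_eq_abs, abs_of_nonpos h] at hfx; simp; linarith⟩

lemma norm_gmap (φ : ℕ →ᵇ StrongDual ℝ X) : ‖gmap φ‖ = qnorm φ := by
  refine le_antisymm (LinearMap.mkContinuous_norm_le _ (qnorm_nonneg φ) _) ?_
  refine le_of_forall_pos_le_add fun η hη => ?_
  choose v hv hfv using fun k => exists_norming (φ k) hη
  let x := BoundedContinuousFunction.ofNormedAddCommGroupDiscrete v 1 hv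
  have h1 : qnorm φ - η ≤ gmap φ (mkU x) :=
    le_of_tendsto_of_tendsto' ((tendsto_qnorm φ).sub_const η) (tendsto_gmap φ x) hfv
  have h2 : ‖mkU x‖ ≤ 1 := le_of_tendsto' (tendsto_norm_mkU x) hv
  have h3 := (gmap φ).le_of_opNorm_le_of_le le_rfl h2
  rw [Real.norm_eq_abs] at h3
  linarith [le_abs_self (gmap φ (mkU x))]

/-! ## The reflexive case -/

lemma exists_gmap_near
    (hZ : Function.Surjective (inclusionInDoubleDual ℝ (UPow X)))
    (Φ : StrongDual ℝ (UPow X)) {η : ℝ} (hη : 0 < η) :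
    ∃ φ : ℕ →ᵇ StrongDual ℝ X, ‖Φ - gmap φ‖ < η := by
  set W : Submodule ℝ (StrongDual ℝ (UPow X)) :=
    (LinearMap.range (gmapLin (X := X))).topologicalClosure with hWdef
  by_cases hW : Φ ∈ W
  · rw [← SetLike.mem_coe, hWdef, Submodule.topologicalClosure_coe] at hW
    obtain ⟨b, hb, hd⟩ := (Metric.mem_closure_iff (α := StrongDual ℝ (UPow X)) (a := Φ)).1 hW η hη
    obtain ⟨φ, rfl⟩ := hb
    exact ⟨φ, (dist_eq_norm Φ (gmap φ)).symm.trans_lt hd⟩
  · exfalso
    obtain ⟨F, u, hFΦ, hFW⟩ := geometric_hahn_banach_point_closed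
      (t := (W : Set (StrongDual ℝ (UPow X)))) W.convex
      (Submodule.isClosed_topologicalClosure _) hW
    have hF0 : ∀ b ∈ W, F b = 0 := by
      intro b hb
      by_contra hne
      have hc := hFW (((u - 1) / F b) • b) (W.smul_mem _ hb)
      rw [map_smul, smul_eq_mul, div_mul_cancel₀ _ hne] at hc
      linarith
    have hu : u < 0 := by simpa using hFW 0 W.zero_mem
    obtain ⟨z, rfl⟩ := hZ F
    obtain ⟨x, rfl⟩ := mkU_surjective z
    choose g hg1 hg2 using fun k => exists_dual_vector'' ℝ (x k)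
    let φ := BoundedContinuousFunction.ofNormedAddCommGroupDiscrete g 1 hg1
    have h1 : gmap φ (mkU x) = 0 :=
      hF0 (gmap φ) (Submodule.le_topologicalClosure _ ⟨φ, rfl⟩)
    have h2 : qnorm x = 0 := by
      rw [← h1]
      exact (ulim_eq ((tendsto_qnorm x).congr fun k => by simp [φ, hg2])).symm
    have h3 : mkU x = 0 := by rw [← norm_eq_zero, norm_mkU]; exact h2
    rw [dual_def, h3, map_zero] at hFΦ
    linarith

/-- The reflexive model of `X`. -/
noncomputable def modelX (hZ : Function.Surjective (inclusionInDoubleDual ℝ (UPow X))) :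
    ReflModel X where
  Z := UPow X
  refl := hZ
  ι := iotaU
  ι_add := iotaU_add
  ι_smul := iotaU_smul
  norm_ι := tendsto_norm_iotaU
  coord := fun Φ η hη => by
    obtain ⟨φ, hφ⟩ := exists_gmap_near hZ Φ hη
    refine ⟨φ, ⟨‖φ‖, φ.norm_coe_le_norm⟩, fun x hx => ?_⟩
    rw [iotaU_of_bdd _ hx]
    have : Φ (mkU (mkB x hx)) - ulim (fun n => φ n (x n)) = (Φ - gmap φ) (mkU (mkB x hx)) := by
      rw [sub_apply, gmap_apply]; rfl
    rw [this, ← Real.norm_eq_abs]
    exact (Φ - gmap φ).le_of_opNorm_le hφ.le _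

open Classical in
/-- The pairing extended to all sequences of functionals. -/
noncomputable def iotaD (φ : ℕ → StrongDual ℝ X) : StrongDual ℝ (UPow X) :=
  if h : IsBddSeq φ then gmap (mkB φ h) else 0

lemma iotaD_of_bdd (φ : ℕ → StrongDual ℝ X) (h : IsBddSeq φ) : iotaD φ = gmap (mkB φ h) := by
  simp [iotaD, h]

/-- The reflexive model of the dual of `X`. -/
noncomputable def modelDual (hZ : Function.Surjective (inclusionInDoubleDual ℝ (UPow X))) :
    ReflModel (X →L[ℝ] ℝ) where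
  Z := StrongDual ℝ (UPow X)
  refl := fun F => by
    refine ⟨F.comp (inclusionInDoubleDual ℝ (UPow X)), ?_⟩
    ext Ψ
    obtain ⟨z, rfl⟩ := hZ Ψ
    rfl
  ι := iotaD
  ι_add := fun x y hx hy => by
    rw [iotaD_of_bdd _ hx, iotaD_of_bdd _ hy, iotaD_of_bdd _ (hx.add hy), ← gmap_add]
    congr 1
  ι_smul := fun r x hx => by
    rw [iotaD_of_bdd _ hx, iotaD_of_bdd _ (hx.smul r), ← gmap_smul]
    congr 1
  norm_ι := fun x hx => by
    rw [iotaD_of_bdd _ hx, norm_gmap]; exact tendsto_qnorm (mkB x hx)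
  coord := fun Φ η hη => by
    obtain ⟨z, rfl⟩ := hZ Φ
    obtain ⟨x, rfl⟩ := mkU_surjective z
    refine ⟨fun k => inclusionInDoubleDual ℝ X (x k),
      ⟨‖x‖, fun k => (double_dual_bound ℝ X (x k)).trans (x.norm_coe_le_norm k)⟩,
      fun φ hφ => ?_⟩
    rw [iotaD_of_bdd _ hφ, dual_def, gmap_apply]
    simp only [coe_mkB, dual_def, sub_self, abs_zero]
    positivity

end Vale.Agent.P125
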