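import Vale.Agent.P125.UltraBase

/-!
P125: the non-reflexive case — a James sequence and its spreading seminorm.
-/

namespace Vale.Agent.P125

open Filter Topology NormedSpace

set_option linter.unusedSectionVars false

universe u

variable {Z : Type u} [NormedAddCommGroup Z] [NormedSpace ℝ Z]

/-! ## The James sequence -/

lemma exists_far [CompleteSpace Z]
    (h : ¬ Function.Surjective (inclusionInDoubleDual ℝ Z)) :
    ∃ (Ψ : StrongDual ℝ (StrongDual ℝ Z)) (d : ℝ), 0 < d ∧
      ∀ z, d ≤ ‖Ψ - inclusionInDoubleDual ℝ Z z‖ := by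
  obtain ⟨Ψ, hΨ⟩ := not_forall.1 h
  have hiso : Isometry (inclusionInDoubleDualLi (E := Z) ℝ) :=
    (inclusionInDoubleDualLi (E := Z) ℝ).isometry
  have hcl : IsClosed (Set.range (inclusionInDoubleDual ℝ Z)) := by
    exact hiso.isClosedEmbedding.isClosed_range
  obtain ⟨d, hd, hball⟩ := Metric.isOpen_iff.1 hcl.isOpen_compl Ψ (fun ⟨z, hz⟩ => hΨ ⟨z, hz⟩)
  refine ⟨Ψ, d, hd, fun z => ?_⟩
  by_contra hlt
  push Not at hlt
  exact hball (Metric.mem_ball.2 ((dist_comm _ _).trans_lt ((dist_eq_norm Ψ _).trans_lt hlt)))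
    ⟨z, rfl⟩

lemma exists_annihilating {Ψ : StrongDual ℝ (StrongDual ℝ Z)} {d : ℝ} (hd : 0 < d)
    (hΨ : ∀ z, d ≤ ‖Ψ - inclusionInDoubleDual ℝ Z z‖) {ι : Type*} [Finite ι] (v : ι → Z) :
    ∃ φ : StrongDual ℝ Z, (∀ i, φ (v i) = 0) ∧ ‖φ‖ ≤ 2 / d ∧ Ψ φ = 1 := by
  let L : ι → StrongDual ℝ Z →ₗ[ℝ] ℝ := fun i => (inclusionInDoubleDual ℝ Z (v i)).toLinearMap
  let A : Submodule ℝ (StrongDual ℝ Z) := ⨅ i, LinearMap.ker (L i)
  have hA : ∀ φ, φ ∈ A ↔ ∀ i, φ (v i) = 0 := fun φ => by simp [A, L, Submodule.mem_iInf]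
  by_cases h : ∀ φ ∈ A, |Ψ φ| ≤ d / 2 * ‖φ‖
  · exfalso
    let f : StrongDual ℝ A := Ψ.comp A.subtypeL
    obtain ⟨g, hg, hgn⟩ := exists_extension_norm_eq A f
    have hgd : ‖g‖ ≤ d / 2 := by
      rw [hgn]
      refine ContinuousLinearMap.opNorm_le_bound _ (by linarith) fun φ => ?_
      rw [Real.norm_eq_abs]
      exact h φ φ.2
    have hker : (⨅ i, LinearMap.ker (L i)) ≤ LinearMap.ker (Ψ - g).toLinearMap := by
      intro φ hφ
      rw [LinearMap.mem_ker]
      show (Ψ - g) φ = 0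
      rw [sub_apply, hg ⟨φ, hφ⟩]
      simp [f]
    have hspan := mem_span_of_iInf_ker_le_ker hker
    have hex : ∃ z : Z, ∀ φ : StrongDual ℝ Z, φ z = (Ψ - g) φ := by
      refine Submodule.span_induction (p := fun K _ => ∃ z : Z, ∀ φ : StrongDual ℝ Z, φ z = K φ)
        ?_ ⟨0, by simp⟩ ?_ ?_ hspan
      · rintro _ ⟨i, rfl⟩
        exact ⟨v i, fun φ => rfl⟩
      · rintro _ _ - - ⟨z₁, h₁⟩ ⟨z₂, h₂⟩
        exact ⟨z₁ + z₂, fun φ => by simp [h₁ φ, h₂ φ]⟩
      · rintro r _ - ⟨z, hz⟩
        exact ⟨r • z, fun φ => by simp [hz φ]⟩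
    obtain ⟨z, hz⟩ := hex
    have heq : inclusionInDoubleDual ℝ Z z = Ψ - g := by
      ext φ
      exact hz φ
    have := hΨ z
    rw [heq, show Ψ - (Ψ - g) = g by ext φ; simp] at this
    linarith
  · push Not at h
    obtain ⟨φ, hφ, hlt⟩ := h
    have hpos : 0 < |Ψ φ| := lt_of_le_of_lt (by positivity) hlt
    refine ⟨(Ψ φ)⁻¹ • φ, fun i => by simp [(hA φ).1 hφ i], ?_, ?_⟩
    · rw [norm_smul, norm_inv, Real.norm_eq_abs, inv_mul_le_iff₀ hpos]
      rw [mul_comm, div_mul_eq_mul_div, le_div_iff₀ hd]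
      linarith
    · rw [map_smul, smul_eq_mul, inv_mul_cancel₀ (abs_pos.1 hpos)]

lemma exists_helly [CompleteSpace Z] (Ψ : StrongDual ℝ (StrongDual ℝ Z)) {ι : Type*} [Fintype ι]
    (φ : ι → StrongDual ℝ Z) :
    ∃ z : Z, ‖z‖ ≤ ‖Ψ‖ + 2 ∧ ∀ i, φ i z = Ψ (φ i) := by
  let T : Z →L[ℝ] (ι → ℝ) := ContinuousLinearMap.pi φ
  let c : ι → ℝ := fun i => Ψ (φ i)
  set R0 : ℝ := ‖Ψ‖ + 1
  have hR0 : 0 < R0 := by positivity
  have hcl : c ∈ closure (T '' Metric.closedBall 0 R0) := by
    by_contra hc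
    obtain ⟨f, u, hf, hu⟩ := geometric_hahn_banach_closed_point
      ((convex_closedBall (0 : Z) R0).linear_image T.toLinearMap).closure isClosed_closure hc
    let a : StrongDual ℝ Z := f.comp T
    classical
    have hf_sum : ∀ w : ι → ℝ, f w = ∑ i, w i * f (Pi.single i 1) := by
      intro w
      conv_lhs => rw [pi_eq_sum_univ w]
      simp only [map_sum, map_smul, smul_eq_mul]
      refine Finset.sum_congr rfl fun i _ => ?_
      congr 2
      funext j
      simp [Pi.single_apply, eq_comm]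
    have hΨa : Ψ a = f c := by
      have ha : a = ∑ i, f (Pi.single i 1) • φ i := by
        ext z
        simp only [a, ContinuousLinearMap.comp_apply, hf_sum (T z), sum_apply,
          smul_apply, smul_eq_mul]
        exact Finset.sum_congr rfl fun i _ => mul_comm _ _
      rw [ha, map_sum, hf_sum c]
      simp [c, mul_comm]
    have hu0 : 0 < u := by
      have := hf 0 (subset_closure ⟨0, by simp [hR0.le], map_zero T⟩)
      simpa using this
    have hna : ‖a‖ ≤ u / R0 := by
      refine ContinuousLinearMap.opNorm_le_bound _ (by positivity) fun z => ?_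
      rcases eq_or_ne z 0 with rfl | hz
      · simp
      have hz' : 0 < ‖z‖ := norm_pos_iff.2 hz
      have key : ∀ r : ℝ, |r| ≤ R0 / ‖z‖ → r * a z < u := fun r hr => by
        have := hf (T (r • z)) (subset_closure ⟨r • z, by
          rw [mem_closedBall_zero_iff, norm_smul, Real.norm_eq_abs]
          exact (le_div_iff₀ hz').1 hr, rfl⟩)
        simpa [a] using this
      have hp : (0 : ℝ) < R0 / ‖z‖ := by positivity
      have h1 := key (R0 / ‖z‖) (abs_of_pos hp).le
      have h2 := key (-(R0 / ‖z‖)) (by rw [abs_neg]; exact (abs_of_pos hp).le)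
      have h3 : R0 / ‖z‖ * |a z| ≤ u := by
        rcases abs_cases (a z) with ⟨he, -⟩ | ⟨he, -⟩ <;> rw [he] <;> linarith
      rw [Real.norm_eq_abs]
      rw [div_mul_eq_mul_div, div_le_iff₀ hz'] at h3
      rw [div_mul_eq_mul_div, le_div_iff₀ hR0]
      linarith
    have h4 : Ψ a ≤ ‖Ψ‖ * (u / R0) :=
      (le_abs_self _).trans (by
        rw [← Real.norm_eq_abs]; exact Ψ.le_of_opNorm_le_of_le le_rfl hna)
    rw [hΨa] at h4
    have h5 : ‖Ψ‖ * (u / R0) ≤ u := by
      rw [← mul_div_assoc, div_le_iff₀ hR0]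
      nlinarith
    linarith
  have hclosed : IsClosed ((LinearMap.range T.toLinearMap : Submodule ℝ (ι → ℝ)) : Set (ι → ℝ)) :=
    Submodule.closed_of_finiteDimensional _
  have hcr : c ∈ LinearMap.range T.toLinearMap := by
    refine hclosed.closure_subset (closure_mono ?_ hcl)
    rintro _ ⟨z, -, rfl⟩
    exact ⟨z, rfl⟩
  obtain ⟨C, hC, hpre⟩ := T.rangeRestrict.exists_preimage_norm_le (fun y => by
    obtain ⟨z, hz⟩ := y.2
    exact ⟨z, Subtype.ext hz⟩)
  obtain ⟨_, ⟨z, hz, rfl⟩, hdz⟩ := Metric.mem_closure_iff.1 hcl (1 / C) (by positivity)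
  obtain ⟨w, hw, hwn⟩ := hpre ⟨c - T z, Submodule.sub_mem _ hcr ⟨z, rfl⟩⟩
  refine ⟨z + w, ?_, fun i => ?_⟩
  · have h1 : ‖w‖ ≤ 1 := by
      refine hwn.trans ?_
      rw [Submodule.coe_norm, ← dist_eq_norm]
      have := (lt_div_iff₀ hC).1 hdz
      rw [mul_comm]
      exact this.le
    rw [mem_closedBall_zero_iff] at hz
    exact (norm_add_le _ _).trans (by linarith)
  · have h2 : T w = c - T z := congrArg Subtype.val hw
    have h3 := congrFun h2 i
    simp only [T, c, ContinuousLinearMap.pi_apply, Pi.sub_apply] at h3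
    rw [map_add]
    linarith

/-- A sequence in the unit ball with functionals as in James' criterion. -/
structure JamesSeq (Z : Type u) [NormedAddCommGroup Z] [NormedSpace ℝ Z] where
  z : ℕ → Z
  φ : ℕ → StrongDual ℝ Z
  s : ℝ
  C : ℝ
  s_pos : 0 < s
  C_pos : 0 < C
  z_le : ∀ k, ‖z k‖ ≤ 1
  φ_le : ∀ k, ‖φ k‖ ≤ C
  low : ∀ i k, i ≤ k → φ i (z k) = s
  high : ∀ i k, k < i → φ i (z k) = 0

lemma nonempty_jamesSeq [CompleteSpace Z]
    (h : ¬ Function.Surjective (inclusionInDoubleDual ℝ Z)) : Nonempty (JamesSeq Z) := by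
  obtain ⟨Ψ, d, hd, hΨ⟩ := exists_far h
  set R : ℝ := ‖Ψ‖ + 2 with hR
  have hRpos : 0 < R := by positivity
  obtain ⟨f, hf, hfr⟩ := exists_seq_of_forall_finset_exists
    (P := fun p : Z × StrongDual ℝ Z => ‖p.1‖ ≤ R ∧ ‖p.2‖ ≤ 2 / d ∧ Ψ p.2 = 1 ∧ p.2 p.1 = 1)
    (r := fun a b : Z × StrongDual ℝ Z => b.2 a.1 = 0 ∧ a.2 b.1 = 1) (fun s hs => by
      obtain ⟨ψ, hψ0, hψn, hψ1⟩ := exists_annihilating hd hΨ (fun p : ↥s => p.1.1)
      obtain ⟨z, hz, hzφ⟩ := exists_helly Ψ (fun o : Option ↥s => o.elim ψ fun p => p.1.2)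
      refine ⟨(z, ψ), ⟨hz, hψn, hψ1, ?_⟩, fun x hx => ⟨hψ0 ⟨x, hx⟩, ?_⟩⟩
      · exact (hzφ none).trans hψ1
      · exact (hzφ (some ⟨x, hx⟩)).trans (hs x hx).2.2.1)
  refine ⟨{
    z := fun k => R⁻¹ • (f k).1
    φ := fun k => (f k).2
    s := R⁻¹
    C := 2 / d
    s_pos := by positivity
    C_pos := by positivity
    z_le := fun k => ?_
    φ_le := fun k => (hf k).2.1
    low := fun i k hik => ?_
    high := fun i k hki => ?_ }⟩
  · rw [norm_smul, norm_inv, Real.norm_eq_abs, abs_of_pos hRpos, inv_mul_le_iff₀ hRpos, mul_one]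
    exact (hf k).1
  · rw [map_smul, smul_eq_mul]
    rcases hik.lt_or_eq with h | rfl
    · rw [(hfr i k h).2, mul_one]
    · rw [(hf i).2.2.2, mul_one]
  · rw [map_smul, smul_eq_mul, (hfr k i hki).1, mul_zero]

/-! ## The spreading seminorm -/

/-- The iterated ultrafilter limit of norms. -/
noncomputable def JamesSeq.G (J : JamesSeq Z) : ℕ → (ℕ → ℝ) → Z → ℝ
  | 0, _, w => ‖w‖
  | m + 1, a, w => ulim fun n => J.G m (fun i => a (i + 1)) (w + a 0 • J.z n)

variable (J : JamesSeq Z)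

lemma JamesSeq.G_mem : ∀ (m : ℕ) (a : ℕ → ℝ) (w : Z),
    0 ≤ J.G m a w ∧ J.G m a w ≤ ‖w‖ + ∑ i ∈ Finset.range m, |a i| := by
  intro m
  induction m with
  | zero => intro a w; simp [JamesSeq.G]
  | succ m ih =>
    intro a w
    have hb : ∀ n, J.G m (fun i => a (i + 1)) (w + a 0 • J.z n) ∈
        Set.Icc (0 : ℝ) (‖w‖ + ∑ i ∈ Finset.range (m + 1), |a i|) := fun n => by
      obtain ⟨h0, h1⟩ := ih (fun i => a (i + 1)) (w + a 0 • J.z n)
      refine ⟨h0, h1.trans ?_⟩
      have h2 : ‖w + a 0 • J.z n‖ ≤ ‖w‖ + |a 0| := by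
        refine (norm_add_le _ _).trans ?_
        rw [norm_smul, Real.norm_eq_abs]
        linarith [mul_le_of_le_one_right (abs_nonneg (a 0)) (J.z_le n)]
      rw [Finset.sum_range_succ']
      linarith
    have ht := tendsto_ulim hb
    exact ⟨ge_of_tendsto' ht fun n => (hb n).1, le_of_tendsto' ht fun n => (hb n).2⟩

lemma JamesSeq.tendsto_G (m : ℕ) (a : ℕ → ℝ) (w : Z) :
    Tendsto (fun n => J.G m (fun i => a (i + 1)) (w + a 0 • J.z n)) (U0 : Filter ℕ)
      (𝓝 (J.G (m + 1) a w)) := by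
  refine tendsto_ulim (a := 0) (b := ‖w‖ + |a 0| + ∑ i ∈ Finset.range m, |a (i + 1)|) fun n => ?_
  obtain ⟨h0, h1⟩ := J.G_mem m (fun i => a (i + 1)) (w + a 0 • J.z n)
  refine ⟨h0, h1.trans ?_⟩
  gcongr
  refine (norm_add_le _ _).trans ?_
  rw [norm_smul, Real.norm_eq_abs]
  linarith [mul_le_of_le_one_right (abs_nonneg (a 0)) (J.z_le n)]

lemma JamesSeq.G_add_le : ∀ (m : ℕ) (a b : ℕ → ℝ) (w v : Z),
    J.G m (a + b) (w + v) ≤ J.G m a w + J.G m b v := by
  intro m
  induction m with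
  | zero => intro a b w v; exact norm_add_le w v
  | succ m ih =>
    intro a b w v
    refine le_of_tendsto_of_tendsto' (J.tendsto_G m (a + b) (w + v))
      ((J.tendsto_G m a w).add (J.tendsto_G m b v)) fun n => ?_
    have : w + v + (a + b) 0 • J.z n = (w + a 0 • J.z n) + (v + b 0 • J.z n) := by
      rw [Pi.add_apply, add_smul]; abel
    rw [this]
    exact ih _ _ _ _

lemma JamesSeq.G_smul (r : ℝ) : ∀ (m : ℕ) (a : ℕ → ℝ) (w : Z),
    J.G m (r • a) (r • w) = |r| * J.G m a w := by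
  intro m
  induction m with
  | zero => intro a w; simp [JamesSeq.G, norm_smul]
  | succ m ih =>
    intro a w
    refine ulim_eq (((J.tendsto_G m a w).const_mul |r|).congr fun n => ?_)
    rw [← ih, smul_add, smul_smul]
    rfl

lemma JamesSeq.G_congr : ∀ (m : ℕ) {a b : ℕ → ℝ}, (∀ i < m, a i = b i) → ∀ w : Z,
    J.G m a w = J.G m b w := by
  intro m
  induction m with
  | zero => intro a b _ w; rfl
  | succ m ih =>
    intro a b h w
    simp only [JamesSeq.G]
    rw [h 0 m.succ_pos]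
    exact congrArg ulim (funext fun n => ih (fun i hi => h (i + 1) (by omega)) _)

lemma JamesSeq.G_cons_zero (m : ℕ) (a : ℕ → ℝ) (w : Z) (h : a 0 = 0) :
    J.G (m + 1) a w = J.G m (fun i => a (i + 1)) w := by
  refine ulim_eq (tendsto_const_nhds.congr fun n => ?_)
  simp [h]

/-- Relabelling of the positions along a strictly increasing map. -/
lemma JamesSeq.G_reindex : ∀ (M m : ℕ) (a b : ℕ → ℝ) (κ : ℕ → ℕ),
    (∀ i < m, κ i < M) → (∀ i j, i < j → j < m → κ i < κ j) →
    (∀ i < m, b (κ i) = a i) → (∀ j < M, (∀ i < m, κ i ≠ j) → b j = 0) →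
    ∀ w : Z, J.G M b w = J.G m a w := by
  intro M
  induction M with
  | zero =>
    intro m a b κ hM _ _ _ w
    obtain rfl : m = 0 := by
      rcases Nat.eq_zero_or_pos m with h | h
      · exact h
      · exact absurd (hM 0 h) (by omega)
    rfl
  | succ M ih =>
    intro m a b κ hM hmono hb hout w
    by_cases h0 : 0 < m ∧ κ 0 = 0
    · obtain ⟨hm, hκ⟩ := h0
      obtain ⟨m, rfl⟩ : ∃ m', m = m' + 1 := ⟨m - 1, by omega⟩
      have hpos : ∀ i < m, 0 < κ (i + 1) := fun i hi => by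
        have := hmono 0 (i + 1) i.succ_pos (by omega)
        omega
      have hb0 : b 0 = a 0 := by have := hb 0 hm; rwa [hκ] at this
      simp only [JamesSeq.G]
      rw [hb0]
      refine congrArg ulim (funext fun n => ?_)
      refine ih m _ _ (fun i => κ (i + 1) - 1) (fun i hi => ?_) (fun i j hij hj => ?_)
        (fun i hi => ?_) (fun j hj hne => ?_) _
      · show κ (i + 1) - 1 < M
        have := hM (i + 1) (by omega)
        have := hpos i hi
        omega
      · show κ (i + 1) - 1 < κ (j + 1) - 1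
        have := hmono (i + 1) (j + 1) (by omega) (by omega)
        have := hpos i (by omega)
        omega
      · show b (κ (i + 1) - 1 + 1) = a (i + 1)
        rw [Nat.sub_add_cancel (hpos i hi)]
        exact hb (i + 1) (by omega)
      · refine hout (j + 1) (by omega) fun i hi => ?_
        rcases i with _ | i
        · omega
        · have h' := hne i (by omega)
          have := hpos i (by omega)
          omega
    · have hpos : ∀ i < m, 0 < κ i := fun i hi => by
        rcases Nat.eq_zero_or_pos i with rfl | h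
        · by_contra hc
          exact h0 ⟨hi, by omega⟩
        · have := hmono 0 i h hi
          omega
      have hb0 : b 0 = 0 := hout 0 M.succ_pos fun i hi h => by have := hpos i hi; omega
      rw [J.G_cons_zero M b w hb0]
      refine ih m a _ (fun i => κ i - 1) (fun i hi => ?_) (fun i j hij hj => ?_)
        (fun i hi => ?_) (fun j hj hne => ?_) _
      · show κ i - 1 < M
        have := hM i hi
        have := hpos i hi
        omega
      · show κ i - 1 < κ j - 1
        have := hmono i j hij hj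
        have := hpos i (by omega)
        omega
      · show b (κ i - 1 + 1) = a i
        rw [Nat.sub_add_cancel (hpos i hi)]
        exact hb i hi
      · refine hout (j + 1) (by omega) fun i hi => ?_
        have h' := hne i hi
        have := hpos i hi
        omega

lemma JamesSeq.G_lower_base (ψ : StrongDual ℝ Z) (hψ : ‖ψ‖ ≤ J.C)
    (hψs : ∀ᶠ n in (U0 : Filter ℕ), ψ (J.z n) = J.s) :
    ∀ (m : ℕ) (a : ℕ → ℝ) (w : Z),
      |ψ w + J.s * ∑ i ∈ Finset.range m, a i| ≤ J.C * J.G m a w := by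
  intro m
  induction m with
  | zero =>
    intro a w
    simp only [Finset.range_zero, Finset.sum_empty, mul_zero, add_zero, JamesSeq.G]
    rw [← Real.norm_eq_abs]
    exact ψ.le_of_opNorm_le hψ w
  | succ m ih =>
    intro a w
    refine ge_of_tendsto ((J.tendsto_G m a w).const_mul J.C) ?_
    filter_upwards [hψs] with n hn
    have := ih (fun i => a (i + 1)) (w + a 0 • J.z n)
    refine le_trans (le_of_eq ?_) this
    rw [map_add, map_smul, hn, smul_eq_mul, Finset.sum_range_succ']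
    congr 1
    ring

lemma JamesSeq.G_lower : ∀ (m c : ℕ) (a : ℕ → ℝ) (w : Z),
    (∀ᶠ j in atTop, J.φ j w = 0) →
      J.s * |∑ i ∈ Finset.range m, if c ≤ i then a i else 0| ≤ J.C * J.G m a w := by
  intro m
  induction m with
  | zero =>
    intro c a w _
    simp only [Finset.range_zero, Finset.sum_empty, abs_zero, mul_zero]
    exact mul_nonneg J.C_pos.le (J.G_mem 0 a w).1
  | succ m ih =>
    intro c a w hw
    rcases c with _ | c
    · obtain ⟨j, hj⟩ := hw.exists
      have h := J.G_lower_base (J.φ j) (J.φ_le j)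
        ((Eventually.filter_mono U0_le_atTop (eventually_ge_atTop j)).mono fun n hn => J.low j n hn) (m + 1) a w
      rw [hj, zero_add, abs_mul, abs_of_pos J.s_pos] at h
      simpa using h
    · refine ge_of_tendsto' ((J.tendsto_G m a w).const_mul J.C) fun n => ?_
      have hev : ∀ᶠ j in atTop, J.φ j (w + a 0 • J.z n) = 0 := by
        filter_upwards [hw, eventually_gt_atTop n] with j h1 h2
        rw [map_add, map_smul, h1, J.high j n h2, smul_zero, add_zero]
      refine le_trans (le_of_eq ?_) (ih c (fun i => a (i + 1)) _ hev)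
      rw [Finset.sum_range_succ']
      simp

/-- One more than the largest element of the support. -/
def bnd (a : ℕ →₀ ℝ) : ℕ := a.support.sup (fun i => i + 1)

lemma lt_bnd {a : ℕ →₀ ℝ} {i : ℕ} (h : a i ≠ 0) : i < bnd a :=
  Finset.le_sup (f := fun i => i + 1) (Finsupp.mem_support_iff.2 h)

/-- The spreading seminorm. -/
noncomputable def JamesSeq.N (a : ℕ →₀ ℝ) : ℝ := J.G (bnd a) (⇑a) 0

lemma JamesSeq.N_eq (a : ℕ →₀ ℝ) {M : ℕ} (hM : ∀ i, a i ≠ 0 → i < M) :
    J.N a = J.G M (⇑a) 0 := by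
  have key : ∀ m M', m ≤ M' → (∀ i, a i ≠ 0 → i < m) → J.G M' (⇑a) 0 = J.G m (⇑a) 0 :=
    fun m M' hle hm => J.G_reindex M' m _ _ id (fun i hi => lt_of_lt_of_le hi hle)
      (fun i j h _ => h) (fun i _ => rfl) (fun j _ hne => by
        by_contra hj
        exact hne j (hm j hj) rfl) 0
  rcases le_total (bnd a) M with h | h
  · exact (key _ _ h fun i hi => lt_bnd hi).symm
  · exact key _ _ h hM

/-- The spreading seminorm of a James sequence. -/
noncomputable def JamesSeq.spread : SpreadNorm where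
  N := J.N
  θ := J.s / J.C
  θ_pos := div_pos J.s_pos J.C_pos
  nonneg a := (J.G_mem _ _ _).1
  add_le a b := by
    have hM : ∀ i, (a + b) i ≠ 0 → i < max (bnd a) (bnd b) := fun i hi => by
      rcases em (a i = 0) with h | h
      · refine lt_of_lt_of_le (lt_bnd (a := b) ?_) (le_max_right _ _)
        simpa [h] using hi
      · exact lt_of_lt_of_le (lt_bnd h) (le_max_left _ _)
    rw [J.N_eq _ hM, J.N_eq a (M := max (bnd a) (bnd b)) fun i hi =>
      lt_of_lt_of_le (lt_bnd hi) (le_max_left _ _),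
      J.N_eq b (M := max (bnd a) (bnd b)) fun i hi =>
      lt_of_lt_of_le (lt_bnd hi) (le_max_right _ _)]
    have := J.G_add_le (max (bnd a) (bnd b)) (⇑a) (⇑b) 0 0
    simpa using this
  smul r a := by
    rw [J.N_eq (r • a) (M := bnd a) fun i hi => lt_bnd fun h => hi (by simp [h])]
    have := J.G_smul r (bnd a) (⇑a) 0
    simpa [JamesSeq.N] using this
  single_le i := by
    refine (J.G_reindex (bnd (Finsupp.single i (1 : ℝ))) 1 (fun _ => 1) _ (fun _ => i)
      (fun _ _ => lt_bnd (by simp)) (fun k j h1 h2 => by omega) (fun _ _ => by simp)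
      (fun j _ hne => Finsupp.single_eq_of_ne (fun h => hne 0 one_pos h.symm)) 0).trans_le ?_
    refine le_of_tendsto' (J.tendsto_G 0 (fun _ => (1 : ℝ)) 0) fun n => ?_
    simpa [JamesSeq.G] using J.z_le n
  reindex κ hκ a := by
    refine J.G_reindex (bnd (a.mapDomain κ)) (bnd a) (⇑a) _ κ ?_ (fun i j h _ => hκ h)
      (fun i _ => Finsupp.mapDomain_apply hκ.injective a i) ?_ 0
    · intro i hi
      obtain ⟨j, hj, hji⟩ := (Finset.lt_sup_iff).1 hi
      have : a.mapDomain κ (κ j) ≠ 0 := by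
        rw [Finsupp.mapDomain_apply hκ.injective]
        exact Finsupp.mem_support_iff.1 hj
      exact lt_of_le_of_lt (hκ.monotone (by omega)) (lt_bnd this)
    · intro j _ hne
      by_cases hr : j ∈ Set.range κ
      · obtain ⟨i, rfl⟩ := hr
        rw [Finsupp.mapDomain_apply hκ.injective]
        by_contra h
        exact hne i (lt_bnd h) rfl
      · exact Finsupp.mapDomain_of_notMem_range _ _ hr
  tail a c := by
    have h := J.G_lower (bnd a) c (⇑a) 0 (Eventually.of_forall fun j => map_zero _)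
    have hs : (a.sum fun i r => if c ≤ i then r else 0) =
        ∑ i ∈ Finset.range (bnd a), if c ≤ i then a i else 0 :=
      Finsupp.sum_of_support_subset _ (fun i hi =>
        Finset.mem_range.2 (lt_bnd (Finsupp.mem_support_iff.1 hi))) _ (fun i _ => by simp)
    rw [hs, div_mul_eq_mul_div, div_le_iff₀ J.C_pos]
    exact h.trans (le_of_eq (mul_comm _ _))

end Vale.Agent.P125
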